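import Vale.Agent.P213.CylB

/-! P213: boundary, unit and associativity laws for cylinders. -/

open CategoryTheory

noncomputable section

namespace Vale.Agent.P213

open OCat

namespace Cyl

variable {Z : OCat} {k : ℕ} {α β γ : Cyl Z}

theorem GG_d_lt {m : ℕ} (hm : k + 1 < m) (e e₁ e₂ : Bool) (p q φ φ' : Z.C) :
    GG k e₁ e₂ (Z.d e m p) (Z.d e m q) φ φ' = GG k e₁ e₂ p q φ φ' := by
  rw [GG, GG, Z.d_d_lt _ _ _ hm, Z.d_d_lt _ _ _ hm]

theorem GG_d_eq (e e₁ e₂ : Bool) (p q φ φ' : Z.C) :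
    GG k e₁ e₂ (Z.d e (k + 1) p) (Z.d e (k + 1) q) φ φ' = GG k e e p q φ φ' := by
  rw [GG, GG, d_d, d_d]

theorem GG_id_left (hα : α.Valid) (e₁ e₂ : Bool) {φ : Z.C}
    (h1 : Z.d false k φ = Z.d false k (α.P k))
    (h2 : Z.d false (k + 1) φ = Z.d e₁ (k + 1) (α.P (k + 1))) :
    GG k e₁ e₂ (Z.d false k (α.P k)) (α.Q k) (α.a k false) φ = φ := by
  rw [GG, Z.d_d_ge _ _ _ k.le_succ, id_cmp' h1]
  refine id_cmp' (h2.trans ?_)
  rw [P_succ, Z.d_cmp _ k.lt_succ_self (hα.cpP k), ((hα k).dim false).d _ le_rfl]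

theorem GG_id_right (hα : α.Valid) (e₁ e₂ : Bool) {φ : Z.C}
    (h1 : Z.d true k φ = Z.d true k (α.Q k))
    (h2 : Z.d true (k + 1) φ = Z.d e₂ (k + 1) (α.Q (k + 1))) :
    GG k e₁ e₂ (α.P k) (Z.d true k (α.Q k)) φ (α.a k true) = φ := by
  rw [GG, Z.d_d_ge _ _ _ k.le_succ, cmp_id' h1]
  refine cmp_id' (h2.trans ?_)
  rw [Q_succ, Z.d_cmp _ k.lt_succ_self (hα.cpQ k), ((hα k).dim true).d _ le_rfl]

theorem GG_assoc (e₁ e₂ : Bool) {p p' q' q'' a b c : Z.C} (c1 : Z.Cp k a q') (c2 : Z.Cp k p b)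
    (c3 : Z.Cp k b q'') (c4 : Z.Cp k p' c) (c5 : Z.Cp k p p') (c6 : Z.Cp k q' q'')
    (c7 : Z.Cp (k + 1) (Z.cmp k a (Z.d e₁ (k + 1) q')) (Z.cmp k (Z.d e₂ (k + 1) p) b))
    (c8 : Z.Cp (k + 1) (Z.cmp k b (Z.d e₁ (k + 1) q'')) (Z.cmp k (Z.d e₂ (k + 1) p') c)) :
    GG k e₁ e₂ (Z.cmp k p p') q'' (GG k e₁ e₂ p q' a b) c
      = GG k e₁ e₂ p (Z.cmp k q' q'') a (GG k e₁ e₂ p' q'' b c) := by
  have hm := k.lt_succ_self
  have d1 := c1.d_right e₁ hm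
  have d2 := c2.d_left e₂ hm
  have d3 := c3.d_right e₁ hm
  have d4 := c4.d_left e₂ hm
  have d5 := c5.d e₂ e₂ hm
  have d6 := c6.d e₁ e₁ hm
  have hv : Z.Dim (k + 1) (Z.d e₁ (k + 1) q'') := dim_d _ _ le_rfl
  have hx : Z.Dim (k + 1) (Z.d e₂ (k + 1) p) := dim_d _ _ le_rfl
  have f1 := OCat.Cp.xchg_out hm c7 (hv.cp_self le_rfl) (d1.cmp_left d6)
  have f2 := OCat.Cp.xchg_out hm (hx.cp_self le_rfl) c8 (d2.cmp_right d3)
  simp only [GG]
  rw [Z.d_cmp _ hm c5, Z.d_cmp _ hm c6, distR hm hv c7 (d1.cmp_left d6),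
    distL hm hx c8 (d2.cmp_right d3), Z.assoc d5 d4, ← Z.assoc d1 d6]
  rw [Z.assoc d2 d3] at f1 ⊢
  exact Z.assoc f1 f2

/-- Componentwise, with `Valid.pr_d`; distinguish `m = k + 1` and `m > k + 1`. -/
theorem d_cmp (hα : α.Valid) (hβ : β.Valid) (h : Cp k α β) (e : Bool) {m : ℕ} (hm : k < m) :
    d e m (cmp k α β) = cmp k (d e m α) (d e m β) := by
  refine Cyl.ext (Z.d_cmp e hm h.p) (Z.d_cmp e hm h.q) (funext fun i => funext fun e' => ?_)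
  have hP := (hα.pr_d e hm.le).1
  have hQ := (hβ.pr_d e hm.le).2
  rw [d_a]
  rcases lt_trichotomy i k with hi | rfl | hi
  · rw [if_pos (hi.trans hm), cmp_a_lt _ _ hi, cmp_a_lt _ _ hi, d_a, if_pos (hi.trans hm)]
  · rw [if_pos hm]
    cases e'
    · rw [cmp_a_false, cmp_a_false, d_a, if_pos hm]
    · rw [cmp_a_true, cmp_a_true, d_a, if_pos hm]
  · rcases (Nat.succ_le_of_lt hm).lt_or_eq with hm' | rfl
    · by_cases him : i < m
      · rw [if_pos him]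
        rcases (Nat.succ_le_of_lt hi).lt_or_eq with hi' | rfl
        · rw [cmp_a_gt _ _ hi', cmp_a_gt _ _ hi', hP, hQ, GG_d_lt hm', d_a, d_a, if_pos him,
            if_pos him]
        · rw [cmp_a_succ, cmp_a_succ, hP, hQ, GG_d_lt hm', d_a, d_a, if_pos him, if_pos him]
      · rw [if_neg him, cmp_a_gt _ _ hm', cmp_a_gt _ _ (show k + 1 < i by omega), hP, hQ,
          GG_d_lt hm', d_a, d_a, if_neg him, if_neg him]
    · have him : ¬ i < k + 1 := by omega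
      rw [if_neg him, cmp_a_succ]
      rcases (Nat.succ_le_of_lt hi).lt_or_eq with hi' | rfl
      · rw [cmp_a_gt _ _ hi', hP, hQ, GG_d_eq, d_a, d_a, if_neg him, if_neg him]
      · rw [cmp_a_succ, hP, hQ, GG_d_eq, d_a, d_a, if_neg him, if_neg him]

theorem id_cmp (hα : α.Valid) (k : ℕ) : cmp k (d false k α) α = α := by
  refine Cyl.ext (Z.id_cmp _ _) (Z.id_cmp _ _) (funext fun i => funext fun e => ?_)
  have hP := (hα.pr_d false (le_refl k)).1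
  rcases lt_trichotomy i k with hi | rfl | hi
  · rw [cmp_a_lt _ _ hi, d_a, if_pos hi]
  · cases e
    · rw [cmp_a_false, d_a, if_neg (lt_irrefl i)]
    · rw [cmp_a_true]
  · rcases (Nat.succ_le_of_lt hi).lt_or_eq with hi' | rfl
    · rw [cmp_a_gt _ _ hi', hP, d_a, if_neg hi.not_gt]
      exact GG_id_left hα _ _ (hα.s_a hi e) (hα.s_a hi' e)
    · rw [cmp_a_succ, hP, d_a, if_neg hi.not_gt]
      exact GG_id_left hα _ _ (hα.s_a hi e) ((hα (k + 1)).s e)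

theorem cmp_id (hα : α.Valid) (k : ℕ) : cmp k α (d true k α) = α := by
  refine Cyl.ext (Z.cmp_id _ _) (Z.cmp_id _ _) (funext fun i => funext fun e => ?_)
  have hQ := (hα.pr_d true (le_refl k)).2
  rcases lt_trichotomy i k with hi | rfl | hi
  · rw [cmp_a_lt _ _ hi]
  · cases e
    · rw [cmp_a_false]
    · rw [cmp_a_true, d_a, if_neg (lt_irrefl i)]
  · rcases (Nat.succ_le_of_lt hi).lt_or_eq with hi' | rfl
    · rw [cmp_a_gt _ _ hi', hQ, d_a, if_neg hi.not_gt]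
      exact GG_id_right hα _ _ (hα.t_a hi e) (hα.t_a hi' e)
    · rw [cmp_a_succ, hQ, d_a, if_neg hi.not_gt]
      exact GG_id_right hα _ _ (hα.t_a hi e) ((hα (k + 1)).t e)

/-- For `i > k` both sides are `αᵢ q' q'' ; p βᵢ q'' ; p p' γᵢ` with truncated `p, q`; use
`pr_cmp_le`, `distL`, `distR` and associativity. -/
theorem cmp_assoc (hα : α.Valid) (hβ : β.Valid) (hγ : γ.Valid) (h : Cp k α β) (h' : Cp k β γ) :
    cmp k (cmp k α β) γ = cmp k α (cmp k β γ) := by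
  refine Cyl.ext (Z.assoc h.p h'.p) (Z.assoc h.q h'.q) (funext fun i => funext fun e => ?_)
  have hP := (pr_cmp_le hα hβ h (le_refl k)).1
  have hQ := (pr_cmp_le hβ hγ h' (le_refl k)).2
  rcases lt_trichotomy i k with hi | rfl | hi
  · rw [cmp_a_lt _ _ hi, cmp_a_lt _ _ hi, cmp_a_lt _ _ hi]
  · cases e
    · rw [cmp_a_false, cmp_a_false, cmp_a_false]
    · rw [cmp_a_true, cmp_a_true, cmp_a_true]
  · have c1 := cp_a_Q hα hβ h hi e
    have c2 := cp_P_a hα hβ h hi e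
    have c3 := cp_a_Q hβ hγ h' hi e
    have c4 := cp_P_a hβ hγ h' hi e
    have c5 := h.cpP hα hβ (le_refl k)
    have c6 := h'.cpQ hβ hγ (le_refl k)
    rcases (Nat.succ_le_of_lt hi).lt_or_eq with hi' | rfl
    · rw [cmp_a_gt _ _ hi', cmp_a_gt _ _ hi', cmp_a_gt _ _ hi', cmp_a_gt _ _ hi', hP, hQ]
      exact GG_assoc _ _ c1 c2 c3 c4 c5 c6 (GS.cp3 hα hβ h (gs_a hα hβ hi' e e))
        (GS.cp3 hβ hγ h' (gs_a hβ hγ hi' e e))
    · rw [cmp_a_succ, cmp_a_succ, cmp_a_succ, cmp_a_succ, hP, hQ]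
      exact GG_assoc _ _ c1 c2 c3 c4 c5 c6 (cp_succ hα hβ h e) (cp_succ hβ hγ h' e)

end Cyl

end Vale.Agent.P213
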