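import Vale.Agent.P213.CylV
import Vale.Agent.P213.CylC

/-! P213: the vertical composite is functorial. -/

open CategoryTheory

noncomputable section

namespace Vale.Agent.P213

open OCat

namespace Cyl

variable {Z : OCat} {α β α' β' : Cyl Z}

theorem cylw_paste_aux {a m m' b' p q q' r x y x' y' : Z.C} (da : Z.Dim 1 a) (dm : Z.Dim 1 m)
    (dm' : Z.Dim 1 m') (db : Z.Dim 1 b') (dp : Z.Dim 1 p) (dq : Z.Dim 1 q) (dq' : Z.Dim 1 q')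
    (dr : Z.Dim 1 r) (c1 : Z.Cp 0 a q) (c2 : Z.Cp 0 p m) (c3 : Z.Cp 0 q m') (c4 : Z.Cp 0 m q')
    (c5 : Z.Cp 0 m' r) (c6 : Z.Cp 0 q' b') (tx : Z.d true 1 x = Z.cmp 0 q m')
    (sy : Z.d false 1 y = Z.cmp 0 a q) (ty : Z.d true 1 y = Z.cmp 0 p m)
    (sx' : Z.d false 1 x' = Z.cmp 0 m' r) (tx' : Z.d true 1 x' = Z.cmp 0 q' b')
    (sy' : Z.d false 1 y' = Z.cmp 0 m q') :
    Z.cmp 1 (Z.cmp 0 a (Z.cmp 1 (Z.cmp 0 x r) (Z.cmp 0 q x')))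
        (Z.cmp 0 (Z.cmp 1 (Z.cmp 0 y q') (Z.cmp 0 p y')) b') =
      Z.cmp 1 (Z.cmp 0 (Z.cmp 1 (Z.cmp 0 a x) (Z.cmp 0 y m')) r)
        (Z.cmp 0 p (Z.cmp 1 (Z.cmp 0 m x') (Z.cmp 0 y' b'))) := by
  have o := Nat.one_pos
  have x0 : Z.d false 0 x = Z.d false 0 q := by rw [← Z.d_d_lt false true x o, tx, Z.s_cmp c3]
  have x1 : Z.d true 0 x = Z.d true 0 m' := by rw [← Z.d_d_lt true true x o, tx, Z.t_cmp c3]
  have y1 : Z.d true 0 y = Z.d true 0 q := by rw [← Z.d_d_lt true false y o, sy, Z.t_cmp c1]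
  have y2 : Z.d true 0 y = Z.d true 0 m := by rw [← Z.d_d_lt true true y o, ty, Z.t_cmp c2]
  have u0 : Z.d false 0 x' = Z.d false 0 m' := by
    rw [← Z.d_d_lt false false x' o, sx', Z.s_cmp c5]
  have v0 : Z.d false 0 y' = Z.d false 0 m := by
    rw [← Z.d_d_lt false false y' o, sy', Z.s_cmp c4]
  have v1 : Z.d true 0 y' = Z.d true 0 q' := by rw [← Z.d_d_lt true false y' o, sy', Z.t_cmp c4]
  have ax : Z.Cp 0 a x := c1.trans x0.symm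
  have xr : Z.Cp 0 x r := x1.trans c5
  have qx : Z.Cp 0 q x' := c3.trans u0.symm
  have yq : Z.Cp 0 y q' := y2.trans c4
  have py : Z.Cp 0 p y' := c2.trans v0.symm
  have yb : Z.Cp 0 y' b' := v1.trans c6
  have ym : Z.Cp 0 y m' := y1.trans c3
  have yx : Z.Cp 0 y x' := y1.trans qx
  have mx : Z.Cp 0 m x' := y2.symm.trans yx
  have e1 : Z.Cp 1 (Z.cmp 0 x r) (Z.cmp 0 q x') := by
    rw [OCat.Cp, Z.d_cmp _ o xr, Z.d_cmp _ o qx, tx, sx', dr.d _ le_rfl, dq.d _ le_rfl,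
      Z.assoc c3 c5]
  have e2 : Z.Cp 1 (Z.cmp 0 y q') (Z.cmp 0 p y') := by
    rw [OCat.Cp, Z.d_cmp _ o yq, Z.d_cmp _ o py, ty, sy', dq'.d _ le_rfl, dp.d _ le_rfl,
      Z.assoc c2 c4]
  have e3 : Z.Cp 1 (Z.cmp 0 a x) (Z.cmp 0 y m') := by
    rw [OCat.Cp, Z.d_cmp _ o ax, Z.d_cmp _ o ym, tx, sy, da.d _ le_rfl, dm'.d _ le_rfl,
      Z.assoc c1 c3]
  have e4 : Z.Cp 1 (Z.cmp 0 m x') (Z.cmp 0 y' b') := by
    rw [OCat.Cp, Z.d_cmp _ o mx, Z.d_cmp _ o yb, tx', sy', dm.d _ le_rfl, db.d _ le_rfl,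
      Z.assoc c4 c6]
  have w1 := wh₁ o yx
  have w2 := wh₂ o yx
  rw [sx', ty] at w1
  rw [sy, tx'] at w2
  have f1 := OCat.Cp.xchg_out o (da.cp_self le_rfl) e1 (ax.cmp_right xr)
  have f2 := OCat.Cp.xchg_out o e2 (db.cp_self le_rfl) (yq.cmp_left c6)
  have f3 := OCat.Cp.xchg_out o e3 (dr.cp_self le_rfl) (ax.cmp_left xr)
  have f4 := OCat.Cp.xchg_out o (dp.cp_self le_rfl) e4 (c2.cmp_right mx)
  rw [distL o da e1 (ax.cmp_right xr), distR o db e2 (yq.cmp_left c6),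
    distR o dr e3 (ax.cmp_left xr), distL o dp e4 (c2.cmp_right mx)]
  rw [← Z.assoc ax xr, ← Z.assoc c1 qx] at f1 ⊢
  rw [Z.assoc yq c6, Z.assoc py yb] at f2 ⊢
  rw [Z.assoc ym c5] at f3 ⊢
  rw [← Z.assoc c2 mx] at f4 ⊢
  have g1 : Z.Cp 1 (Z.cmp 0 (Z.cmp 0 a q) x') (Z.cmp 0 y (Z.cmp 0 q' b')) := by
    rw [OCat.Cp, Z.d_cmp _ o (c1.cmp_left qx), Z.d_cmp _ o (yq.cmp_right c6), sy, tx',
      (da.cmp dq c1).d _ le_rfl, (dq'.cmp db c6).d _ le_rfl]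
  have g2 : Z.Cp 1 (Z.cmp 0 y (Z.cmp 0 m' r)) (Z.cmp 0 (Z.cmp 0 p m) x') := by
    rw [OCat.Cp, Z.d_cmp _ o (c2.cmp_left mx), Z.d_cmp _ o (ym.cmp_right c5), ty, sx',
      (dp.cmp dm c2).d _ le_rfl, (dm'.cmp dr c5).d _ le_rfl]
  rw [Z.assoc f1 (g1.cmp_right f2), Z.assoc f3 (g2.cmp_right f4), ← Z.assoc g1 f2,
    ← Z.assoc g2 f4, w1, w2]

theorem cylw_paste (hα : α.Valid) (hβ : β.Valid) (hα' : α'.Valid) (hβ' : β'.Valid)
    (h : α.q = β.p) (h' : α'.q = β'.p) (h1 : Cp 0 α α') (h2 : Cp 0 β β') {e1 e2 e3 e4 : Bool}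
    {x y x' y' : Z.C} (tx : Z.d true 1 x = Z.d e2 1 (β.Q 1))
    (sy : Z.d false 1 y = Z.d e2 1 (α.P 1)) (ty : Z.d true 1 y = Z.d e1 1 (α.Q 1))
    (sx' : Z.d false 1 x' = Z.d e4 1 (β'.P 1)) (tx' : Z.d true 1 x' = Z.d e3 1 (β'.Q 1))
    (sy' : Z.d false 1 y' = Z.d e3 1 (α'.P 1)) :
    Z.cmp 1 (Z.cmp 0 (α.a 0 false) (GG 0 e4 e2 β.p β'.q x x'))
        (Z.cmp 0 (GG 0 e3 e1 α.p α'.q y y') (β'.a 0 true)) =
      GG 0 e4 e1 α.p β'.q (Z.cmp 1 (Z.cmp 0 (α.a 0 false) x) (Z.cmp 0 y (β.a 0 true)))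
        (Z.cmp 1 (Z.cmp 0 (α'.a 0 false) x') (Z.cmp 0 y' (β'.a 0 true))) := by
  have o := Nat.one_pos
  have c1 : Z.Cp 0 (α.a 0 false) α.q := hα.cpP 0
  have c2 : Z.Cp 0 α.p (α.a 0 true) := hα.cpQ 0
  have c3 : Z.Cp 0 β.p (β.a 0 true) := hβ.cpQ 0
  have c4 : Z.Cp 0 (α'.a 0 false) α'.q := hα'.cpP 0
  have c5 : Z.Cp 0 (β'.a 0 false) β'.q := hβ'.cpP 0
  have c6 : Z.Cp 0 β'.p (β'.a 0 true) := hβ'.cpQ 0
  change _ = Z.d e2 1 (Z.cmp 0 β.p (β.a 0 true)) at tx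
  change _ = Z.d e2 1 (Z.cmp 0 (α.a 0 false) α.q) at sy
  change _ = Z.d e1 1 (Z.cmp 0 α.p (α.a 0 true)) at ty
  change _ = Z.d e4 1 (Z.cmp 0 (β'.a 0 false) β'.q) at sx'
  change _ = Z.d e3 1 (Z.cmp 0 β'.p (β'.a 0 true)) at tx'
  change _ = Z.d e3 1 (Z.cmp 0 (α'.a 0 false) α'.q) at sy'
  rw [Z.d_cmp _ o c3, ((hβ 0).dim true).d _ le_rfl] at tx
  rw [Z.d_cmp _ o c1, ((hα 0).dim false).d _ le_rfl, h] at sy
  rw [Z.d_cmp _ o c2, ((hα 0).dim true).d _ le_rfl, h1.a_top] at ty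
  rw [Z.d_cmp _ o c5, ((hβ' 0).dim false).d _ le_rfl, ← h2.a_top] at sx'
  rw [Z.d_cmp _ o c6, ((hβ' 0).dim true).d _ le_rfl, ← h'] at tx'
  rw [Z.d_cmp _ o c4, ((hα' 0).dim false).d _ le_rfl] at sy'
  rw [h] at c1
  rw [h1.a_top] at c2
  rw [← h2.a_top] at c5
  rw [← h'] at c6
  exact cylw_paste_aux ((hα 0).dim false) ((hα' 0).dim false) ((hβ 0).dim true) ((hβ' 0).dim true)
    (dim_d _ _ le_rfl) (dim_d _ _ le_rfl) (dim_d _ _ le_rfl) (dim_d _ _ le_rfl) (c1.d_right _ o)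
    (c2.d_left _ o) (c3.d_left _ o) (c4.d_right _ o) (c5.d_right _ o) (c6.d_left _ o)
    tx sy ty sx' tx' sy'

theorem cylw_in_map {X Y : OCat} {S : Set X.C} {T : Set Y.C} {γ : Cyl X} (hS : γ.In S)
    {f : X.C → Y.C} (hf : ∀ x ∈ S, f x ∈ T) : (γ.map f).In T :=
  ⟨hf _ hS.p, hf _ hS.q, fun i e => hf _ (hS.a i e)⟩

theorem cylw_in_pair {X Y : OCat} {S : Set X.C} {T : Set Y.C} {γ : Cyl X} {δ : Cyl Y}
    (hS : γ.In S) (hT : δ.In T) : (pair γ δ).In {x : X.C × Y.C | x.1 ∈ S ∧ x.2 ∈ T} :=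
  ⟨⟨hS.p, hT.p⟩, ⟨hS.q, hT.q⟩, fun i e => ⟨hS.a i e, hT.a i e⟩⟩

theorem cylw_in_whL (hα : α.Valid) (hβ : β.Valid) (h : α.q = β.p) :
    (whL (α.a 0 false) β.tail).In (Z := Z.up)
      {x | Z.d false 0 x = Z.d false 0 α.p ∧ Z.d true 0 x = Z.d true 0 β.q} := by
  refine cylw_in_map hβ.tail_in fun x hx => ?_
  have c : Z.Cp 0 (α.a 0 false) x := (hα.cpP 0).trans (by rw [Q_zero, h, hx.1])
  exact ⟨(Z.s_cmp c).trans ((hα 0).s false), (Z.t_cmp c).trans hx.2⟩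

theorem cylw_in_whR (hα : α.Valid) (hβ : β.Valid) (h : α.q = β.p) :
    (whR α.tail (β.a 0 true)).In (Z := Z.up)
      {x | Z.d false 0 x = Z.d false 0 α.p ∧ Z.d true 0 x = Z.d true 0 β.q} := by
  refine cylw_in_map hα.tail_in fun x hx => ?_
  have c : Z.Cp 0 x (β.a 0 true) := hx.2.trans (by rw [h]; exact hβ.cpQ 0)
  exact ⟨(Z.s_cmp c).trans hx.1, (Z.t_cmp c).trans ((hβ 0).t true)⟩

theorem cylw_cp_V (hα : α.Valid) (hβ : β.Valid) (hα' : α'.Valid) (hβ' : β'.Valid)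
    (h : α.q = β.p) (h' : α'.q = β'.p) {n : ℕ} (h1 : Cp n α α') (h2 : Cp n β β') :
    Cp n (V α β) (V α' β') := by
  rw [Cp, d_V hα hβ h, d_V hα' hβ' h', h1, h2]

/-- The first half of the second tail of a vertical composite. -/
def cylwA (α β : Cyl Z) : Cyl Z.up.up := α.tail.tail.map (Y := Z.up.up) (Z := Z.up.up)
  fun φ => Z.cmp 1 (Z.cmp 0 (α.a 0 false) (β.a 1 false)) (Z.cmp 0 φ (β.a 0 true))

/-- The second half of the second tail of a vertical composite. -/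
def cylwB (α β : Cyl Z) : Cyl Z.up.up := β.tail.tail.map (Y := Z.up.up) (Z := Z.up.up)
  fun ψ => Z.cmp 1 (Z.cmp 0 (α.a 0 false) ψ) (Z.cmp 0 (α.a 1 true) (β.a 0 true))

theorem cylwA_eq (hα : α.Valid) (hβ : β.Valid) (h : α.q = β.p) :
    whL ((whL (α.a 0 false) β.tail).a 0 false) (whR α.tail (β.a 0 true)).tail = cylwA α β := by
  rw [whR, tail_map (pf_whR ((hβ 0).dim true)) hα.tail (in_whR hα hβ h)]
  rfl

theorem cylwB_eq (hα : α.Valid) (hβ : β.Valid) (h : α.q = β.p) :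
    whR (whL (α.a 0 false) β.tail).tail ((whR α.tail (β.a 0 true)).a 0 true) = cylwB α β := by
  rw [whL, tail_map (pf_whL ((hα 0).dim false)) hβ.tail (in_whL hα hβ h)]
  rfl

theorem cylw_tail2 (hα : α.Valid) (hβ : β.Valid) (h : α.q = β.p) :
    (V α β).tail.tail = V (cylwA α β) (cylwB α β) := by
  rw [tail_V hα hβ h, tail_V (valid_whL hα hβ h) (valid_whR hα hβ h) (whL_q hα hβ h),
    cylwA_eq hα hβ h, cylwB_eq hα hβ h]

theorem cylw_AB (hα : α.Valid) (hβ : β.Valid) (h : α.q = β.p) :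
    (cylwA α β).Valid ∧ (cylwB α β).Valid ∧ (cylwA α β).q = (cylwB α β).p ∧
    (cylwA α β).In (Z := Z.up.up) {x : Z.C | Z.d false 1 x = Z.d false 1 ((V α β).P 1) ∧
      Z.d true 1 x = Z.d true 1 ((V α β).Q 1)} ∧
    (cylwB α β).In (Z := Z.up.up) {x : Z.C | Z.d false 1 x = Z.d false 1 ((V α β).P 1) ∧
      Z.d true 1 x = Z.d true 1 ((V α β).Q 1)} := by
  have v1 := valid_whL hα hβ h
  have v2 := valid_whR hα hβ h
  have v3 := whL_q hα hβ h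
  have hp : (V α β).P 1 = (whL (α.a 0 false) β.tail).p := congrArg Cyl.p (tail_V hα hβ h)
  have hq : (V α β).Q 1 = (whR α.tail (β.a 0 true)).q := congrArg Cyl.q (tail_V hα hβ h)
  rw [← cylwA_eq hα hβ h, ← cylwB_eq hα hβ h, hp, hq]
  exact ⟨valid_whL v1 v2 v3, valid_whR v1 v2 v3, whL_q v1 v2 v3, cylw_in_whL v1 v2 v3,
    cylw_in_whR v1 v2 v3⟩

theorem cylw_tail2_cmp (hα : α.Valid) (hβ : β.Valid) (hα' : α'.Valid) (hβ' : β'.Valid)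
    (h : α.q = β.p) (h' : α'.q = β'.p) (h1 : Cp 0 α α') (h2 : Cp 0 β β') :
    (V (cmp 0 α α') (cmp 0 β β')).tail.tail = (cmp 0 (V α β) (V α' β')).tail.tail := by
  have hc := cylw_cp_V hα hβ hα' hβ' h h' h1 h2
  have hV := valid_V hα hβ h
  have hV' := valid_V hα' hβ' h'
  have hq : (cmp 0 α α').q = (cmp 0 β β').p := congrArg₂ (Z.cmp 0) h h'
  obtain ⟨a1, a2, a3, a4, a5⟩ := cylw_AB hα hβ h
  obtain ⟨b1, b2, b3, b4, b5⟩ := cylw_AB hα' hβ' h'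
  rw [cylw_tail2 (valid_cmp hα hα' h1) (valid_cmp hβ hβ' h2) hq, tail2_cmp hV hV' hc,
    cylw_tail2 hα hβ h, cylw_tail2 hα' hβ' h', pair_V a1 a2 a3 b1 b2 b3,
    map_V (pf_GG hV hV' hc) (a1.pair b1) (a2.pair b2) (Prod.ext a3 b3)
      ((cylw_in_pair a4 b4).mono fun x hx => GS.mk hx.1.1 hx.1.2 hx.2.1 hx.2.2)
      ((cylw_in_pair a5 b5).mono fun x hx => GS.mk hx.1.1 hx.1.2 hx.2.1 hx.2.2)]
  refine congrArg₂ V ?_ ?_
  · rw [cylwA, tail2_cmp hα hα' h1, cmp_a_false, cmp_a_true, cmp_a_succ]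
    have key := fun (x : Z.C × Z.C) (hx : GS 0 α α' x.1 x.2) =>
      cylw_paste hα hβ hα' hβ' h h' h1 h2 ((hβ 1).t false) hx.s1 hx.t1 ((hβ' 1).s false)
        ((hβ' 1).t false) hx.s2
    have hS := in_GS hα hα'
    exact Cyl.ext (key _ hS.p) (key _ hS.q) (funext fun i => funext fun e => key _ (hS.a i e))
  · rw [cylwB, tail2_cmp hβ hβ' h2, cmp_a_false, cmp_a_true, cmp_a_succ]
    have key := fun (x : Z.C × Z.C) (hx : GS 0 β β' x.1 x.2) =>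
      cylw_paste hα hβ hα' hβ' h h' h1 h2 hx.t1 ((hα 1).s true) ((hα 1).t true) hx.s2 hx.t2
        ((hα' 1).s true)
    have hS := in_GS hβ hβ'
    exact Cyl.ext (key _ hS.p) (key _ hS.q) (funext fun i => funext fun e => key _ (hS.a i e))

/-- Notation: juxtaposition is the composite along `0`, `;` along `1`; `α : p → q`, `β : q → r`,
`α' : p' → q'`, `β' : q' → r'`; `a = α₀⁻`, `m = α₀⁺ = α'₀⁻`, `b = α'₀⁺`, `m' = β₀⁺ = β'₀⁻`,
`b' = β'₀⁺`. Index `0` is trivial. Index `1`: both sides are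
`a β₁ r' ; (α₁ β'₁) ; p α'₁ b'` by `wh₁`, `wh₂`. Index `≥ 2`: unfold `V_a_succ` twice. With
`t²` the second tail, `t² (V α β) = V (a β₁⁻ ; t²α m') (a t²β ; α₁⁺ m')` (`tail_V`, `tail_map`).
By `tail2_cmp`, `pair_V`, `map_V` for `pf_GG`, the right side is `V` of the images by
`G x y = x s₁r' ; t₁p y` of the pairs; it remains to check, for cells `φ, φ'` satisfying
`GS 0 α α'` and `ψ, ψ'` satisfying `GS 0 β β'`, that
`G (a β₁⁻ ; φ m') (m β'₁⁻ ; φ' b') = a (β β')₁⁻ ; (φ s₁q' ; t₁p φ') b'` (middle terms: `φ β'₁⁻`) and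
`G (a ψ ; α₁⁺ m') (m ψ' ; α'₁⁺ b') = a (ψ s₁r' ; t₁q ψ') ; (α α')₁⁺ b'` (middle terms: `α₁⁺ ψ'`). -/
theorem V_cmp_zero (hα : α.Valid) (hβ : β.Valid) (hα' : α'.Valid) (hβ' : β'.Valid)
    (h : α.q = β.p) (h' : α'.q = β'.p) (h1 : Cp 0 α α') (h2 : Cp 0 β β') :
    V (cmp 0 α α') (cmp 0 β β') = cmp 0 (V α β) (V α' β') := by
  refine Cyl.ext rfl rfl (funext fun i => funext fun e => ?_)
  rcases i with _ | _ | i
  · cases e
    · rw [V_a_zero, cmp_a_false, cmp_a_false, cmp_a_false, V_a_zero]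
    · rw [V_a_zero, cmp_a_true, cmp_a_true, cmp_a_true, V_a_zero]
  · change Z.cmp 1 (Z.cmp 0 ((cmp 0 α α').a 0 false) ((cmp 0 β β').a (0 + 1) e))
      (Z.cmp 0 ((cmp 0 α α').a (0 + 1) e) ((cmp 0 β β').a 0 true)) = _
    rw [cmp_a_false, cmp_a_true, cmp_a_succ, cmp_a_succ, cmp_a_succ]
    exact cylw_paste hα hβ hα' hβ' h h' h1 h2 ((hβ 1).t e) ((hα 1).s e) ((hα 1).t e)
      ((hβ' 1).s e) ((hβ' 1).t e) ((hα' 1).s e)
  · exact congrArg (fun γ : Cyl Z.up.up => γ.a i e) (cylw_tail2_cmp hα hβ hα' hβ' h h' h1 h2)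

/-- Induction on `n` with `tail_cmp`, `tail_V`, `map_cmp`. -/
theorem V_cmp (hα : α.Valid) (hβ : β.Valid) (hα' : α'.Valid) (hβ' : β'.Valid)
    (h : α.q = β.p) (h' : α'.q = β'.p) {n : ℕ} (h1 : Cp n α α') (h2 : Cp n β β') :
    V (cmp n α α') (cmp n β β') = cmp n (V α β) (V α' β') := by
  induction n generalizing Z with
  | zero => exact V_cmp_zero hα hβ hα' hβ' h h' h1 h2
  | succ n ih =>
    have o := n.succ_pos
    refine Cyl.ext rfl rfl (funext fun i => funext fun e => ?_)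
    rcases i with _ | i
    · rw [V_a_zero, cmp_a_lt _ _ o, cmp_a_lt _ _ o, cmp_a_lt _ _ o, V_a_zero]
    · have hc := cylw_cp_V hα hβ hα' hβ' h h' h1 h2
      have hq : (cmp (n + 1) α α').q = (cmp (n + 1) β β').p := congrArg₂ (Z.cmp (n + 1)) h h'
      have l1 := in_whL hα hβ h
      have l2 := in_whL hα' hβ' h'
      have r1 := in_whR hα hβ h
      have r2 := in_whR hα' hβ' h'
      have v1 := valid_whL hα' hβ' h'
      have v2 := valid_whR hα' hβ' h'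
      have v3 := whL_q hα' hβ' h'
      have t1 := tail_V hα' hβ' h'
      rw [← h1.a_lt o false] at l2 v1 v3 t1
      rw [← h2.a_lt o true] at r2 v2 v3 t1
      have pL := pf_whL ((hα 0).dim false)
      have pR := pf_whR ((hβ 0).dim true)
      have k1 := h1.tail hα hα'
      have k2 := h2.tail hβ hβ'
      have key : (V (cmp (n + 1) α α') (cmp (n + 1) β β')).tail =
          (cmp (n + 1) (V α β) (V α' β')).tail := by
        rw [tail_V (valid_cmp hα hα' h1) (valid_cmp hβ hβ' h2) hq,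
          tail_cmp (valid_V hα hβ h) (valid_V hα' hβ' h') hc, tail_cmp hα hα' h1,
          tail_cmp hβ hβ' h2, cmp_a_lt _ _ o, cmp_a_lt _ _ o, tail_V hα hβ h, t1, whL, whR,
          map_cmp hβ.tail hβ'.tail k2 pL l1 l2, map_cmp hα.tail hα'.tail k1 pR r1 r2]
        refine ih (valid_whL hα hβ h) (valid_whR hα hβ h) v1 v2 (whL_q hα hβ h) v3 ?_ ?_
        · exact (map_d pL l1 _ _).symm.trans ((congrArg _ k2).trans (map_d pL l2 _ _))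
        · exact (map_d pR r1 _ _).symm.trans ((congrArg _ k1).trans (map_d pR r2 _ _))
      exact congrArg (fun γ : Cyl Z.up => γ.a i e) key

end Cyl

end Vale.Agent.P213
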