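import Vale.Agent.P213.Chain2

/-! P213: cells of the orientals. -/

open CategoryTheory

noncomputable section

namespace Vale.Agent.P213

open OCat

variable {L L' : Type} [LinearOrder L] [LinearOrder L']

theorem bd_vertex (v : L) : bd L (Finsupp.single {v} 1) = Finsupp.single ∅ 1 := by
  simp [bd_single, Finset.filter_singleton]

/-- A vertex as a cell. -/
def vx (v : L) : Tab (spx L) where
  x i _ := if i = 0 then Finsupp.single {v} 1 else 0
  pos i _ := by
    split_ifs with h
    · exact single_mem_posChn (by simp [h])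
    · exact zero_mem _
  bd0 _ := bd_vertex v
  bdS i _ := by simp
  fin := ⟨1, fun i hi _ => if_neg (by omega)⟩

theorem vx_x (v : L) (i : ℕ) (e : Bool) :
    (vx v).x i e = if i = 0 then Finsupp.single {v} 1 else 0 := rfl

theorem chain1_aug {c : Chn L} (hc : c ∈ posChn L 0) : (c = 0 ∧ bd L c ∅ = 0) ∨
    ((∃ v, c = Finsupp.single {v} 1) ∧ bd L c ∅ = 1) ∨ 2 ≤ bd L c ∅ := by
  refine posChn_induction (Q := fun c => (c = 0 ∧ bd L c ∅ = 0) ∨
    ((∃ v, c = Finsupp.single {v} 1) ∧ bd L c ∅ = 1) ∨ 2 ≤ bd L c ∅) (by simp) ?_ ?_ hc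
  · intro σ h
    obtain ⟨v, rfl⟩ := Finset.card_eq_one.1 h
    exact Or.inr (Or.inl ⟨⟨v, rfl⟩, by rw [bd_vertex, Finsupp.single_eq_same]⟩)
  · rintro a b (⟨rfl, ha⟩ | ha) hb
    · rwa [zero_add]
    · rcases hb with ⟨rfl, hb⟩ | hb
      · rw [add_zero]
        exact Or.inr ha
      · refine Or.inr (Or.inr ?_)
        rw [map_add, Finsupp.add_apply]
        rcases ha with ⟨-, ha⟩ | ha <;> rcases hb with ⟨-, hb⟩ | hb <;> omega

/-- A positive chain of degree `0` with augmentation `1` is a vertex. -/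
theorem exists_vt (e : Bool) (x : Tab (spx L)) : ∃ v : L, x.x 0 e = Finsupp.single {v} 1 := by
  have h : bd L (x.x 0 e) ∅ = 1 := by
    rw [show bd L (x.x 0 e) = Finsupp.single ∅ 1 from x.bd0 e, Finsupp.single_eq_same]
  rcases chain1_aug (x.pos 0 e) with ⟨-, h'⟩ | ⟨h', -⟩ | h'
  · omega
  · exact h'
  · omega

/-- The source and target vertices of a cell. -/
def vt (e : Bool) (x : Tab (spx L)) : L := (exists_vt e x).choose

theorem vt_spec (e : Bool) (x : Tab (spx L)) : x.x 0 e = Finsupp.single {vt e x} 1 :=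
  (exists_vt e x).choose_spec

theorem vt_eq {e : Bool} {x : Tab (spx L)} {v : L} (h : x.x 0 e = Finsupp.single {v} 1) :
    vt e x = v := by
  rw [vt_spec] at h
  exact Finset.singleton_injective (Finsupp.single_left_injective one_ne_zero h)

theorem vt_vx (e : Bool) (v : L) : vt e (vx v) = v := vt_eq rfl

theorem d_zero_eq (e : Bool) (x : Tab (spx L)) : Tab.d e 0 x = vx (vt e x) := by
  refine Tab.ext (funext fun i => funext fun e' => ?_)
  rw [Tab.d_x, vx_x, if_neg (Nat.not_lt_zero i), vt_spec]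

theorem d_vx (e : Bool) (n : ℕ) (v : L) : Tab.d e n (vx v) = vx v := by
  refine Tab.ext (funext fun i => funext fun e' => ?_)
  simp only [Tab.d_x, vx_x]
  split_ifs <;> first | rfl | omega

theorem vt_d_succ (e e' : Bool) (n : ℕ) (x : Tab (spx L)) :
    vt e (Tab.d e' (n + 1) x) = vt e x := by
  refine vt_eq ?_
  rw [Tab.d_x, if_pos (Nat.succ_pos n), vt_spec]

theorem vt_cmp_false {n : ℕ} {x y : Tab (spx L)} (h : Tab.d true n x = Tab.d false n y) :
    vt false (Tab.cmp n x y) = vt false x := by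
  refine vt_eq ?_
  rw [Tab.cmp_x h, ← vt_spec]
  split_ifs with h1 h2
  · rfl
  · subst h2
    rfl
  · omega

theorem vt_cmp_true {n : ℕ} {x y : Tab (spx L)} (h : Tab.d true n x = Tab.d false n y) :
    vt true (Tab.cmp n x y) = vt true y := by
  refine vt_eq ?_
  rw [Tab.cmp_x h, ← vt_spec]
  split_ifs with h1 h2
  · exact Tab.eq_lt h h1 true
  · subst h2
    rfl
  · omega

theorem vt_cp_zero {x y : Tab (spx L)} (h : Tab.d true 0 x = Tab.d false 0 y) :
    vt true x = vt false y := by
  refine vt_eq ?_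
  rw [Tab.eq_top h, vt_spec]

theorem vt_cp_succ {n : ℕ} {x y : Tab (spx L)}
    (h : Tab.d true (n + 1) x = Tab.d false (n + 1) y) (e : Bool) : vt e x = vt e y := by
  refine vt_eq ?_
  rw [Tab.eq_lt h (Nat.succ_pos n), vt_spec]

theorem vt_tab (f : L →o L') (e : Bool) (x : Tab (spx L)) :
    vt e ((spxMap f).tab x) = f (vt e x) := by
  refine vt_eq ?_
  change push f (x.x 0 e) = _
  rw [vt_spec, push_single]
  simp

theorem tab_vx (f : L →o L') (v : L) : (spxMap f).tab (vx v) = vx (f v) := by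
  refine Tab.ext (funext fun i => funext fun e => ?_)
  change push f ((vx v).x i e) = _
  rw [vx_x, vx_x]
  split_ifs
  · rw [push_single]
    simp
  · exact map_zero _

/-- Remove the vertex `m`; faces without `m` are sent to zero. -/
def chain1Er (m : L) : Chn L →ₗ[ℤ] Chn L :=
  Finsupp.linearCombination ℤ fun σ => if m ∈ σ then Finsupp.single (σ.erase m) (1 : ℤ) else 0

theorem chain1_er_single (m : L) (σ : Finset L) : chain1Er m (Finsupp.single σ 1) =
    if m ∈ σ then Finsupp.single (σ.erase m) (1 : ℤ) else 0 := by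
  rw [chain1Er, Finsupp.linearCombination_single, one_smul]

theorem chain1_er_apply {m : L} {σ : Finset L} (h : m ∈ σ) (c : Chn L) :
    chain1Er m c (σ.erase m) = c σ := by
  refine LinearMap.congr_fun (chn_ext (f := Finsupp.lapply (σ.erase m) ∘ₗ chain1Er m)
    (g := Finsupp.lapply σ) fun τ => ?_) c
  simp only [LinearMap.comp_apply, Finsupp.lapply_apply, chain1_er_single]
  by_cases h1 : τ = σ
  · subst h1
    rw [if_pos h, Finsupp.single_eq_same, Finsupp.single_eq_same]
  · rw [Finsupp.single_eq_of_ne' h1]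
    split_ifs with h2
    · refine Finsupp.single_eq_of_ne' fun h3 => h1 ?_
      rw [← Finset.insert_erase h2, h3, Finset.insert_erase h]
    · rfl

theorem chain1_er_pos (m : L) {i : ℕ} {c : Chn L} (hc : c ∈ posChn L (i + 1)) :
    chain1Er m c ∈ posChn L i := by
  refine chain2_pos (fun σ h => ?_) hc
  rw [chain1_er_single]
  split_ifs with h1
  · exact single_mem_posChn (by rw [Finset.card_erase_of_mem h1, h]; rfl)
  · exact zero_mem _

theorem chain1_bd_er {m : L} {σ : Finset L} {s : ℤ}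
    (h : m ∈ σ → ∀ v ∈ σ.erase m, (-1 : ℤ) ^ ((σ.erase m).filter (· < v)).card =
      s * (-1) ^ (σ.filter (· < v)).card) :
    bd L (chain1Er m (Finsupp.single σ 1)) = s • chain1Er m (bd L (Finsupp.single σ 1)) := by
  rw [chain1_er_single, bd_single, map_sum]
  split_ifs with h1
  · rw [← Finset.add_sum_erase _ _ h1, map_smul, chain1_er_single,
      if_neg (Finset.notMem_erase m σ), smul_zero, zero_add, bd_single, Finset.smul_sum]
    refine Finset.sum_congr rfl fun v hv => ?_
    rw [map_smul, chain1_er_single,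
      if_pos (Finset.mem_erase.2 ⟨(Finset.ne_of_mem_erase hv).symm, h1⟩), h h1 v hv, smul_smul,
      Finset.erase_right_comm]
  · rw [map_zero, Finset.sum_eq_zero, smul_zero]
    intro v _
    rw [map_smul, chain1_er_single, if_neg fun h2 => h1 (Finset.mem_of_mem_erase h2), smul_zero]

theorem chain1_bd_er_max {m : L} {c : Chn L} (h : ∀ σ, c σ ≠ 0 → ∀ v ∈ σ, v ≤ m) :
    bd L (chain1Er m c) = (1 : ℤ) • chain1Er m (bd L c) := by
  refine chain2_ext (f := bd L ∘ₗ chain1Er m) (g := (1 : ℤ) • chain1Er m ∘ₗ bd L) fun σ hσ => ?_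
  refine chain1_bd_er fun _ v hv => ?_
  rw [one_mul, Finset.filter_erase, Finset.erase_eq_of_notMem]
  exact fun h1 => (h σ hσ v (Finset.mem_of_mem_erase hv)).not_gt (Finset.mem_filter.1 h1).2

theorem chain1_bd_er_min {m : L} {c : Chn L} (h : ∀ σ, c σ ≠ 0 → ∀ v ∈ σ, m ≤ v) :
    bd L (chain1Er m c) = (-1 : ℤ) • chain1Er m (bd L c) := by
  refine chain2_ext (f := bd L ∘ₗ chain1Er m) (g := (-1 : ℤ) • chain1Er m ∘ₗ bd L) fun σ hσ => ?_
  refine chain1_bd_er fun hm v hv => ?_
  have h1 : m ∈ σ.filter (· < v) := Finset.mem_filter.2 ⟨hm, lt_of_le_of_ne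
    (h σ hσ v (Finset.mem_of_mem_erase hv)) (Finset.ne_of_mem_erase hv).symm⟩
  rw [Finset.filter_erase, ← Finset.card_erase_add_one h1, pow_succ]
  ring

/-- Induction on `i`: in degree `0` use the augmentation; otherwise apply `CC` for the upper set
of all vertices `≥ M`, `M` the largest vertex in the support, and `bd_CC`. -/
theorem pos_cycle {i : ℕ} {c : Chn L} (hc : c ∈ posChn L i) (h : bd L c = 0) : c = 0 := by
  induction i generalizing c with
  | zero =>
    rcases chain1_aug hc with ⟨h', -⟩ | ⟨-, h'⟩ | h'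
    · exact h'
    · simp [h] at h'
    · simp [h] at h'
  | succ i ih =>
    by_contra h0
    obtain ⟨σ, hσ⟩ := Finsupp.support_nonempty_iff.2 h0
    obtain ⟨v, hv⟩ : σ.Nonempty := Finset.card_pos.1 (by
      rw [chain2_card hc (Finsupp.mem_support_iff.1 hσ)]; omega)
    obtain ⟨m, hm, hm'⟩ := Finset.exists_max_image (c.support.biUnion id) id
      ⟨v, Finset.mem_biUnion.2 ⟨σ, hσ, hv⟩⟩
    obtain ⟨τ, hτ, hmτ⟩ := Finset.mem_biUnion.1 hm
    have e := ih (chain1_er_pos m hc) (by
      rw [chain1_bd_er_max (m := m) fun σ hσ v hv =>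
        hm' v (Finset.mem_biUnion.2 ⟨σ, Finsupp.mem_support_iff.2 hσ, hv⟩), h, map_zero, smul_zero])
    refine Finsupp.mem_support_iff.1 hτ ?_
    rw [← chain1_er_apply (σ := τ) hmτ c, e, Finsupp.zero_apply]

/-- Otherwise `CC (Set.Ici s) (x.x 1 e)` is a positive chain with augmentation `-1`. -/
theorem vt_le (x : Tab (spx L)) : vt false x ≤ vt true x := by
  classical
  by_contra h
  have h1 : bd L (CC (Set.Ici (vt false x)) (x.x 1 false)) ∅ = -1 := by
    rw [bd_CC (isUpperSet_Ici _), show bd L (x.x 1 false) = _ from x.bdS 0 false, vt_spec, vt_spec,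
      map_sub, chain2_CC_none (by simpa using h), CC_single]
    simp [Finset.filter_singleton]
  rcases chain1_aug (CC_pos (Set.Ici (vt false x)) (x.pos 1 false)) with ⟨-, h'⟩ | ⟨-, h'⟩ | h' <;>
    omega

theorem chain1_key {x : Tab (spx L)} {m : L} {s : ℤ}
    (h : ∀ i e, bd L (chain1Er m (x.x i e)) = s • chain1Er m (bd L (x.x i e)))
    (h0 : ∀ e, m ≠ vt e x) {i : ℕ} {e : Bool} {σ : Finset L} (hσ : x.x i e σ ≠ 0) : m ∉ σ := by
  have key : ∀ i e, chain1Er m (x.x i e) = 0 := by
    intro i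
    induction i with
    | zero =>
      intro e
      rw [vt_spec, chain1_er_single, if_neg (by simpa using h0 e)]
    | succ i ih =>
      intro e
      refine pos_cycle (chain1_er_pos m (x.pos (i + 1) e)) ?_
      rw [h, show bd L (x.x (i + 1) e) = _ from x.bdS i e, map_sub, ih, ih, sub_self, smul_zero]
  intro hm
  refine hσ ?_
  rw [← chain1_er_apply hm, key, Finsupp.zero_apply]

theorem chain1_verts (x : Tab (spx L)) :
    {v : L | ∃ i e σ, x.x i e σ ≠ 0 ∧ v ∈ σ}.Finite := by
  obtain ⟨N, hN⟩ := x.fin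
  refine ((Finset.range N ×ˢ (Finset.univ : Finset Bool)).biUnion
    fun p => (x.x p.1 p.2).support.biUnion id).finite_toSet.subset ?_
  rintro v ⟨i, e, σ, h, hv⟩
  refine Finset.mem_coe.2 (Finset.mem_biUnion.2 ⟨(i, e), Finset.mem_product.2
    ⟨Finset.mem_range.2 ?_, Finset.mem_univ _⟩,
      Finset.mem_biUnion.2 ⟨σ, Finsupp.mem_support_iff.2 h, hv⟩⟩)
  by_contra h1
  exact h (by rw [hN i (not_lt.1 h1) e]; rfl)

/-- Let `M` be the largest vertex in all supports and suppose `M > vt true x`. By induction and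
`pos_cycle`, `CC (Set.Ici M) (x.x (i+1) e) = 0` for all `i`, so `M` is in no support. -/
theorem supp_le {x : Tab (spx L)} {i : ℕ} {e : Bool} {σ : Finset L} (h : x.x i e σ ≠ 0) {v : L}
    (hv : v ∈ σ) : v ≤ vt true x := by
  obtain ⟨m, ⟨j, e', τ, hτ, hmτ⟩, hm⟩ :=
    Set.exists_max_image _ id (chain1_verts x) ⟨v, i, e, σ, h, hv⟩
  by_contra h1
  have h2 : vt true x < m := (not_le.1 h1).trans_le (hm v ⟨i, e, σ, h, hv⟩)
  refine chain1_key (fun i e => chain1_bd_er_max fun σ hσ v hv => hm v ⟨i, e, σ, hσ, hv⟩)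
    (fun e => ?_) hτ hmτ
  cases e
  · exact ((vt_le x).trans_lt h2).ne'
  · exact h2.ne'

/-- The same with the smallest vertex `m` and the operator `σ ↦ σ.erase m` (zero if `m ∉ σ`), which
anticommutes with `bd` on chains whose vertices are `≥ m`. -/
theorem le_supp {x : Tab (spx L)} {i : ℕ} {e : Bool} {σ : Finset L} (h : x.x i e σ ≠ 0) {v : L}
    (hv : v ∈ σ) : vt false x ≤ v := by
  obtain ⟨m, ⟨j, e', τ, hτ, hmτ⟩, hm⟩ :=
    Set.exists_min_image _ id (chain1_verts x) ⟨v, i, e, σ, h, hv⟩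
  by_contra h1
  have h2 : m < vt false x := lt_of_le_of_lt (hm v ⟨i, e, σ, h, hv⟩) (not_le.1 h1)
  refine chain1_key (fun i e => chain1_bd_er_min fun σ hσ v hv => hm v ⟨i, e, σ, hσ, hv⟩)
    (fun e => ?_) hτ hmτ
  cases e
  · exact h2.ne
  · exact (h2.trans_le (vt_le x)).ne

theorem tab_congr {f g : L →o L'} {x : Tab (spx L)} (h : ∀ v, v ≤ vt true x → f v = g v) :
    (spxMap f).tab x = (spxMap g).tab x := by
  refine Tab.ext (funext fun i => funext fun e => ?_)
  refine chain2_ext (f := push f) (g := push g) fun σ hσ => ?_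
  rw [push_single, push_single,
    Finset.image_congr (g := g) fun v hv => h v (supp_le hσ (Finset.mem_coe.1 hv))]

theorem tab_id (x : Tab (spx L)) : (spxMap OrderHom.id).tab x = x := by
  exact Tab.ext (funext fun _ => funext fun _ => push_id _)

theorem tab_comp {L'' : Type} [LinearOrder L''] (f : L →o L') (g : L' →o L'') (x : Tab (spx L)) :
    (spxMap (g.comp f)).tab x = (spxMap g).tab ((spxMap f).tab x) := by
  exact Tab.ext (funext fun _ => funext fun _ => push_comp _ _ _)

theorem tab_const (f : L →o L') (w : L') (h : ∀ v, f v = w) (x : Tab (spx L)) :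
    (spxMap f).tab x = vx w := by
  refine Tab.ext (funext fun i => funext fun e => ?_)
  change push f (x.x i e) = _
  rw [vx_x]
  split_ifs with hi
  · subst hi
    rw [vt_spec, push_single]
    simp [h]
  · refine chain2_ext (g := 0) fun σ hσ => ?_
    have h1 := chain2_card (x.pos i e) hσ
    have h2 : (σ.image f).card ≤ 1 :=
      Finset.card_le_one.2 fun a ha b hb => by
        obtain ⟨u, -, rfl⟩ := Finset.mem_image.1 ha
        obtain ⟨v, -, rfl⟩ := Finset.mem_image.1 hb
        rw [h, h]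
    rw [push_single, if_neg (by omega), LinearMap.zero_apply]

/-- An edge as a cell. -/
def chain1Edge {u v : L} (h : u < v) : Tab (spx L) where
  x i e := if i = 0 then Finsupp.single {bif e then v else u} 1
    else if i = 1 then Finsupp.single (insert v {u}) 1 else 0
  pos i _ := by
    split_ifs with h1 h2
    · exact single_mem_posChn (by simp [h1])
    · exact single_mem_posChn (by rw [Finset.card_pair h.ne', h2])
    · exact zero_mem _
  bd0 _ := bd_vertex _
  bdS i _ := by
    rcases i with _ | i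
    · change bd L (Finsupp.single (insert v {u}) 1) = Finsupp.single {v} 1 - Finsupp.single {u} 1
      rw [bd_insert (by simpa using h), bd_vertex, jn_single]
      simp [sub_eq_add_neg]
    · simp
  fin := ⟨2, fun i hi _ => by rw [if_neg (by omega), if_neg (by omega)]⟩

theorem exists_edge {u v : L} (h : u ≤ v) : ∃ x : Tab (spx L), vt false x = u ∧ vt true x = v := by
  rcases h.lt_or_eq with h | rfl
  · exact ⟨chain1Edge h, vt_eq rfl, vt_eq rfl⟩
  · exact ⟨vx u, vt_vx _ _, vt_vx _ _⟩

theorem chain1_fiber [Finite L] (i : ℕ) (b : Chn L) :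
    {c : Chn L | c ∈ posChn L i ∧ bd L c = b}.Finite := by
  refine Set.Finite.of_finite_image (f := fun (c : Chn L) (σ : Finset L) => (c σ).toNat)
    (WellQuasiOrderedLE.finite_of_isAntichain ?_) ?_
  · rintro _ ⟨c, ⟨hc, hc'⟩, rfl⟩ _ ⟨d, ⟨hd, hd'⟩, rfl⟩ hne hle
    have h : d - c = 0 := by
      refine pos_cycle (i := i) (fun σ => ⟨?_, fun h => ?_⟩) (by rw [map_sub, hc', hd', sub_self])
      · have h1 := (hc σ).1
        have h2 := (hd σ).1
        have h3 : (c σ).toNat ≤ (d σ).toNat := hle σ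
        rw [Finsupp.sub_apply]
        omega
      · rw [Finsupp.sub_apply, (hc σ).2 h, (hd σ).2 h, sub_zero]
    exact hne (by rw [sub_eq_zero.1 h])
  · rintro c ⟨hc, -⟩ d ⟨hd, -⟩ h
    ext σ
    have h1 := (hc σ).1
    have h2 := (hd σ).1
    have h3 : (c σ).toNat = (d σ).toNat := congrFun h σ
    omega

theorem chain1_entries [Finite L] (i : ℕ) :
    {c : Chn L | ∃ (x : Tab (spx L)) (e : Bool), x.x i e = c}.Finite := by
  induction i with
  | zero =>
    refine (chain1_fiber 0 (Finsupp.single ∅ 1)).subset ?_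
    rintro _ ⟨x, e, rfl⟩
    exact ⟨x.pos 0 e, x.bd0 e⟩
  | succ i ih =>
    refine ((ih.prod ih).biUnion fun p _ => chain1_fiber (i + 1) (p.1 - p.2)).subset ?_
    rintro _ ⟨x, e, rfl⟩
    exact Set.mem_biUnion (x := (x.x i true, x.x i false)) ⟨⟨x, true, rfl⟩, ⟨x, false, rfl⟩⟩
      ⟨x.pos (i + 1) e, x.bdS i e⟩

/-- For a fixed boundary the positive chains of degree `i` form an antichain (`pos_cycle`), which
is finite by Dickson's lemma (`Pi.wellQuasiOrderedLE`);
the entries vanish in degrees `≥ card L`. -/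
theorem finite_tab [Finite L] : Finite (Tab (spx L)) := by
  have := Fintype.ofFinite L
  have h0 : ∀ (x : Tab (spx L)) (i : ℕ) (e : Bool), Fintype.card L ≤ i → x.x i e = 0 := by
    intro x i e hi
    ext σ
    have := Finset.card_le_univ σ
    exact (x.pos i e σ).2 (by omega)
  have := fun i => (chain1_entries (L := L) i).to_subtype
  refine Finite.of_injective (β := ∀ p : Fin (Fintype.card L) × Bool,
    {c : Chn L | ∃ (x : Tab (spx L)) (e : Bool), x.x p.1 e = c})
    (fun x p => ⟨x.x p.1 p.2, x, p.2, rfl⟩) fun x y h => ?_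
  refine Tab.ext (funext fun i => funext fun e => ?_)
  rcases lt_or_ge i (Fintype.card L) with hi | hi
  · exact congrArg Subtype.val (congrFun h (⟨i, hi⟩, e))
  · rw [h0 x i e hi, h0 y i e hi]

/-- The functor from an oriental to its ordered set of vertices. -/
def vtx (L : Type) [LinearOrder L] : nu (spx L) ⟶ posCat L :=
  toPos (X := nu (spx L)) (vt true) fun x => by
    change vt true (Tab.d false 0 x) ≤ vt true (Tab.d true 0 x)
    rw [d_zero_eq, d_zero_eq, vt_vx, vt_vx]
    exact vt_le x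

theorem lab_vtx (x : Tab (spx L)) : lab (vtx L) x = vt true x := by
  change vt true (Tab.d true 0 x) = _
  rw [d_zero_eq, vt_vx]

theorem lab_eq_vx {T : Type} [Preorder T] (l : nu (spx L) ⟶ posCat T) (x : Tab (spx L)) :
    lab l x = lab l (vx (vt true x)) := by
  rw [← d_zero_eq]
  exact (lab_t l 0 x).symm

theorem lab_vx_mono {T : Type} [Preorder T] (l : nu (spx L) ⟶ posCat T) {u v : L} (h : u ≤ v) :
    lab l (vx u) ≤ lab l (vx v) := by
  obtain ⟨x, rfl, rfl⟩ := exists_edge h
  rw [← lab_eq_vx, ← d_zero_eq]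
  exact lab_d_le l false 0 x

end Vale.Agent.P213
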