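import Vale.Agent.P213.SDefs
import Vale.Agent.P213.Chain1

/-! P213: attaching the nerve of an ordered set to an omega-category, definitions. -/

open CategoryTheory Simplicial MonoidalCategory Opposite Limits CartesianMonoidalCategory

noncomputable section

namespace Vale.Agent.P213

open OCat

/-- A simplex of the Street nerve as a functor. -/
abbrev NO.fn {X : OCat} {m : SimplexCategoryᵒᵖ} (σ : (NO.obj X).obj m) :
    nu (spx (Fin (m.unop.len + 1))) ⟶ X := σ

theorem NO_obj_map_fn {X : OCat} {m m' : SimplexCategoryᵒᵖ} (f : m ⟶ m') (σ : (NO.obj X).obj m) :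
    NO.fn ((NO.obj X).map f σ) = nuMap (spxMap f.unop.toOrderHom) ≫ NO.fn σ := rfl

theorem NO_map_fn {X Y : OCat} (F : X ⟶ Y) {m : SimplexCategoryᵒᵖ} (σ : (NO.obj X).obj m) :
    NO.fn ((NO.map F).app m σ) = NO.fn σ ≫ F := rfl

/-- The false propositions. -/
def notS : Set Prop := fun p => ¬ p

theorem mem_notS {p : Prop} : p ∈ notS ↔ ¬ p := Iff.rfl

theorem isLowerSet_not : IsLowerSet notS := fun _ _ h hp hq => hp (h hq)

/-- `W'` is obtained from `W` by adding an object which is terminal in the strongest sense. -/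
structure IsPlus (W W' : OCat) (j : W ⟶ W') (χ : W' ⟶ posCat Prop) : Prop where
  inj : Function.Injective j.f
  range : ∀ z, ¬ lab χ z ↔ ∃ x, j.f x = z
  isN : ∀ n : ℕ∞, 1 ≤ n → IsN n W → IsN n W'
  ex : ∀ (Y : OCat) (l : Y ⟶ posCat Prop) (u : sub (closed_lab l isLowerSet_not) ⟶ W),
    ∃ φ : Y ⟶ W', φ ≫ χ = l ∧ subι _ ≫ φ = u ≫ j
  uniq : ∀ (Y : OCat) (φ φ' : Y ⟶ W'), φ ≫ χ = φ' ≫ χ →
    (∀ y, ¬ lab (φ ≫ χ) y → φ.f y = φ'.f y) → φ = φ'

set_option linter.unusedSectionVars false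

variable {P : Type} [PartialOrder P]

/-- `Q` is the `n`-category obtained from `X` by attaching the nerve of `B` along that of `A`. -/
structure Att (n : ℕ∞) {A B : Set P} (h : A ⊆ B) {X Q : OCat}
    (fs : (NS A : SSet.{0}) ⟶ NO.obj X) (i : X ⟶ Q) (g : (NS B : SSet.{0}) ⟶ NO.obj Q) : Prop where
  isNX : IsN n X
  isN : IsN n Q
  w : fs ≫ NO.map i = NSi h ≫ g
  ex : ∀ (W : OCat), IsN n W → ∀ (u : X ⟶ W) (v : (NS B : SSet.{0}) ⟶ NO.obj W),
    fs ≫ NO.map u = NSi h ≫ v → ∃ φ : Q ⟶ W, i ≫ φ = u ∧ g ≫ NO.map φ = v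
  uniq : ∀ (W : OCat), IsN n W → ∀ φ φ' : Q ⟶ W, i ≫ φ = i ≫ φ' →
    g ≫ NO.map φ = g ≫ NO.map φ' → φ = φ'

open Classical in
/-- The label of an element. -/
def lb (A : Set P) (b : P) : WithBot P := if b ∈ A then ⊥ else (b : WithBot P)

theorem lb_of_mem {A : Set P} {b : P} (h : b ∈ A) : lb A b = ⊥ := if_pos h

theorem lb_of_notMem {A : Set P} {b : P} (h : b ∉ A) : lb A b = b := if_neg h

theorem lb_mono {A : Set P} (hA : IsLowerSet A) : Monotone (lb A) := fun a b h => by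
  by_cases ha : a ∈ A
  · rw [lb_of_mem ha]
    exact bot_le
  · rw [lb_of_notMem ha, lb_of_notMem fun hb => ha (hA h hb)]
    exact WithBot.coe_le_coe.2 h

/-- The labelling of the objects of `Q`. -/
structure IsLab (A : Set P) {B : Set P} {X Q : OCat} (i : X ⟶ Q)
    (g : (NS B : SSet.{0}) ⟶ NO.obj Q) (l : Q ⟶ posCat (WithBot P)) : Prop where
  hi : ∀ x, lab l (i.f x) = ⊥
  hg : ∀ (m : SimplexCategoryᵒᵖ) (σ : (NS B : SSet.{0}).obj m) (x : Tab (spx (Fin _))),
    lab l ((NO.fn (g.app m σ)).f x) = lb A (NP.fn σ.1 (vt true x))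

/-- The labels allowed by a subset. -/
def lowL (B : Set P) : Set (WithBot P) := {t | ∀ b : P, t = b → b ∈ B}

theorem isLowerSet_lowL {B : Set P} (hB : IsLowerSet B) : IsLowerSet (lowL B) := by
  rintro s _ h hs b rfl
  obtain ⟨c, rfl, hc⟩ := WithBot.coe_le_iff.1 h
  exact hB hc (hs c rfl)

theorem bot_mem_lowL (B : Set P) : ⊥ ∈ lowL B := fun _ h => absurd h WithBot.bot_ne_coe

theorem coe_mem_lowL {B : Set P} {b : P} : (b : WithBot P) ∈ lowL B ↔ b ∈ B :=
  ⟨fun h => h b rfl, fun h _ e => WithBot.coe_injective e ▸ h⟩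

theorem lb_mem_lowL {A B : Set P} (h : A ⊆ B) {b : P} : lb A b ∈ lowL B ↔ b ∈ B := by
  by_cases hb : b ∈ A
  · rw [lb_of_mem hb]
    exact ⟨fun _ => h hb, fun _ => bot_mem_lowL B⟩
  · rw [lb_of_notMem hb, coe_mem_lowL]

open Classical in
/-- The map which fixes `A` and sends everything else to `v`. -/
def colT (A : Set P) (v : P) (b : P) : P := if b ∈ A then b else v

theorem colT_of_mem {A : Set P} (v : P) {b : P} (h : b ∈ A) : colT A v b = b := if_pos h

theorem colT_of_notMem {A : Set P} (v : P) {b : P} (h : b ∉ A) : colT A v b = v := if_neg h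

end Vale.Agent.P213
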