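import Vale.Agent.P213.Cut
import Vale.Agent.P213.CylW
import Vale.Agent.P213.NDefs

/-! P213: a functor into cylinders gives a simplicial homotopy. -/

open CategoryTheory Simplicial MonoidalCategory Opposite Limits CartesianMonoidalCategory

noncomputable section

namespace Vale.Agent.P213

variable {L L' : Type} [LinearOrder L] [LinearOrder L'] {Y : OCat}

/-- The vertical composite attached to a cut cell. -/
def awCyl (σ : nu (spx L) ⟶ Gam Y) (c : Tab (spx L)) (al be : Cyl (nu (spx L))) : Cyl Y :=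
  Cyl.V (al.map (σ ≫ p0 Y).f) (Cyl.V (σ.f c).1 (be.map (σ ≫ p1 Y).f))

/-- The Alexander-Whitney functor of `σ` for the cut `K`. -/
structure IsAW (K : Set L) (σ : nu (spx L) ⟶ Gam Y) (F : nu (spx L) ⟶ Y) : Prop where
  lo : ∀ x, vt true x ∉ K → F.f x = (σ ≫ p0 Y).f x
  hi : ∀ x, vt false x ∈ K → F.f x = (σ ≫ p1 Y).f x
  mid : ∀ x c al be, Cross K x → IsCut K x c al be → Cyl.cyl (F.f x) = awCyl σ c al be

section

variable {K : Set L} (σ : nu (spx L) ⟶ Gam Y) {x y c c' : Tab (spx L)}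
  {al be al' be' : Cyl (nu (spx L))}

theorem aw_v (F : nu (spx L) ⟶ Y) {γ : Cyl (nu (spx L))} (h : γ.Valid) : (γ.map F.f).Valid :=
  Cyl.valid_map (OHom.pf F) h γ.in_univ

theorem aw_e1 (h : IsCut K x c al be) : (σ.f c).1.q = (be.map (σ ≫ p1 Y).f).p :=
  (congrArg (σ ≫ p1 Y).f h.be_p).symm

theorem aw_e2 (h : IsCut K x c al be) :
    (al.map (σ ≫ p0 Y).f).q = (Cyl.V (σ.f c).1 (be.map (σ ≫ p1 Y).f)).p :=
  congrArg (σ ≫ p0 Y).f h.al_q

theorem aw_v2 (h : IsCut K x c al be) : (Cyl.V (σ.f c).1 (be.map (σ ≫ p1 Y).f)).Valid :=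
  Cyl.valid_V (σ.f c).2.1 (aw_v _ h.be_valid) (aw_e1 σ h)

theorem aw_valid (h : IsCut K x c al be) : (awCyl σ c al be).Valid :=
  Cyl.valid_V (aw_v _ h.al_valid) (aw_v2 σ h) (aw_e2 σ h)

theorem aw_d (h : IsCut K x c al be) (e : Bool) (n : ℕ) :
    awCyl σ (Tab.d e n c) (Cyl.d e n al) (Cyl.d e n be) = Cyl.d e n (awCyl σ c al be) := by
  rw [awCyl, awCyl, Cyl.d_V (aw_v _ h.al_valid) (aw_v2 σ h) (aw_e2 σ h),
    Cyl.d_V (σ.f c).2.1 (aw_v _ h.be_valid) (aw_e1 σ h), Cyl.map_d (OHom.pf _) al.in_univ,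
    Cyl.map_d (OHom.pf _) be.in_univ]
  congr 2
  exact congrArg Subtype.val (σ.map_d e n c)

theorem aw_cp (F : nu (spx L) ⟶ Y) {n : ℕ} {γ γ' : Cyl (nu (spx L))} (h : Cyl.Cp n γ γ') :
    Cyl.Cp n (γ.map F.f) (γ'.map F.f) := by
  rw [Cyl.Cp, ← Cyl.map_d (OHom.pf _) γ.in_univ, ← Cyl.map_d (OHom.pf _) γ'.in_univ, h]

theorem aw_cmp (h : IsCut K x c al be) (h' : IsCut K y c' al' be') {n : ℕ}
    (hc : Tab.d true (n + 1) x = Tab.d false (n + 1) y) :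
    awCyl σ (Tab.cmp n c c') (Cyl.cmp n al al') (Cyl.cmp n be be') =
      Cyl.cmp n (awCyl σ c al be) (awCyl σ c' al' be') := by
  obtain ⟨h1, h2, h3⟩ := h.cp h' hc
  have h4 : Cyl.Cp n (σ.f c).1 (σ.f c').1 := gam_cp (OHom.cp σ h1)
  have h5 : (σ.f (Tab.cmp n c c')).1 = Cyl.cmp n (σ.f c).1 (σ.f c').1 :=
    (congrArg Subtype.val (σ.map_cmp h1)).trans (gamCmp_val h4)
  have h6 : Cyl.Cp n (Cyl.V (σ.f c).1 (be.map (σ ≫ p1 Y).f))
      (Cyl.V (σ.f c').1 (be'.map (σ ≫ p1 Y).f)) := by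
    rw [Cyl.Cp, Cyl.d_V (σ.f c).2.1 (aw_v _ h.be_valid) (aw_e1 σ h),
      Cyl.d_V (σ.f c').2.1 (aw_v _ h'.be_valid) (aw_e1 σ h'), h4, aw_cp _ h3]
  rw [awCyl, awCyl, awCyl, h5,
    Cyl.map_cmp h.al_valid h'.al_valid h2 (OHom.pf _) al.in_univ al'.in_univ,
    Cyl.map_cmp h.be_valid h'.be_valid h3 (OHom.pf _) be.in_univ be'.in_univ,
    Cyl.V_cmp (σ.f c).2.1 (aw_v _ h.be_valid) (σ.f c').2.1 (aw_v _ h'.be_valid) (aw_e1 σ h)
      (aw_e1 σ h') h4 (aw_cp _ h3),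
    Cyl.V_cmp (aw_v _ h.al_valid) (aw_v2 σ h) (aw_v _ h'.al_valid) (aw_v2 σ h') (aw_e2 σ h)
      (aw_e2 σ h') (aw_cp _ h2) h6]

theorem aw_left (h : IsCut K y c al be) (hc : Tab.d true 0 x = Tab.d false 0 y) :
    awCyl σ c (Cyl.V (Cyl.cyl (Z := nu (spx L)) x) al) be =
      Cyl.V (Cyl.cyl ((σ ≫ p0 Y).f x)) (awCyl σ c al be) := by
  have e : (Cyl.cyl (Z := nu (spx L)) x).q = al.p := by
    rw [h.al_p, ← d_zero_eq]
    exact hc
  have e' := Cyl.map_cyl (OHom.pf (σ ≫ p0 Y)) (Set.mem_univ x)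
  rw [awCyl, awCyl, Cyl.map_V (OHom.pf _) (Cyl.valid_cyl _) h.al_valid e (Cyl.in_univ _) al.in_univ,
    Cyl.V_assoc (aw_v (σ ≫ p0 Y) (Cyl.valid_cyl x)) (aw_v (σ ≫ p0 Y) h.al_valid) (aw_v2 σ h)
      (congrArg (σ ≫ p0 Y).f e) (aw_e2 σ h), e']

theorem aw_right (h : IsCut K x c al be) (hc : Tab.d true 0 x = Tab.d false 0 y) :
    awCyl σ c al (Cyl.V be (Cyl.cyl (Z := nu (spx L)) y)) =
      Cyl.V (awCyl σ c al be) (Cyl.cyl ((σ ≫ p1 Y).f y)) := by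
  have e : be.q = (Cyl.cyl (Z := nu (spx L)) y).p := by
    rw [h.be_q, ← d_zero_eq]
    exact hc
  have e' := Cyl.map_cyl (OHom.pf (σ ≫ p1 Y)) (Set.mem_univ y)
  rw [awCyl, awCyl, Cyl.map_V (OHom.pf _) h.be_valid (Cyl.valid_cyl _) e be.in_univ (Cyl.in_univ _),
    ← Cyl.V_assoc (σ.f c).2.1 (aw_v _ h.be_valid) (aw_v (σ ≫ p1 Y) (Cyl.valid_cyl y)) (aw_e1 σ h)
      (congrArg (σ ≫ p1 Y).f e),
    ← Cyl.V_assoc (aw_v _ h.al_valid) (aw_v2 σ h) (aw_v (σ ≫ p1 Y) (Cyl.valid_cyl y)) (aw_e2 σ h)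
      (congrArg (σ ≫ p1 Y).f e), e']

theorem aw_p (h : IsCut K x c al be) : (awCyl σ c al be).p = (σ ≫ p0 Y).f (vx (vt false x)) :=
  congrArg (σ ≫ p0 Y).f h.al_p

theorem aw_q (h : IsCut K x c al be) : (awCyl σ c al be).q = (σ ≫ p1 Y).f (vx (vt true x)) :=
  congrArg (σ ≫ p1 Y).f h.be_q

theorem aw_ev (h : IsCut K x c al be) : ∃ ξ, Cyl.cyl ξ = awCyl σ c al be := by
  obtain ⟨N, hN⟩ := (nu (spx L)).fin x
  have hx : Tab.d false (N + 1) x = x := OCat.Dim.mono (Z := nu (spx L)) hN N.le_succ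
  obtain ⟨e1, e2, e3⟩ := IsCut.unique (hx ▸ h.d false N) h
  refine Cyl.exists_ev (aw_valid σ h) ?_ ?_ (N := N) ?_
  · rw [aw_p σ h]
    exact OHom.dim _ (d_vx _ _ _)
  · rw [aw_q σ h]
    exact OHom.dim _ (d_vx _ _ _)
  · rw [← aw_d σ h, e1, e2, e3]

/-- The value of the Alexander-Whitney functor. -/
structure AWR (K : Set L) (σ : nu (spx L) ⟶ Gam Y) (x : Tab (spx L)) (ξ : Y.C) : Prop where
  lo : vt true x ∉ K → ξ = (σ ≫ p0 Y).f x
  hi : vt false x ∈ K → ξ = (σ ≫ p1 Y).f x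
  mid : ∀ c al be, Cross K x → IsCut K x c al be → Cyl.cyl ξ = awCyl σ c al be

theorem exists_awr (hK : IsUpperSet K) (x : Tab (spx L)) : ∃ ξ, AWR K σ x ξ := by
  by_cases h1 : vt true x ∈ K
  · by_cases h2 : vt false x ∈ K
    · exact ⟨_, fun h => absurd h1 h, fun _ => rfl, fun _ _ _ h => absurd h2 h.1⟩
    · obtain ⟨c, al, be, h⟩ := exists_isCut hK ⟨h2, h1⟩
      obtain ⟨ξ, hξ⟩ := aw_ev σ h
      refine ⟨ξ, fun h => absurd h1 h, fun h => absurd h h2, fun c' al' be' _ h' => ?_⟩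
      obtain ⟨rfl, rfl, rfl⟩ := h.unique h'
      exact hξ
  · exact ⟨_, fun _ => rfl, fun h => absurd (hK (vt_le x) h) h1, fun _ _ _ h => absurd h.2 h1⟩

theorem aw_vt_d_le (e : Bool) (n : ℕ) (x : Tab (spx L)) :
    vt true (Tab.d e n x) ≤ vt true x ∧ vt false x ≤ vt false (Tab.d e n x) := by
  rcases n with _ | n
  · rw [d_zero_eq, vt_vx, vt_vx]
    cases e
    · exact ⟨vt_le x, le_rfl⟩
    · exact ⟨le_rfl, vt_le x⟩
  · rw [vt_d_succ, vt_d_succ]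
    exact ⟨le_rfl, le_rfl⟩

variable {σ} {F : Tab (spx L) → Y.C}

theorem aw_map_d (hK : IsUpperSet K) (hF : ∀ x, AWR K σ x (F x)) (e : Bool) (n : ℕ)
    (x : Tab (spx L)) : F (Tab.d e n x) = Y.d e n (F x) := by
  by_cases h1 : vt true x ∈ K
  · by_cases h2 : vt false x ∈ K
    · rw [(hF x).hi h2, (hF _).hi (hK (aw_vt_d_le e n x).2 h2)]
      exact (σ ≫ p1 Y).map_d e n x
    · obtain ⟨c, al, be, h⟩ := exists_isCut hK ⟨h2, h1⟩
      have hm := (hF x).mid c al be ⟨h2, h1⟩ h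
      rcases n with _ | n
      · rw [d_zero_eq]
        cases e
        · rw [(hF _).lo (by rwa [vt_vx]), ← aw_p σ h, ← hm]
          rfl
        · rw [(hF _).hi (by rwa [vt_vx]), ← aw_q σ h, ← hm]
          rfl
      · refine Cyl.cyl_inj ?_
        rw [(hF _).mid _ _ _ ⟨by rwa [vt_d_succ], by rwa [vt_d_succ]⟩ (h.d e n), aw_d σ h, ← hm,
          Cyl.cyl_d]
  · rw [(hF x).lo h1, (hF _).lo fun h => h1 (hK (aw_vt_d_le e n x).1 h)]
    exact (σ ≫ p0 Y).map_d e n x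

theorem aw_map_cmp (hK : IsUpperSet K) (hF : ∀ x, AWR K σ x (F x)) {n : ℕ}
    (hc : Tab.d true n x = Tab.d false n y) : F (Tab.cmp n x y) = Y.cmp n (F x) (F y) := by
  have hc' : Y.Cp n (F x) (F y) := by
    rw [OCat.Cp, ← aw_map_d hK hF, ← aw_map_d hK hF, hc]
  have l1 : vt true x ≤ vt true y := by
    rcases n with _ | n
    · rw [vt_cp_zero hc]
      exact vt_le y
    · exact (vt_cp_succ hc true).le
  have l2 : vt false x ≤ vt false y := by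
    rcases n with _ | n
    · rw [← vt_cp_zero hc]
      exact vt_le x
    · exact (vt_cp_succ hc false).le
  by_cases h1 : vt true y ∈ K
  · by_cases h2 : vt false x ∈ K
    · rw [(hF x).hi h2, (hF y).hi (hK l2 h2), (hF _).hi (by rwa [vt_cmp_false hc])]
      exact (σ ≫ p1 Y).map_cmp hc
    · have hX : Cross K (Tab.cmp n x y) := ⟨by rwa [vt_cmp_false hc], by rwa [vt_cmp_true hc]⟩
      refine Cyl.cyl_inj ?_
      rcases n with _ | n
      · rw [← Cyl.V_cyl hc']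
        by_cases h3 : vt true x ∈ K
        · have h4 : vt false y ∈ K := vt_cp_zero hc ▸ h3
          obtain ⟨c, al, be, h⟩ := exists_isCut hK ⟨h2, h3⟩
          rw [(hF _).mid _ _ _ hX (h.cmp_right hK h4 hc), aw_right σ h hc,
            (hF x).mid _ _ _ ⟨h2, h3⟩ h, (hF y).hi h4]
        · have h4 : vt false y ∉ K := vt_cp_zero hc ▸ h3
          obtain ⟨c, al, be, h⟩ := exists_isCut hK ⟨h4, h1⟩
          rw [(hF _).mid _ _ _ hX (IsCut.cmp_left hK h3 h hc), aw_left σ h hc,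
            (hF y).mid _ _ _ ⟨h4, h1⟩ h, (hF x).lo h3]
      · have h3 : vt true x ∈ K := vt_cp_succ hc true ▸ h1
        have h4 : vt false y ∉ K := vt_cp_succ hc false ▸ h2
        obtain ⟨c, al, be, h⟩ := exists_isCut hK ⟨h2, h3⟩
        obtain ⟨c', al', be', h'⟩ := exists_isCut hK ⟨h4, h1⟩
        rw [(hF _).mid _ _ _ hX (h.cmp_succ h' hc), aw_cmp σ h h' hc, Cyl.cyl_cmp hc',
          (hF x).mid _ _ _ ⟨h2, h3⟩ h, (hF y).mid _ _ _ ⟨h4, h1⟩ h']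
  · rw [(hF y).lo h1, (hF x).lo fun h => h1 (hK l1 h), (hF _).lo (by rwa [vt_cmp_true hc])]
    exact (σ ≫ p0 Y).map_cmp hc

end

theorem exists_isAW {K : Set L} (hK : IsUpperSet K) (σ : nu (spx L) ⟶ Gam Y) :
    ∃ F, IsAW K σ F := by
  choose F hF using exists_awr σ hK
  exact ⟨⟨F, aw_map_d hK hF, aw_map_cmp hK hF⟩, fun x => (hF x).lo, fun x => (hF x).hi,
    fun x => (hF x).mid⟩

theorem IsAW.unique {K : Set L} (hK : IsUpperSet K) {σ : nu (spx L) ⟶ Gam Y}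
    {F F' : nu (spx L) ⟶ Y} (h : IsAW K σ F) (h' : IsAW K σ F') : F = F' := by
  refine ohom_ext fun x => ?_
  by_cases h1 : vt true x ∈ K
  · by_cases h2 : vt false x ∈ K
    · rw [h.hi x h2, h'.hi x h2]
    · obtain ⟨c, al, be, hc⟩ := exists_isCut hK ⟨h2, h1⟩
      exact Cyl.cyl_inj ((h.mid x _ _ _ ⟨h2, h1⟩ hc).trans (h'.mid x _ _ _ ⟨h2, h1⟩ hc).symm)
  · rw [h.lo x h1, h'.lo x h1]

theorem IsAW.push {K : Set L'} {σ : nu (spx L') ⟶ Gam Y} {F : nu (spx L') ⟶ Y} (h : IsAW K σ F)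
    (f : L →o L') : IsAW (f ⁻¹' K) (nuMap (spxMap f) ≫ σ) (nuMap (spxMap f) ≫ F) where
  lo x hx := h.lo ((spxMap f).tab x) (by rwa [vt_tab])
  hi x hx := h.hi ((spxMap f).tab x) (by rwa [vt_tab])
  mid x c al be hx hc :=
    h.mid ((spxMap f).tab x) _ _ _ ⟨by rw [vt_tab]; exact hx.1, by rw [vt_tab]; exact hx.2⟩
      (hc.push f)

theorem aw_upper {m : ℕ} (φ : Fin (m + 1) →o Fin 2) : IsUpperSet (φ ⁻¹' {1}) := fun a b h ha => by
  have := φ.monotone h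
  rw [show φ a = 1 from ha] at this
  exact le_antisymm (Fin.le_last _) this

theorem htp_p0_p1 (Y : OCat) : Htp (NO.map (p0 Y)) (NO.map (p1 Y)) := by
  choose F hF using fun (m : SimplexCategoryᵒᵖ) (φ : Fin (m.unop.len + 1) →o Fin 2)
    (σ : (NO.obj (Gam Y)).obj m) => exists_isAW (aw_upper φ) (NO.fn σ)
  refine Htp.of_fun F (fun α φ σ => ?_) (fun m σ => ?_) (fun m σ => ?_)
  · exact IsAW.unique (aw_upper _) (hF _ _ _) ((hF _ φ σ).push α.unop.toOrderHom)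
  · exact ohom_ext fun x => (hF m _ σ).lo x (by simp)
  · exact ohom_ext fun x => (hF m _ σ).hi x (by simp)

end Vale.Agent.P213
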