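import Vale.Agent.P213.Plus

/-! P213: labels, generation and restriction to lower sets. -/

open CategoryTheory Simplicial MonoidalCategory Opposite Limits CartesianMonoidalCategory

noncomputable section

namespace Vale.Agent.P213

open OCat

variable {P : Type} [PartialOrder P] {n : ℕ∞} {A B : Set P} {h : A ⊆ B} {X Q : OCat}
  {fs : (NS A : SSet.{0}) ⟶ NO.obj X} {i : X ⟶ Q} {g : (NS B : SSet.{0}) ⟶ NO.obj Q}

theorem atta_nat {K : SSet.{0}} {W : OCat} (v : K ⟶ NO.obj W) {m m' : SimplexCategoryᵒᵖ}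
    (α : m ⟶ m') (σ : K.obj m) :
    NO.fn (v.app m' (K.map α σ)) = nuMap (spxMap α.unop.toOrderHom) ≫ NO.fn (v.app m σ) :=
  NatTrans.naturality_apply v α σ

/-- A map to a Street nerve from its components. -/
def attaMk {K : SSet.{0}} {W : OCat}
    (φ : ∀ m : SimplexCategoryᵒᵖ, K.obj m → (nu (spx (Fin (m.unop.len + 1))) ⟶ W))
    (nat : ∀ (m m' : SimplexCategoryᵒᵖ) (α : m ⟶ m') (σ : K.obj m),
      φ m' (K.map α σ) = nuMap (spxMap α.unop.toOrderHom) ≫ φ m σ) : K ⟶ NO.obj W where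
  app m := TypeCat.ofHom (φ m)
  naturality m m' α := by
    ext σ
    exact nat m m' α σ

theorem atta_app {K : SSet.{0}} {W : OCat} {v v' : K ⟶ NO.obj W} (e : v = v')
    (m : SimplexCategoryᵒᵖ) (σ : K.obj m) (x : Tab (spx (Fin (m.unop.len + 1)))) :
    (NO.fn (v.app m σ)).f x = (NO.fn (v'.app m σ)).f x := by rw [e]

theorem atta_ext {K : SSet.{0}} {W : OCat} {v v' : K ⟶ NO.obj W}
    (e : ∀ m σ, NO.fn (v.app m σ) = NO.fn (v'.app m σ)) : v = v' := by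
  ext m σ
  exact e m σ

theorem atta_cancel {K : SSet.{0}} {W W' : OCat} {j : W ⟶ W'} (hj : Function.Injective j.f)
    {v v' : K ⟶ NO.obj W} (e : v ≫ NO.map j = v' ≫ NO.map j) : v = v' :=
  atta_ext fun m σ => ohom_ext fun x => hj (atta_app e m σ x)

theorem atta_lift {K : SSet.{0}} {W : OCat} {S : Set W.C} (hS : W.Closed S) (v : K ⟶ NO.obj W)
    (hv : ∀ m σ x, (NO.fn (v.app m σ)).f x ∈ S) :
    ∃ v' : K ⟶ NO.obj (sub hS), v' ≫ NO.map (subι hS) = v :=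
  ⟨attaMk (fun m σ => subLift hS (NO.fn (v.app m σ)) (hv m σ))
    fun _ _ α σ => cancel_inj (subι_inj hS) (atta_nat v α σ), rfl⟩

/-- The labelling of a nerve by a monotone map. -/
def attaLab (B : Set P) {T : Type} [Preorder T] (f : P →o T) :
    (NS B : SSet.{0}) ⟶ NO.obj (posCat T) :=
  attaMk (fun _ σ => vtx _ ≫ posMap (f.comp (NP.fn σ.1))) fun _ _ α σ => pos_ext fun x => by
    rw [lab_posMap, lab_comp, lab_posMap, lab_vtx, lab_vtx]
    exact congrArg (fun k => f (NP.fn σ.1 k)) (vt_tab _ _ x).symm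

theorem attaLab_lab {T : Type} [Preorder T] (f : P →o T) (m : SimplexCategoryᵒᵖ)
    (σ : (NS B : SSet.{0}).obj m) (x : Tab (spx (Fin (m.unop.len + 1)))) :
    lab (NO.fn ((attaLab B f).app m σ)) x = f (NP.fn σ.1 (vt true x)) :=
  (lab_posMap _ _ _).trans (by rw [lab_vtx]; rfl)

/-- Truncation at a vertex. -/
def attaMin {L : Type} [LinearOrder L] (j : L) : L →o L :=
  ⟨fun k => min k j, fun _ _ h => min_le_min_right _ h⟩

theorem atta_val {W : OCat} (v : (NS B : SSet.{0}) ⟶ NO.obj W) {m : SimplexCategoryᵒᵖ}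
    {τ τ' : (NS B : SSet.{0}).obj m} {x : Tab (spx (Fin (m.unop.len + 1)))}
    (h : ∀ k ≤ vt true x, NP.fn τ.1 k = NP.fn τ'.1 k) :
    (NO.fn (v.app m τ)).f x = (NO.fn (v.app m τ')).f x := by
  let α : m ⟶ m := Quiver.Hom.op (SimplexCategory.Hom.mk (attaMin (vt true x)))
  have e : ∀ σ, (NO.fn (v.app m σ)).f x = (NO.fn (v.app m ((NS B : SSet.{0}).map α σ))).f x :=
    fun σ => by
      rw [atta_nat]
      exact congrArg _ ((tab_id x).symm.trans (tab_congr fun k hk => (min_eq_left hk).symm))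
  rw [e τ, e τ']
  congr 3
  exact Subtype.ext (OrderHom.ext _ _ (funext fun k => h _ (min_le_right _ _)))

theorem atta_cut {B₁ : Set P} (hB₁ : IsLowerSet B₁) {m : SimplexCategoryᵒᵖ} (σ : (NP P).obj m)
    {j : Fin (m.unop.len + 1)} (hj : NP.fn σ j ∈ B₁) :
    ∃ τ : (NS B₁ : SSet.{0}).obj m, ∀ k ≤ j, NP.fn τ.1 k = NP.fn σ k :=
  ⟨⟨(NP.fn σ).comp (attaMin j), fun _ => hB₁ ((NP.fn σ).monotone (min_le_right _ _)) hj⟩,
    fun _ hk => congrArg (NP.fn σ) (min_eq_left hk)⟩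

/-- The indicator of the complement of a lower set. -/
def attaOut {T : Type} [Preorder T] {L : Set T} (hL : IsLowerSet L) : T →o Prop :=
  ⟨fun t => t ∉ L, fun _ _ h h1 h2 => h1 (hL h h2)⟩

/-- Use `constO` at `⊥` on `X` and `σ ↦ vtx _ ≫ posMap (lb A ∘ σ)` on the nerve (`pos_ext`,
`lab_vtx`, `vt_tab`). -/
theorem Att.exists_lab (att : Att n h fs i g) (hn : 1 ≤ n) (hA : IsLowerSet A) :
    ∃ l, IsLab A i g l := by
  obtain ⟨l, h1, h2⟩ := att.ex (posCat (WithBot P)) (isN_posCat _ hn)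
    (constO X ⟨(⊥, ⊥), le_rfl⟩ rfl) (attaLab B ⟨lb A, lb_mono hA⟩)
    (atta_ext fun m σ => pos_ext fun x =>
      ((attaLab_lab _ m _ x).trans (lb_of_mem (σ.2 _))).symm)
  exact ⟨l, fun x => congrArg (fun F => lab F x) h1, fun m σ x =>
    (congrArg (fun z => z.1.2) (atta_app h2 m σ x)).trans (attaLab_lab _ m σ x)⟩

/-- Factor through `sub hS` and use uniqueness. -/
theorem Att.gen (att : Att n h fs i g) {S : Set Q.C} (hS : Q.Closed S) (h1 : ∀ x, i.f x ∈ S)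
    (h2 : ∀ m σ x, (NO.fn (g.app m σ)).f x ∈ S) (z : Q.C) : z ∈ S := by
  obtain ⟨v, hv⟩ := atta_lift hS g h2
  obtain ⟨φ, e1, e2⟩ := att.ex _ (att.isN.sub hS) (subLift hS i h1) v
    (atta_cancel (subι_inj hS) (by
      rw [Category.assoc, ← NO.map_comp, subLift_ι, Category.assoc, hv, att.w]))
  have e : φ ≫ subι hS = 𝟙 Q := att.uniq Q att.isN _ _
    (by rw [← Category.assoc, e1, subLift_ι, Category.comp_id])
    (by rw [NO.map_comp, ← Category.assoc, e2, hv, NO.map_id, Category.comp_id])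
  have e' : (φ.f z).1 = z := congrArg (fun F => OHom.f F z) e
  exact e' ▸ (φ.f z).2

/-- A map on the nerve of a lower set extends to `W'`. For a simplex `σ` of `NS B` apply
`IsPlus.ex` to the labelling `vtx _ ≫ posMap (j ↦ σ j ∉ B₁)` and to the functor
`x ↦ v (σ ∘ min j) x` on the sieve, where `j` is any vertex with `vt true x ≤ j`, `σ j ∈ B₁` (the
value does not depend on `j` by `tab_congr`, `tab_id`, `tab_comp`; take for instance the largest
`j` with `σ j ∈ B₁` when there is one). Naturality follows from `IsPlus.uniq`. -/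
theorem exists_plus_ext {B₁ : Set P} (hB₁ : IsLowerSet B₁) (h₂ : B₁ ⊆ B) {W W' : OCat}
    {j : W ⟶ W'} {χ : W' ⟶ posCat Prop} (hp : IsPlus W W' j χ)
    (v : (NS B₁ : SSet.{0}) ⟶ NO.obj W) : ∃ v' : (NS B : SSet.{0}) ⟶ NO.obj W',
      NSi h₂ ≫ v' = v ≫ NO.map j ∧
      ∀ m σ x, lab χ ((NO.fn (v'.app m σ)).f x) ↔ NP.fn σ.1 (vt true x) ∉ B₁ := by
  let R : ∀ m, (NS B : SSet.{0}).obj m → (nu (spx (Fin (m.unop.len + 1))) ⟶ W') → Prop :=
    fun m σ φ => φ ≫ χ = NO.fn ((attaLab B (attaOut hB₁)).app m σ) ∧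
      ∀ x (τ : (NS B₁ : SSet.{0}).obj m), (∀ k ≤ vt true x, NP.fn τ.1 k = NP.fn σ.1 k) →
        φ.f x = j.f ((NO.fn (v.app m τ)).f x)
  have ex : ∀ m σ, ∃ φ, R m σ φ := fun m σ => by
    have hS := closed_lab (NO.fn ((attaLab B (attaOut hB₁)).app m σ)) isLowerSet_not
    have hm : ∀ x : (sub hS).C, NP.fn σ.1 (vt true x.1) ∈ B₁ := fun x =>
      not_not.1 fun h' => x.2 ((attaLab_lab (attaOut hB₁) m σ x.1).mpr h')
    obtain ⟨u, hu⟩ : ∃ u : sub hS ⟶ W, ∀ (x : (sub hS).C) (τ : (NS B₁ : SSet.{0}).obj m),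
        (∀ k ≤ vt true x.1, NP.fn τ.1 k = NP.fn σ.1 k) → u.f x = (NO.fn (v.app m τ)).f x.1 := by
      by_cases h0 : {k | NP.fn σ.1 k ∈ B₁}.Nonempty
      · obtain ⟨k, hk, hk'⟩ := Set.exists_max_image _ id (Set.toFinite _) h0
        obtain ⟨τ₀, h₀⟩ := atta_cut hB₁ σ.1 hk
        exact ⟨subι _ ≫ NO.fn (v.app m τ₀), fun x τ hτ =>
          atta_val v fun a ha => (h₀ a (ha.trans (hk' _ (hm x)))).trans (hτ a ha).symm⟩
      · have : IsEmpty (sub hS).C := ⟨fun x => h0 ⟨_, hm x⟩⟩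
        exact ⟨⟨isEmptyElim, fun _ _ => isEmptyElim, fun {_ x} => isEmptyElim x⟩, isEmptyElim⟩
    obtain ⟨φ, e1, e2⟩ := hp.ex _ _ u
    refine ⟨φ, e1, fun x τ hτ => ?_⟩
    let x' : (sub hS).C := ⟨x, fun h' => (attaLab_lab (attaOut hB₁) m σ x).mp h'
      (hτ _ le_rfl ▸ τ.2 _)⟩
    exact (congrArg (fun F => OHom.f F x') e2).trans (congrArg j.f (hu x' τ hτ))
  have un : ∀ m σ φ φ', R m σ φ → R m σ φ' → φ = φ' := fun m σ φ φ' r r' =>
    hp.uniq _ _ _ (r.1.trans r'.1.symm) fun y hy => by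
      rw [r.1, attaLab_lab] at hy
      obtain ⟨τ, hτ⟩ := atta_cut hB₁ σ.1 (not_not.1 hy)
      exact (r.2 y τ hτ).trans (r'.2 y τ hτ).symm
  choose φ hφ using ex
  refine ⟨attaMk φ fun m m' α σ => ?_,
    atta_ext fun m σ => ohom_ext fun x => (hφ m _).2 x σ fun _ _ => rfl, fun m σ x => ?_⟩
  · refine un m' _ _ _ (hφ m' _) ⟨?_, fun x τ' hτ' => ?_⟩
    · rw [Category.assoc, (hφ m σ).1, atta_nat]
    · have h1 : NP.fn σ.1 (α.unop.toOrderHom (vt true x)) ∈ B₁ := by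
        have : NP.fn τ'.1 (vt true x) ∈ B₁ := τ'.2 (vt true x)
        rwa [hτ' _ le_rfl] at this
      obtain ⟨τ, hτ⟩ := atta_cut hB₁ σ.1 h1
      have e1 := (hφ m σ).2 ((spxMap α.unop.toOrderHom).tab x) τ fun k hk =>
        hτ k (hk.trans_eq (vt_tab _ _ x))
      have e2 := atta_val v (τ := (NS B₁ : SSet.{0}).map α τ) (τ' := τ') (x := x) fun k hk =>
        (hτ _ (α.unop.toOrderHom.monotone hk)).trans (hτ' k hk).symm
      rw [atta_nat] at e2
      exact e1.trans (congrArg j.f e2)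
  · exact iff_of_eq ((congrArg (fun F => lab F x) (hφ m σ).1).trans (attaLab_lab _ m σ x))

/-- Existence: with `W', j, χ` from `exists_plus`, `exists_plus_ext` gives `φ : Q ⟶ W'`; by
uniqueness `φ ≫ χ = l ≫ posMap (· ∉ lowL B₁)`, so the restriction of `φ` factors through `j`
(`liftInj`). Uniqueness: extend both maps by `IsPlus.ex` and compare by `Att.uniq`, `IsPlus.uniq`;
a cell `g σ x` with `σ (vt true x) ∈ B₁` equals `g (σ ∘ min (vt true x)) x`. -/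
theorem Att.restrict (att : Att n h fs i g) (hn : 1 ≤ n) {l : Q ⟶ posCat (WithBot P)}
    (hl : IsLab A i g l) {B₁ : Set P} (hB₁ : IsLowerSet B₁) (h₁ : A ⊆ B₁) (h₂ : B₁ ⊆ B) :
    ∃ (i₁ : X ⟶ sub (closed_lab l (isLowerSet_lowL hB₁)))
      (g₁ : (NS B₁ : SSet.{0}) ⟶ NO.obj (sub (closed_lab l (isLowerSet_lowL hB₁)))),
      i₁ ≫ subι _ = i ∧ g₁ ≫ NO.map (subι _) = NSi h₂ ≫ g ∧ Att n h₁ fs i₁ g₁ := by
  have hS := closed_lab l (isLowerSet_lowL hB₁)
  obtain ⟨g₁, hg⟩ := atta_lift hS (NSi h₂ ≫ g) fun m σ x =>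
    Set.mem_of_eq_of_mem (s := lowL B₁) (hl.hg m ((NSi h₂).app m σ) x) ((lb_mem_lowL h₁).2 (σ.2 _))
  let i₁ := subLift hS i fun x => Set.mem_of_eq_of_mem (s := lowL B₁) (hl.hi x) (bot_mem_lowL B₁)
  have hi : i₁ ≫ subι hS = i := rfl
  refine ⟨i₁, g₁, rfl, hg, att.isNX, att.isN.sub _, atta_cancel (subι_inj hS) (by
    rw [Category.assoc, ← NO.map_comp, hi, Category.assoc, hg, att.w]; rfl),
    fun W hW u v e => ?_, fun W hW φ φ' e1 e2 => ?_⟩
  · obtain ⟨W', j, χ, hp⟩ := exists_plus W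
    obtain ⟨v', h1, h2⟩ := exists_plus_ext hB₁ h₂ hp v
    obtain ⟨φ, p1, p2⟩ := att.ex W' (hp.isN n hn hW) (u ≫ j) v' (by
      rw [NO.map_comp, ← Category.assoc, e, Category.assoc, ← h1]; rfl)
    have p3 : φ ≫ χ = l ≫ posMap (attaOut (isLowerSet_lowL hB₁)) := by
      refine att.uniq _ (isN_posCat _ hn) _ _ (pos_ext fun x => ?_)
        (atta_ext fun m σ => pos_ext fun x => ?_)
      · rw [← Category.assoc, p1, lab_comp i, lab_posMap, hl.hi]
        exact propext (iff_of_false ((hp.range _).2 ⟨_, rfl⟩) (not_not.2 (bot_mem_lowL B₁)))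
      · refine (congrArg (lab χ) (atta_app p2 m σ x)).trans (propext ((h2 m σ x).trans ?_))
        exact (not_congr (lb_mem_lowL h₁)).symm.trans
          (iff_of_eq (congrArg (· ∉ lowL B₁) (hl.hg m σ x).symm))
    obtain ⟨ψ, p4⟩ : ∃ ψ, ψ ≫ j = subι hS ≫ φ := ⟨_, liftInj_comp j hp.inj (subι hS ≫ φ)
      fun z => (hp.range _).1 fun hz => ((congrArg (fun F => lab F z.1) p3).mp hz) z.2⟩
    refine ⟨ψ, cancel_inj hp.inj ?_, atta_cancel hp.inj ?_⟩
    · rw [Category.assoc, p4, ← Category.assoc, hi, p1]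
    · rw [Category.assoc, ← NO.map_comp, p4, NO.map_comp, ← Category.assoc, hg, Category.assoc, p2,
        h1]
  · obtain ⟨W', j, χ, hp⟩ := exists_plus W
    have ex : ∀ ψ : sub hS ⟶ W, ∃ Ψ : Q ⟶ W',
        Ψ ≫ χ = l ≫ posMap (attaOut (isLowerSet_lowL hB₁)) ∧ subι hS ≫ Ψ = ψ ≫ j := fun ψ => by
      obtain ⟨Ψ, q1, q2⟩ := hp.ex Q (l ≫ posMap (attaOut (isLowerSet_lowL hB₁)))
        (subLift hS (subι _) (fun z => not_not.1 z.2) ≫ ψ)
      exact ⟨Ψ, q1, congrArg (subLift _ (subι hS) (fun z => not_not.2 z.2) ≫ ·) q2⟩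
    obtain ⟨Φ, q1, q2⟩ := ex φ
    obtain ⟨Φ', q1', q2'⟩ := ex φ'
    refine cancel_inj hp.inj (q2.symm.trans (Eq.trans ?_ q2'))
    refine congrArg _ (att.uniq W' (hp.isN n hn hW) _ _ ?_ (atta_ext fun m σ => ?_))
    · rw [← hi, Category.assoc, Category.assoc, q2, q2', reassoc_of% e1]
    · refine hp.uniq _ (NO.fn (g.app m σ) ≫ Φ) (NO.fn (g.app m σ) ≫ Φ')
        (by rw [Category.assoc, Category.assoc, q1, q1']) fun y hy => ?_
      rw [Category.assoc, q1, lab_comp, lab_posMap, hl.hg] at hy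
      obtain ⟨τ, hτ⟩ := atta_cut hB₁ σ.1 ((lb_mem_lowL h₁).1 (not_not.1 hy))
      have e3 : (NO.fn (g.app m σ)).f y = (subι hS).f ((NO.fn (g₁.app m τ)).f y) :=
        (atta_val g fun k hk => (hτ k hk).symm).trans (atta_app hg m τ y).symm
      rw [comp_f, comp_f, e3, ← comp_f, ← comp_f _ Φ', q2, q2']
      exact congrArg j.f (atta_app e2 m τ y)

end Vale.Agent.P213
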