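import Vale.Agent.P213.NDefs

/-! P213: limits, colimits and the left adjoint of the Street nerve. -/

open CategoryTheory Simplicial MonoidalCategory Opposite Limits CartesianMonoidalCategory

noncomputable section

namespace Vale.Agent.P213

open OCat

section

variable {J : Type} [SmallCategory J]

theorem olim_closed (F : J ⥤ OCat) :
    (OCat.pi F.obj).Closed {x | ∀ ⦃j j' : J⦄ (f : j ⟶ j'), (F.map f).f (x.1 j) = x.1 j'} where
  d e n x hx j j' f := ((F.map f).map_d e n _).trans (congrArg _ (hx f))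
  cmp {n x y} h hx hy j j' f := by
    have h' := fun i => congrFun (congrArg Subtype.val h) i
    dsimp only
    rw [dif_pos h']
    exact ((F.map f).map_cmp (h' j)).trans (by rw [hx f, hy f])

/-- The projections of the product. -/
def piProj {I : Type} (Y : I → OCat) (i : I) : OCat.pi Y ⟶ Y i where
  f x := x.1 i
  map_d _ _ _ := rfl
  map_cmp h := by
    dsimp only
    rw [dif_pos fun i => congrFun (congrArg Subtype.val h) i]

/-- Maps into the product. -/
def piLift {I : Type} {Y : I → OCat} {W : OCat} (f : ∀ i, W ⟶ Y i) : W ⟶ OCat.pi Y where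
  f w := ⟨fun i => (f i).f w, (W.fin w).imp fun _ h i => OHom.dim (f i) h⟩
  map_d e n w := Subtype.ext (funext fun i => (f i).map_d e n w)
  map_cmp h := by
    dsimp only
    rw [dif_pos fun i => OHom.cp (f i) h]
    exact Subtype.ext (funext fun i => (f i).map_cmp h)

/-- The limit cone. -/
def olimCone (F : J ⥤ OCat) : Cone F where
  pt := sub (olim_closed F)
  π := { app j := subι _ ≫ piProj F.obj j
         naturality _ _ f := ohom_ext fun x => (x.2 f).symm }

/-- The limit cone is a limit. -/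
def olimIsLimit (F : J ⥤ OCat) : IsLimit (olimCone F) where
  lift s := subLift _ (piLift s.π.app) fun z _ _ f => congrArg (fun H => OHom.f H z) (s.w f)
  fac _ _ := rfl
  uniq _ _ h := ohom_ext fun z => Subtype.ext (Subtype.ext (funext fun j =>
    congrArg (fun H => OHom.f H z) (h j)))

theorem isN_pi {n : ℕ∞} {I : Type} {Y : I → OCat} (h : ∀ i, IsN n (Y i)) : IsN n (OCat.pi Y) := by
  induction n using ENat.recTopCoe with
  | top => exact isN_top _
  | coe n => exact isN_coe.2 fun x => Subtype.ext (funext fun i => isN_coe.1 (h i) _)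

/-- The limit cone in `n`-categories. -/
def nlimCone {n : ℕ∞} (F : J ⥤ NCat n) : Cone F where
  pt := ⟨(olimCone (F ⋙ (IsN n).ι)).pt, IsN.sub _ (isN_pi fun j => (F.obj j).property)⟩
  π := { app j := ObjectProperty.homMk ((olimCone (F ⋙ (IsN n).ι)).π.app j)
         naturality _ _ f :=
          ObjectProperty.hom_ext _ ((olimCone (F ⋙ (IsN n).ι)).π.naturality f) }

/-- The limit cone is a limit. -/
def nlimIsLimit {n : ℕ∞} (F : J ⥤ NCat n) : IsLimit (nlimCone F) :=
  isLimitOfReflects (IsN n).ι (olimIsLimit (F ⋙ (IsN n).ι))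

end

theorem hasLimits_NCat (n : ℕ∞) : HasLimitsOfSize.{0, 0} (NCat n) :=
  ⟨fun _ _ => ⟨fun F => ⟨_, nlimIsLimit F⟩⟩⟩

theorem preservesLimits_street (n : ℕ∞) : PreservesLimitsOfSize.{0, 0} (street n) := by
  have : PreservesLimitsOfSize.{0, 0} (IsN n).ι :=
    ⟨fun {_ _} => ⟨fun {F} => preservesLimit_of_preserves_limit_cone (nlimIsLimit F)
      (olimIsLimit (F ⋙ (IsN n).ι))⟩⟩
  have : PreservesLimitsOfSize.{0, 0} NO := by
    unfold NO
    infer_instance
  unfold street
  infer_instance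

/-- Terms. -/
inductive Tm (I : Type) : Type where
  | gen (i : I)
  | d (e : Bool) (k : ℕ) (t : Tm I)
  | cmp (k : ℕ) (t t' : Tm I)

/-- The value of a term. -/
def Tm.ev {I : Type} {Y : OCat} (y : I → Y.C) (t : Tm I) : Y.C :=
  match t with
  | .gen i => (y i)
  | .d e k t => (Y.d e k (t.ev y))
  | .cmp k t t' => (Y.cmp k (t.ev y) (t'.ev y))

theorem small_sub (n : ℕ∞) (I : Type) : ∃ (ι : Type) (T : ι → NCat n),
    ∀ (Y : NCat n) (y : I → Y.obj.C), ∃ (k : ι) (m : T k ⟶ Y),
      Function.Injective m.hom.f ∧ ∀ i, ∃ z, m.hom.f z = y i := by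
  refine ⟨Σ S : Set (Tm I), {p : (Bool → ℕ → S → S) × (ℕ → S → S → S) //
    ∃ (X : NCat n) (e : X.obj.C ≃ S), (∀ b k x, e (X.obj.d b k x) = p.1 b k (e x)) ∧
      ∀ k x x', e (X.obj.cmp k x x') = p.2 k (e x) (e x')}, fun k => k.2.2.choose, fun Y y => ?_⟩
  have hS : Y.obj.Closed (Set.range (Tm.ev y)) := ⟨by
    rintro e k _ ⟨t, rfl⟩
    exact ⟨.d e k t, rfl⟩, by
    rintro k _ _ _ ⟨t, rfl⟩ ⟨t', rfl⟩
    exact ⟨.cmp k t t', rfl⟩⟩
  choose s hs using fun x : (sub hS).C => x.2
  have hi : Function.Injective s := fun x x' h => Subtype.ext (by rw [← hs, ← hs, h])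
  let e₀ := Equiv.ofInjective s hi
  have hk : ∃ (X : NCat n) (e : X.obj.C ≃ Set.range s),
      (∀ b k x, e (X.obj.d b k x) = e₀ ((sub hS).d b k (e₀.symm (e x)))) ∧
      ∀ k x x', e (X.obj.cmp k x x') = e₀ ((sub hS).cmp k (e₀.symm (e x)) (e₀.symm (e x'))) :=
    ⟨⟨sub hS, IsN.sub hS Y.property⟩, e₀, fun _ _ _ => by rw [Equiv.symm_apply_apply],
      fun _ _ _ => by rw [Equiv.symm_apply_apply, Equiv.symm_apply_apply]⟩
  obtain ⟨e, h1, h2⟩ := hk.choose_spec
  let m : hk.choose.obj ⟶ sub hS :=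
    { f := fun x => e₀.symm (e x)
      map_d := fun b k x => by rw [h1, Equiv.symm_apply_apply]
      map_cmp := fun _ => by rw [h2, Equiv.symm_apply_apply] }
  refine ⟨⟨Set.range s, (fun b k x => e₀ ((sub hS).d b k (e₀.symm x)),
    fun k x x' => e₀ ((sub hS).cmp k (e₀.symm x) (e₀.symm x'))), hk⟩,
    ObjectProperty.homMk (m ≫ subι hS), (subι_inj hS).comp (e₀.symm.injective.comp e.injective),
    fun i => ⟨e.symm (e₀ ⟨y i, .gen i, rfl⟩), ?_⟩⟩
  change (e₀.symm (e (e.symm _))).1 = _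
  rw [Equiv.apply_symm_apply, Equiv.symm_apply_apply]

theorem hasColimits_NCat (n : ℕ∞) : HasColimitsOfSize.{0, 0} (NCat n) := by
  have := hasLimits_NCat n
  refine ⟨fun J _ => hasColimitsOfShape_iff_isRightAdjoint_const.2
    (isRightAdjoint_of_preservesLimits_of_solutionSetCondition _ fun F => ?_)⟩
  obtain ⟨ι, T, hT⟩ := small_sub n (Σ j, (F.obj j).obj.C)
  refine ⟨Σ k, F ⟶ (Functor.const J).obj (T k), fun k => T k.1, fun k => k.2, fun X h => ?_⟩
  obtain ⟨k, m, hm, hs⟩ := hT X fun z => (h.app z.1).hom.f z.2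
  refine ⟨⟨k,
    { app j := ObjectProperty.homMk (liftInj m.hom hm (h.app j).hom fun z => hs ⟨j, z⟩)
      naturality j j' f := ObjectProperty.hom_ext _ (cancel_inj hm ?_) }⟩, m, ?_⟩
  · change ((F.map f).hom ≫ liftInj _ hm _ _) ≫ m.hom = (liftInj _ hm _ _ ≫ 𝟙 _) ≫ m.hom
    rw [Category.assoc, liftInj_comp, Category.comp_id, liftInj_comp]
    exact congrArg (fun H => H.hom) ((h.naturality f).trans (Category.comp_id _))
  · ext j
    exact liftInj_comp m.hom hm _ _

theorem street_isRightAdjoint (n : ℕ∞) : (street n).IsRightAdjoint := by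
  have := hasLimits_NCat n
  have := preservesLimits_street n
  refine isRightAdjoint_of_preservesLimits_of_solutionSetCondition _ fun K => ?_
  obtain ⟨ι, T, hT⟩ :=
    small_sub n (Σ m : SimplexCategoryᵒᵖ, K.obj m × Tab (spx (Fin (m.unop.len + 1))))
  refine ⟨Σ k, K ⟶ (street n).obj (T k), fun k => T k.1, fun k => k.2, fun X h => ?_⟩
  obtain ⟨k, m, hm, hs⟩ := hT X fun z => (NO.fn (X := X.obj) (h.app z.1 z.2.1)).f z.2.2
  refine ⟨⟨k,
    { app a := TypeCat.ofHom fun σ =>
        liftInj m.hom hm (NO.fn (X := X.obj) (h.app a σ)) fun z => hs ⟨a, σ, z⟩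
      naturality a a' f := ?_ }⟩, m, ?_⟩
  · ext σ
    refine cancel_inj hm ?_
    exact (liftInj_comp m.hom hm _ _).trans ((h.naturality_apply f σ).trans
      (congrArg (fun z => nuMap (spxMap f.unop.toOrderHom) ≫ z)
        (liftInj_comp m.hom hm (NO.fn (X := X.obj) (h.app a σ)) fun z => hs ⟨a, σ, z⟩).symm))
  · ext a σ
    exact liftInj_comp m.hom hm _ _

variable {P : Type} [PartialOrder P] {n : ℕ∞} {A B : Set P}

theorem att_of_isPushout {c : SSet.{0} ⥤ NCat n} (adj : c ⊣ street n) (h : A ⊆ B) {X Q : NCat n}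
    {f : c.obj (NS A : SSet.{0}) ⟶ X} {i : X ⟶ Q} {g : c.obj (NS B : SSet.{0}) ⟶ Q}
    (sq : IsPushout f (c.map (NSi h)) i g) :
    Att n h (X := X.obj) (Q := Q.obj) (adj.homEquiv _ _ f) i.hom (adj.homEquiv _ _ g) where
  isNX := X.property
  isN := Q.property
  w := by
    change adj.homEquiv _ _ f ≫ (street n).map i = NSi h ≫ adj.homEquiv _ _ g
    rw [← adj.homEquiv_naturality_right, sq.w, adj.homEquiv_naturality_left]
  ex W hW u v e := by
    let W' : NCat n := ⟨W, hW⟩
    let u' : X ⟶ W' := ObjectProperty.homMk u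
    have e' : f ≫ u' = c.map (NSi h) ≫ (adj.homEquiv _ W').symm v := by
      refine (adj.homEquiv _ W').injective ?_
      rw [adj.homEquiv_naturality_right, adj.homEquiv_naturality_left]
      exact e.trans (congrArg (fun z => NSi h ≫ z) (Equiv.apply_symm_apply _ _).symm)
    refine ⟨(sq.desc u' _ e').hom, congrArg (fun H => H.hom) (sq.inl_desc u' _ e'), ?_⟩
    change adj.homEquiv _ _ g ≫ (street n).map (sq.desc u' _ e') = _
    rw [← adj.homEquiv_naturality_right, sq.inr_desc]
    exact Equiv.apply_symm_apply _ _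
  uniq W hW φ φ' e1 e2 := by
    let W' : NCat n := ⟨W, hW⟩
    have : (ObjectProperty.homMk φ : Q ⟶ W') = ObjectProperty.homMk φ' := by
      refine sq.hom_ext (ObjectProperty.hom_ext _ e1) ((adj.homEquiv _ W').injective ?_)
      rw [adj.homEquiv_naturality_right, adj.homEquiv_naturality_right]
      exact e2
    exact congrArg (fun H => H.hom) this

theorem exists_att (h : A ⊆ B) {X : OCat} (hX : IsN n X) (fs : (NS A : SSet.{0}) ⟶ NO.obj X) :
    ∃ (Q : OCat) (i : X ⟶ Q) (g : (NS B : SSet.{0}) ⟶ NO.obj Q), Att n h fs i g := by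
  have := street_isRightAdjoint n
  have := hasColimits_NCat n
  let adj := Adjunction.ofIsRightAdjoint (street n)
  have a := att_of_isPushout adj h (IsPushout.of_hasPushout
    ((adj.homEquiv _ (⟨X, hX⟩ : NCat n)).symm fs) ((street n).leftAdjoint.map (NSi h)))
  exact ⟨_, _, _, Equiv.apply_symm_apply (adj.homEquiv _ (⟨X, hX⟩ : NCat n)) fs ▸ a⟩

end Vale.Agent.P213
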