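import Vale.Agent.P213.SKan

/-! P213: gluing and homotopy pushouts. -/

open CategoryTheory Simplicial MonoidalCategory Opposite Limits CartesianMonoidalCategory

noncomputable section

namespace Vale.Agent.P213

theorem sglue_mono {A B X Y : SSet.{0}} {f : A ⟶ X} {i : A ⟶ B} {k : X ⟶ Y} {g : B ⟶ Y}
    (sq : IsPushout f i k g) [hi : Mono i] : Mono k := by
  have h : II.rlp.llp i := by rw [triv_llp]; exact hi
  have h' : II.rlp.llp k := MorphismProperty.of_isPushout sq h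
  rw [triv_llp] at h'
  exact h'

theorem sglue_left {A B X Y X' Y' : SSet.{0}} {f : A ⟶ X} {i : A ⟶ B} {k : X ⟶ Y} {g : B ⟶ Y}
    {q : X ⟶ X'} {k' : X' ⟶ Y'} {g' : B ⟶ Y'} (sq : IsPushout f i k g)
    (sq' : IsPushout (f ≫ q) i k' g') [Mono i] (hq : WHE q) (ψ : Y ⟶ Y') (e1 : k ≫ ψ = q ≫ k')
    (e2 : g ≫ ψ = g') : WHE ψ := by
  have := sglue_mono sq
  exact whe_pushout_left (IsPushout.of_left (e2 ▸ sq') e1.symm sq) hq

theorem sglue_right {A B B' X Y Y' : SSet.{0}} {f : A ⟶ X} {i : A ⟶ B} {k : X ⟶ Y} {g : B ⟶ Y}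
    {β : B ⟶ B'} {k' : X ⟶ Y'} {g' : B' ⟶ Y'} (sq : IsPushout f i k g)
    (sq' : IsPushout f (i ≫ β) k' g') [Mono i] [Mono (i ≫ β)] (hβ : WHE β) (ψ : Y ⟶ Y')
    (e1 : k ≫ ψ = k') (e2 : g ≫ ψ = β ≫ g') : WHE ψ := by
  obtain ⟨M, m, q, hm, hq, rfl⟩ := exists_mono_triv f
  have s1 := IsPushout.of_hasPushout m i
  have s2 := IsPushout.of_hasPushout m (i ≫ β)
  have w1 : m ≫ q ≫ k = i ≫ g := by rw [← Category.assoc, sq.w]
  have w2 : m ≫ q ≫ k' = (i ≫ β) ≫ g' := by rw [← Category.assoc, sq'.w]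
  have w3 : m ≫ pushout.inl m (i ≫ β) = i ≫ β ≫ pushout.inr m (i ≫ β) := by
    rw [s2.w, Category.assoc]
  have h1 := sglue_left s1 sq (whe_of_triv hq) (s1.desc _ _ w1) (by simp) (by simp)
  have h2 := sglue_left s2 sq' (whe_of_triv hq) (s2.desc _ _ w2) (by simp) (by simp)
  have h3 := sglue_left s1.flip s2.flip hβ (s1.desc _ _ w3) (by simp) (by simp)
  refine h1.of_pre ?_
  have e : s1.desc _ _ w1 ≫ ψ = s1.desc _ _ w3 ≫ s2.desc _ _ w2 :=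
    s1.hom_ext (by simp [e1]) (by simp [e2])
  rw [e]
  exact h3.comp h2

/-- The gluing lemma. Reduce with `whe_pushout_left` to `αX = 𝟙`, then to `αA = 𝟙`; then factor
`f` as a monomorphism followed by a trivial fibration. -/
theorem whe_glue {A B X Y A' B' X' Y' : SSet.{0}} {f : A ⟶ X} {i : A ⟶ B} {k : X ⟶ Y} {g : B ⟶ Y}
    {f' : A' ⟶ X'} {i' : A' ⟶ B'} {k' : X' ⟶ Y'} {g' : B' ⟶ Y'} (sq : IsPushout f i k g)
    (sq' : IsPushout f' i' k' g') [Mono i] [Mono i'] (αA : A ⟶ A') (αB : B ⟶ B') (αX : X ⟶ X')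
    (αY : Y ⟶ Y') (e1 : f ≫ αX = αA ≫ f') (e2 : i ≫ αB = αA ≫ i') (e3 : k ≫ αY = αX ≫ k')
    (e4 : g ≫ αY = αB ≫ g') (hA : WHE αA) (hB : WHE αB) (hX : WHE αX) : WHE αY := by
  have s1 := IsPushout.of_hasPushout αA i
  have := sglue_mono s1
  have s2 := IsPushout.of_hasPushout f' (pushout.inl αA i)
  have s3 := s1.paste_horiz s2
  rw [← e1] at s3
  have w1 : f ≫ αX ≫ pushout.inl f' (pushout.inl αA i) =
      i ≫ pushout.inr αA i ≫ pushout.inr f' (pushout.inl αA i) := by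
    rw [← Category.assoc, s3.w]
  have h1 := sglue_left sq s3 hX (sq.desc _ _ w1) (by simp) (by simp)
  have b1 : pushout.inl αA i ≫ s1.desc i' αB e2.symm = i' := by simp
  have b2 : pushout.inr αA i ≫ s1.desc i' αB e2.symm = αB := by simp
  have h2 : WHE (s1.desc i' αB e2.symm) := (whe_pushout_left s1 hA).of_pre (b2.symm ▸ hB)
  have w2 : f' ≫ k' = pushout.inl αA i ≫ s1.desc i' αB e2.symm ≫ g' := by
    rw [← Category.assoc, b1, sq'.w]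
  have : Mono (pushout.inl αA i ≫ s1.desc i' αB e2.symm) := b1.symm ▸ inferInstance
  have h3 := sglue_right s2 (b1.symm ▸ sq') h2 (s2.desc _ _ w2) (by simp) (by simp)
  have e : αY = sq.desc _ _ w1 ≫ s2.desc _ _ w2 :=
    sq.hom_ext (by simp [e3]) (by simp [e4])
  rw [e]
  exact h1.comp h3

variable {A U X T : SSet.{0}} {a : A ⟶ U} {f : A ⟶ X} {g : U ⟶ T} {i : X ⟶ T}

theorem hpo_of_isPushout (sq : IsPushout f a i g) : HPO a f g i := by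
  rintro Z z₁ z₂ φ s rfl rfl
  have : IsIso φ := ⟨sq.desc z₁ z₂ s.w,
    s.hom_ext (by rw [← Category.assoc, sq.inl_desc, Category.comp_id])
      (by rw [← Category.assoc, sq.inr_desc, Category.comp_id]),
    sq.hom_ext (by rw [sq.inl_desc_assoc, Category.comp_id])
      (by rw [sq.inr_desc_assoc, Category.comp_id])⟩
  exact whe_of_isIso φ

theorem hpo_of_whe [Mono a] (ha : WHE a) (hi : WHE i) : HPO a f g i := by
  rintro Z z₁ z₂ φ s rfl -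
  exact (whe_pushout s ha).of_pre hi

theorem whe_of_hpo [Mono a] (ha : WHE a) (w : f ≫ i = a ≫ g) (h : HPO a f g i) : WHE i := by
  have s := IsPushout.of_hasPushout f a
  rw [← s.inl_desc i g w]
  exact (whe_pushout s ha).comp (h _ _ _ _ s (s.inl_desc i g w) (s.inr_desc i g w))

theorem hpo_of_iso {A' U' : SSet.{0}} {a' : A' ⟶ U'} (e : Arrow.mk a' ≅ Arrow.mk a)
    (h : HPO a f g i) : HPO a' (e.hom.left ≫ f) (e.hom.right ≫ g) i := by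
  intro Z z₁ z₂ φ s e1 e2
  have t : IsPushout e.hom.left a' a e.hom.right := IsPushout.of_horiz_isIso ⟨Arrow.w e.hom⟩
  have e3 : e.hom.right ≫ inv e.hom.right ≫ z₂ = z₂ := by simp
  refine h Z z₁ (inv e.hom.right ≫ z₂) φ (IsPushout.of_left (e3.symm ▸ s) ?_ t) e1 ?_
  · rw [← cancel_epi e.hom.left, ← Category.assoc, s.w, t.w_assoc, e3]
  · rw [Category.assoc, e2, IsIso.inv_hom_id_assoc]

theorem hpo_transfer {U' T' : SSet.{0}} (u : U ⟶ U') [Mono u] (hu : WHE u) (t : T ⟶ T')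
    (ht : WHE t) (g' : U' ⟶ T') (w : f ≫ i = a ≫ g) (e : g ≫ t = u ≫ g') (h : HPO a f g i) :
    HPO (a ≫ u) f g' (i ≫ t) := by
  intro Z z₁ z₂ φ s e1 e2
  have s0 := IsPushout.of_hasPushout f a
  have w1 : f ≫ z₁ = a ≫ u ≫ z₂ := by rw [s.w, Category.assoc]
  have s1 : IsPushout (pushout.inr f a) u (s0.desc _ _ w1) z₂ :=
    IsPushout.of_top ((s0.inl_desc _ _ w1).symm ▸ s) (s0.inr_desc _ _ w1) s0
  refine (whe_pushout s1 hu).of_pre ?_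
  have e3 : s0.desc _ _ w1 ≫ φ = s0.desc i g w ≫ t :=
    s0.hom_ext (by simp [e1]) (by simp [e2, e])
  rw [e3]
  exact (h _ _ _ _ s0 (s0.inl_desc i g w) (s0.inr_desc i g w)).comp ht

/-- Mayer-Vietoris: with `Z j` the pushout of `X` and `U j`, the pushout of `X` and `U` is the
pushout of `Z₁` and `Z₂` along `Z₀`, and `Z₀ ⟶ Z₂` is a monomorphism; use `whe_glue`. -/
theorem hpo_mv {U₀ U₁ U₂ T₀ T₁ T₂ : SSet.{0}} {a₀ : A ⟶ U₀} {b₁ : U₀ ⟶ U₁} {b₂ : U₀ ⟶ U₂}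
    {u₁ : U₁ ⟶ U} {u₂ : U₂ ⟶ U} (sU : IsPushout b₁ b₂ u₁ u₂) [Mono b₂]
    {c₁ : T₀ ⟶ T₁} {c₂ : T₀ ⟶ T₂} {t₁ : T₁ ⟶ T} {t₂ : T₂ ⟶ T} (sT : IsPushout c₁ c₂ t₁ t₂)
    [Mono c₂] {i₀ : X ⟶ T₀} {g₀ : U₀ ⟶ T₀} {g₁ : U₁ ⟶ T₁} {g₂ : U₂ ⟶ T₂}
    (w : f ≫ i₀ = a₀ ≫ g₀) (e1 : g₀ ≫ c₁ = b₁ ≫ g₁) (e2 : g₀ ≫ c₂ = b₂ ≫ g₂)
    (e3 : g₁ ≫ t₁ = u₁ ≫ g) (e4 : g₂ ≫ t₂ = u₂ ≫ g) (h₀ : HPO a₀ f g₀ i₀)
    (h₁ : HPO (a₀ ≫ b₁) f g₁ (i₀ ≫ c₁)) (h₂ : HPO (a₀ ≫ b₂) f g₂ (i₀ ≫ c₂)) :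
    HPO (a₀ ≫ b₁ ≫ u₁) f g (i₀ ≫ c₁ ≫ t₁) := by
  intro Z z₁ z₂ φ s d1 d2
  have s0 := IsPushout.of_hasPushout f a₀
  generalize pushout.inl f a₀ = x₀ at s0
  generalize pushout.inr f a₀ = y₀ at s0
  have s1 := IsPushout.of_hasPushout y₀ b₁
  generalize pushout.inl y₀ b₁ = p₁ at s1
  generalize pushout.inr y₀ b₁ = y₁ at s1
  have s2 := IsPushout.of_hasPushout y₀ b₂
  generalize pushout.inl y₀ b₂ = p₂ at s2
  generalize pushout.inr y₀ b₂ = y₂ at s2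
  have := sglue_mono s2
  obtain ⟨r, r1, r2⟩ := s0.exists_desc z₁ (b₁ ≫ u₁ ≫ z₂) (by rw [s.w]; simp)
  obtain ⟨q₁, q11, q12⟩ := s1.exists_desc r (u₁ ≫ z₂) r2
  obtain ⟨q₂, q21, q22⟩ := s2.exists_desc r (u₂ ≫ z₂) (by rw [r2, sU.w_assoc])
  obtain ⟨φ₀, f01, f02⟩ := s0.exists_desc i₀ g₀ w
  obtain ⟨φ₁, f11, f12⟩ := s1.exists_desc (φ₀ ≫ c₁) g₁ (by rw [← Category.assoc, f02, e1])
  obtain ⟨φ₂, f21, f22⟩ := s2.exists_desc (φ₀ ≫ c₂) g₂ (by rw [← Category.assoc, f02, e2])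
  have t1 : IsPushout y₀ (b₁ ≫ u₁) r z₂ :=
    IsPushout.of_top (r1.symm ▸ s) (by rw [r2, Category.assoc]) s0
  have t2 : IsPushout y₁ u₁ q₁ z₂ := IsPushout.of_top (q11.symm ▸ t1) q12 s1
  have t3 := sU.paste_horiz t2
  rw [← s1.w, ← q22] at t3
  have t4 : IsPushout p₁ p₂ q₁ q₂ := IsPushout.of_left t3 (by rw [q11, q21]) s2
  have hr : r ≫ φ = φ₀ ≫ c₁ ≫ t₁ := s0.hom_ext
    (by rw [← Category.assoc, r1, d1, ← Category.assoc x₀, f01])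
    (by rw [← Category.assoc, r2, ← Category.assoc y₀, f02, ← Category.assoc g₀, e1]
        simp [d2, e3])
  refine whe_glue t4 sT φ₀ φ₂ φ₁ φ f11 f21 (s1.hom_ext ?_ ?_) (s2.hom_ext ?_ ?_)
    (h₀ _ _ _ _ s0 f01 f02) (h₂ _ _ _ _ (s0.paste_vert s2) ?_ f22)
    (h₁ _ _ _ _ (s0.paste_vert s1) ?_ f12)
  · rw [← Category.assoc, q11, hr, ← Category.assoc p₁, f11, Category.assoc]
  · rw [← Category.assoc, q12, ← Category.assoc y₁, f12, e3, Category.assoc, d2]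
  · rw [← Category.assoc, q21, hr, ← Category.assoc p₂, f21, Category.assoc, sT.w]
  · rw [← Category.assoc, q22, ← Category.assoc y₂, f22, e4, Category.assoc, d2]
  · rw [Category.assoc, f21, ← Category.assoc, f01]
  · rw [Category.assoc, f11, ← Category.assoc, f01]

theorem whe_of_hpo_pushout {K K' : SSet.{0}} {f' : A ⟶ K} {k₁ : K ⟶ K'} {k₂ : U ⟶ K'}
    (sq : IsPushout f' a k₁ k₂) [Mono a] (η : K ⟶ X) (hη : WHE η) (h : HPO a (f' ≫ η) g i)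
    (φ : K' ⟶ T) (e1 : k₁ ≫ φ = η ≫ i) (e2 : k₂ ≫ φ = g) : WHE φ := by
  have s := IsPushout.of_hasPushout (f' ≫ η) a
  obtain ⟨ψ, p1, p2⟩ := sq.exists_desc (η ≫ pushout.inl (f' ≫ η) a) (pushout.inr (f' ≫ η) a)
    (by rw [← Category.assoc, s.w])
  obtain ⟨φ', q1, q2⟩ := s.exists_desc i g
    (by rw [Category.assoc, ← e1, ← e2, sq.w_assoc])
  have e : φ = ψ ≫ φ' := sq.hom_ext
    (by rw [← Category.assoc, p1, Category.assoc, q1, e1]) (by rw [← Category.assoc, p2, q2, e2])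
  rw [e]
  exact (sglue_left sq s hη ψ p1 p2).comp (h _ _ _ _ s q1 q2)

end Vale.Agent.P213
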