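import Vale.Agent.P213.SWhe

/-! P213: homotopies between maps of nerves, and the zigzag lemma. -/

open CategoryTheory Simplicial MonoidalCategory Opposite Limits CartesianMonoidalCategory

noncomputable section

namespace Vale.Agent.P213

variable {P P' : Type} [Preorder P] [Preorder P']

/-- Mixing the images of a simplex by two maps along a monotone map to `Fin 2`. -/
def szigMix {D : Set P} {f g : P → P'} (hf : MonotoneOn f D) (hg : MonotoneOn g D)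
    (hle : ∀ x ∈ D, f x ≤ g x) {k : ℕ} (φ : Fin (k + 1) →o Fin 2) (σ : Fin (k + 1) →o P)
    (hσ : ∀ i, σ i ∈ D) : Fin (k + 1) →o P' where
  toFun i := if φ i = 0 then f (σ i) else g (σ i)
  monotone' i j hij := by
    have h1 := σ.monotone hij
    have h2 := φ.monotone hij
    dsimp only
    split_ifs with a b b
    · exact hf (hσ i) (hσ j) h1
    · exact (hf (hσ i) (hσ j) h1).trans (hle _ (hσ j))
    · exact (a (le_antisymm (b ▸ h2) (Fin.zero_le _))).elim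
    · exact hg (hσ i) (hσ j) h1

theorem szigMix_or {D : Set P} {f g : P → P'} (hf : MonotoneOn f D) (hg : MonotoneOn g D)
    (hle : ∀ x ∈ D, f x ≤ g x) {k : ℕ} (φ : Fin (k + 1) →o Fin 2) (σ : Fin (k + 1) →o P)
    (hσ : ∀ i, σ i ∈ D) (i : Fin (k + 1)) :
    szigMix hf hg hle φ σ hσ i = f (σ i) ∨ szigMix hf hg hle φ σ hσ i = g (σ i) := by
  by_cases h : φ i = 0
  · exact Or.inl (if_pos h)
  · exact Or.inr (if_neg h)

/-- The homotopy between the maps induced by `f ≤ g` on subcomplexes. -/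
def szigH {D : Set P} {f g : P → P'} (hf : MonotoneOn f D) (hg : MonotoneOn g D)
    (hle : ∀ x ∈ D, f x ≤ g x) (A : (NP P).Subcomplex) (A' : (NP P').Subcomplex) (hD : A ≤ NS D)
    (hmix : ∀ (m : SimplexCategoryᵒᵖ) (σ : (NP P).obj m) (τ : (NP P').obj m), σ ∈ A.obj m →
      (∀ i, NP.fn τ i = f (NP.fn σ i) ∨ NP.fn τ i = g (NP.fn σ i)) → τ ∈ A'.obj m) :
    (A : SSet.{0}) ⊗ Δ[1] ⟶ A' :=
  htpMk (fun m φ σ => ⟨szigMix hf hg hle φ (NP.fn σ.1) (hD m σ.2),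
    hmix m σ.1 _ σ.2 (szigMix_or hf hg hle φ _ _)⟩) fun _ _ _ => rfl

/-- Use `Htp.of_fun` with `i ↦ if φ i = 0 then ρ (σ i) else ρ' (σ i)`. -/
theorem htp_NSmap {S : Set P} {S' : Set P'} {ρ ρ' : P → P'} (hm : MonotoneOn ρ S)
    (h : Set.MapsTo ρ S S') (hm' : MonotoneOn ρ' S) (h' : Set.MapsTo ρ' S S')
    (hle : ∀ x ∈ S, ρ x ≤ ρ' x) : Htp (NSmap ρ hm h) (NSmap ρ' hm' h') := by
  refine ⟨szigH hm hm' hle (NS S) (NS S') le_rfl fun m σ τ hσ hτ i => ?_, rfl, rfl⟩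
  rcases hτ i with e | e
  · exact e ▸ h (hσ i)
  · exact e ▸ h' (hσ i)

theorem whe_NSi {S S' : Set P} (h : S ⊆ S') (ρ : P → P) (hm : MonotoneOn ρ S')
    (hρ : Set.MapsTo ρ S' S) (hid : ∀ x ∈ S, ρ x = x)
    (hle : (∀ x ∈ S', x ≤ ρ x) ∨ ∀ x ∈ S', ρ x ≤ x) : WHE (NSi h) := by
  have e1 : NSi h ≫ NSmap ρ hm hρ = 𝟙 _ := by
    ext m σ
    refine Subtype.ext (OrderHom.ext _ _ (funext fun i => ?_))
    exact hid _ (σ.2 i)
  refine whe_of_htpEquiv _ (NSmap ρ hm hρ) (e1 ▸ Relation.EqvGen.refl _) ?_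
  rcases hle with hle | hle
  · exact (Relation.EqvGen.rel _ _ (htp_NSmap (ρ := id) monotoneOn_id (Set.mapsTo_id _) hm
      (hρ.mono_right h) hle)).symm _ _
  · exact Relation.EqvGen.rel _ _ (htp_NSmap (ρ' := id) hm (hρ.mono_right h) monotoneOn_id
      (Set.mapsTo_id _) hle)

/-- A homotopy of squares against a Kan fibration transports lifts (`lift_htp₀`, `lift_htp₁`).
The square `(a, b)` is homotopic by `hA, hB` to a square which is homotopic by `kA, kB` to the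
square `(i ≫ c ≫ a, c ≫ i ≫ b)`, which has the lift `c ≫ a`. -/
theorem ano_of_zigzag {A B : SSet.{0}} (i : A ⟶ B) [Mono i] (c : B ⟶ A) (hA kA : A ⊗ Δ[1] ⟶ A)
    (hB kB : B ⊗ Δ[1] ⟶ B) (e1 : i ▷ _ ≫ hB = hA ≫ i) (e2 : i ▷ _ ≫ kB = kA ≫ i)
    (e3 : SSet.ι₀ ≫ hB = 𝟙 B) (e4 : SSet.ι₁ ≫ hB = SSet.ι₁ ≫ kB) (e5 : SSet.ι₀ ≫ kB = c ≫ i) :
    Ano i := by
  have f3 : SSet.ι₀ ≫ hA = 𝟙 A := by
    rw [← cancel_mono i, Category.assoc, ← e1, SSet.ι₀_comp_assoc, e3, Category.comp_id,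
      Category.id_comp]
  have f4 : SSet.ι₁ ≫ hA = SSet.ι₁ ≫ kA := by
    rw [← cancel_mono i, Category.assoc, Category.assoc, ← e1, ← e2, SSet.ι₁_comp_assoc,
      SSet.ι₁_comp_assoc, e4]
  have f5 : SSet.ι₀ ≫ kA = i ≫ c := by
    rw [← cancel_mono i, Category.assoc, ← e2, SSet.ι₀_comp_assoc, e5, Category.assoc]
  rw [ano_eq]
  intro X Y p hp
  refine ⟨fun {a b} sq => ?_⟩
  obtain ⟨L, l1, -, l3⟩ := lift_htp₀ i p hp (kA ≫ a) (c ≫ a) (kB ≫ b)
    (by rw [reassoc_of% f5]) (by rw [Category.assoc, sq.w, reassoc_of% e2])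
    (by rw [Category.assoc, sq.w, reassoc_of% e5])
  obtain ⟨L', k1, -, k3⟩ := lift_htp₁ i p hp (hA ≫ a) (SSet.ι₁ ≫ L) (hB ≫ b)
    (by rw [reassoc_of% f4, ← SSet.ι₁_comp_assoc, l1])
    (by rw [Category.assoc, sq.w, reassoc_of% e1])
    (by rw [Category.assoc, l3, reassoc_of% e4])
  refine ⟨⟨⟨SSet.ι₀ ≫ L', ?_, ?_⟩⟩⟩
  · rw [← SSet.ι₀_comp_assoc, k1, reassoc_of% f3]
  · rw [Category.assoc, k3, reassoc_of% e3]

/-- A subcomplex is closed under mixing the images by `f` and by `g`. -/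
def Mix (A : (NP P).Subcomplex) (f g : P → P) : Prop :=
  ∀ (m : SimplexCategoryᵒᵖ) (σ τ : (NP P).obj m), σ ∈ A.obj m →
    (∀ i, NP.fn τ i = f (NP.fn σ i) ∨ NP.fn τ i = g (NP.fn σ i)) → τ ∈ A.obj m

/-- The zigzag `id ≤ ρ ≥ c`. Build the four homotopies with `htpMk`. -/
theorem ano_zigzag (A B : (NP P).Subcomplex) (hAB : A ≤ B) (D : Set P) (ρ c : P → P)
    (hD : B ≤ NS D) (hρ : MonotoneOn ρ D) (hc : MonotoneOn c D) (h1 : ∀ x ∈ D, x ≤ ρ x)
    (h2 : ∀ x ∈ D, c x ≤ ρ x) (hA1 : Mix A id ρ) (hA2 : Mix A c ρ) (hB1 : Mix B id ρ)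
    (hB2 : Mix B c ρ) (hcA : ∀ (m : SimplexCategoryᵒᵖ) (σ τ : (NP P).obj m), σ ∈ B.obj m →
      (∀ i, NP.fn τ i = c (NP.fn σ i)) → τ ∈ A.obj m) :
    Ano (SSet.Subcomplex.homOfLE hAB) := by
  exact ano_of_zigzag (SSet.Subcomplex.homOfLE hAB)
    (SSet.ι₀ ≫ szigH hc hc (fun _ _ => le_rfl) B A hD
      fun m σ τ hσ hτ => hcA m σ τ hσ fun i => (hτ i).elim id id)
    (szigH monotoneOn_id hρ h1 A A (hAB.trans hD) hA1) (szigH hc hρ h2 A A (hAB.trans hD) hA2)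
    (szigH monotoneOn_id hρ h1 B B hD hB1) (szigH hc hρ h2 B B hD hB2) rfl rfl rfl rfl rfl

/-- Nondegenerate simplices are injective maps. -/
theorem finite_NP (Q : Type) [PartialOrder Q] [Finite Q] : (NP Q).Finite := by
  have hd : (NP Q).HasDimensionLT (Nat.card Q + 1) := ⟨fun n hn => by
    obtain ⟨n, rfl⟩ : ∃ k, n = k + 1 := ⟨n - 1, by omega⟩
    refine Set.eq_univ_of_forall fun σ => ?_
    have h1 : ¬ StrictMono (NP.fn σ) := fun h => by
      have := Nat.card_le_card_of_injective _ h.injective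
      simp only [Nat.card_eq_fintype_card, Fintype.card_fin] at this
      omega
    change ¬ StrictMono (NP.fn σ : Fin (n + 1 + 1) → Q) at h1
    rw [Fin.strictMono_iff_lt_succ] at h1
    push Not at h1
    obtain ⟨i, hi⟩ := h1
    have h2 : NP.fn σ i.castSucc = NP.fn σ i.succ :=
      ((NP.fn σ).monotone i.castSucc_lt_succ.le).eq_of_not_lt hi
    refine ⟨n, by omega, SimplexCategory.σ i, (NP Q).δ i.castSucc σ, ?_⟩
    refine OrderHom.ext _ _ (funext fun j => ?_)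
    change NP.fn σ (i.castSucc.succAbove (i.predAbove j)) = NP.fn σ j
    by_cases hj : j = i.castSucc
    · subst hj
      rw [Fin.predAbove_castSucc_self, Fin.succAbove_castSucc_self, h2]
    · rw [Fin.succAbove_predAbove hj]⟩
  refine SSet.finite_of_hasDimensionLT _ (Nat.card Q + 1) fun n _ => ?_
  exact Finite.of_injective (β := Fin (n + 1) → Q) (fun σ => NP.fn σ.1)
    fun σ τ h => Subtype.ext (OrderHom.ext _ _ h)

/-- A criterion for pushouts of types. -/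
theorem szig_type {X₀ X₁ X₂ X : Type} (t : X₀ ⟶ X₁) (l : X₀ ⟶ X₂) (r : X₁ ⟶ X) (b : X₂ ⟶ X)
    (w : t ≫ r = l ≫ b) (hs : ∀ x, (∃ y, r y = x) ∨ ∃ y, b y = x)
    (H : ∀ (Z : Type) (f : X₁ → Z) (g : X₂ → Z), (∀ z, f (t z) = g (l z)) →
      (∀ x x', r x = r x' → f x = f x') ∧ (∀ y y', b y = b y' → g y = g y') ∧
        ∀ x y, r x = b y → f x = g y) : IsPushout t l r b := by
  classical
  refine ⟨⟨w⟩, ⟨PushoutCocone.IsColimit.mk _
    (fun s => TypeCat.ofHom fun x => if h : ∃ y, r y = x then s.inl h.choose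
      else s.inr ((hs x).resolve_left h).choose) (fun s => ?_) (fun s => ?_) fun s m h1 h2 => ?_⟩⟩
  · obtain ⟨a, -, -⟩ := H _ s.inl s.inr fun z => ConcreteCategory.congr_hom s.condition z
    ext x
    have h : ∃ y, r y = r x := ⟨x, rfl⟩
    exact (dif_pos h).trans (a _ _ h.choose_spec)
  · obtain ⟨-, a, a'⟩ := H _ s.inl s.inr fun z => ConcreteCategory.congr_hom s.condition z
    ext y
    by_cases h : ∃ x, r x = b y
    · exact (dif_pos h).trans (a' _ _ h.choose_spec)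
    · exact (dif_neg h).trans (a _ _ ((hs _).resolve_left h).choose_spec)
  · ext x
    by_cases h : ∃ y, r y = x
    · refine Eq.trans ?_ (dif_pos h).symm
      rw [← h1]
      exact congrArg m h.choose_spec.symm
    · refine Eq.trans ?_ (dif_neg h).symm
      rw [← h2]
      exact congrArg m ((hs x).resolve_left h).choose_spec.symm

/-- A levelwise criterion for pushouts of monomorphisms. -/
theorem isPushout_of_levelwise {U₀ U₁ U₂ U : SSet.{0}} (b₁ : U₀ ⟶ U₁) (b₂ : U₀ ⟶ U₂)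
    (a₁ : U₁ ⟶ U) (a₂ : U₂ ⟶ U) (w : b₁ ≫ a₁ = b₂ ≫ a₂)
    (i₁ : ∀ m, Function.Injective (a₁.app m)) (i₂ : ∀ m, Function.Injective (a₂.app m))
    (hs : ∀ m (x : U.obj m), (∃ y, a₁.app m y = x) ∨ ∃ y, a₂.app m y = x)
    (hp : ∀ m (x : U₁.obj m) (y : U₂.obj m), a₁.app m x = a₂.app m y →
      ∃ z, b₁.app m z = x ∧ b₂.app m z = y) : IsPushout b₁ b₂ a₁ a₂ := by
  refine IsPushout.of_forall_isPushout_app fun m => szig_type _ _ _ _
    (by rw [← NatTrans.comp_app, w, NatTrans.comp_app]) (hs m) fun Z f g hfg =>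
      ⟨fun x x' h => by rw [i₁ m h], fun y y' h => by rw [i₂ m h], fun x y h => ?_⟩
  obtain ⟨z, rfl, rfl⟩ := hp m x y h
  exact hfg z

/-- A variant where `b₁` and `a₂` need not be injective: `U` is the disjoint union of `U₁` and of
the complement of `U₀` in `U₂`. -/
theorem isPushout_of_levelwise' {U₀ U₁ U₂ U : SSet.{0}} (b₁ : U₀ ⟶ U₁) (b₂ : U₀ ⟶ U₂)
    (a₁ : U₁ ⟶ U) (a₂ : U₂ ⟶ U) (w : b₁ ≫ a₁ = b₂ ≫ a₂)
    (i₁ : ∀ m, Function.Injective (a₁.app m)) (i₀ : ∀ m, Function.Injective (b₂.app m))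
    (i₂ : ∀ m (x y : U₂.obj m), a₂.app m x = a₂.app m y → x = y ∨ ∃ z, b₂.app m z = x)
    (hs : ∀ m (x : U.obj m), (∃ y, a₁.app m y = x) ∨ ∃ y, a₂.app m y = x)
    (hp : ∀ m (x : U₁.obj m) (y : U₂.obj m), a₁.app m x = a₂.app m y → ∃ z, b₂.app m z = y) :
    IsPushout b₁ b₂ a₁ a₂ := by
  refine IsPushout.of_forall_isPushout_app fun m => szig_type _ _ _ _
    (by rw [← NatTrans.comp_app, w, NatTrans.comp_app]) (hs m) fun Z f g hfg => ?_
  have hw : ∀ z, a₁.app m (b₁.app m z) = a₂.app m (b₂.app m z) := fun z =>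
    ConcreteCategory.congr_hom (NatTrans.congr_app w m) z
  have key : ∀ x y, a₁.app m x = a₂.app m y → f x = g y := fun x y h => by
    obtain ⟨z, rfl⟩ := hp m x y h
    rw [i₁ m (h.trans (hw z).symm)]
    exact hfg z
  refine ⟨fun x x' h => by rw [i₁ m h], fun y y' h => ?_, key⟩
  obtain rfl | ⟨z, rfl⟩ := i₂ m y y' h
  · rfl
  · exact (hfg z).symm.trans (key _ _ ((hw z).trans h))

theorem isPushout_NS {S₁ S₂ : Set P} (h₁ : IsLowerSet S₁) (h₂ : IsLowerSet S₂) :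
    IsPushout (NSi (Set.inter_subset_left : S₁ ∩ S₂ ⊆ S₁))
      (NSi (Set.inter_subset_right : S₁ ∩ S₂ ⊆ S₂)) (NSi (Set.subset_union_left : S₁ ⊆ S₁ ∪ S₂))
      (NSi (Set.subset_union_right : S₂ ⊆ S₁ ∪ S₂)) := by
  refine isPushout_of_levelwise _ _ _ _ rfl
    (fun m x y h => Subtype.ext (congrArg Subtype.val h :))
    (fun m x y h => Subtype.ext (congrArg Subtype.val h :)) (fun m x => ?_) fun m x y h => ?_
  · rcases x.2 (Fin.last _) with h | h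
    · exact Or.inl ⟨⟨x.1, fun i => h₁ ((NP.fn x.1).monotone (Fin.le_last i)) h⟩, rfl⟩
    · exact Or.inr ⟨⟨x.1, fun i => h₂ ((NP.fn x.1).monotone (Fin.le_last i)) h⟩, rfl⟩
  · have e : x.1 = y.1 := congrArg Subtype.val h
    exact ⟨⟨x.1, fun i => ⟨x.2 i, e ▸ y.2 i⟩⟩, rfl, Subtype.ext e⟩

end Vale.Agent.P213
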