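import Vale.Agent.P213.CylE

/-! P213: the vertical composite of cylinders. -/

open CategoryTheory

noncomputable section

namespace Vale.Agent.P213

open OCat

namespace Cyl

variable {Y Z : OCat} {α β γ : Cyl Z}

theorem In.map' {S : Set Z.C} {T : Set Y.C} {f : Z.C → Y.C} (h : γ.In S) (hf : ∀ x ∈ S, f x ∈ T) :
    (γ.map f).In T :=
  ⟨hf _ h.p, hf _ h.q, fun i e => hf _ (h.a i e)⟩

theorem In.inter' {S T : Set Z.C} (h : γ.In S) (h' : γ.In T) : γ.In (S ∩ T) :=
  ⟨⟨h.p, h'.p⟩, ⟨h.q, h'.q⟩, fun i e => ⟨h.a i e, h'.a i e⟩⟩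

theorem In.map_congr' {S : Set Z.C} {f g : Z.C → Y.C} (h : γ.In S) (hf : ∀ x ∈ S, f x = g x) :
    γ.map f = γ.map g :=
  Cyl.ext (hf _ h.p) (hf _ h.q) (funext fun i => funext fun e => hf _ (h.a i e))

theorem cp_a_zero (hα : α.Valid) (hβ : β.Valid) (h : α.q = β.p) (e : Bool) :
    Z.Cp 0 (α.a 0 e) (β.a 0 e) :=
  ((hα 0).t e).trans ((congrArg (Z.d e 0) h).trans ((hβ 0).s e).symm)

theorem in_whL (hα : α.Valid) (hβ : β.Valid) (h : α.q = β.p) :
    β.tail.In (Z := Z.up) {x | Z.Cp 0 (α.a 0 false) x} :=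
  hβ.tail_in.mono fun _ hx => ((hα 0).t false).trans ((congrArg (Z.d false 0) h).trans hx.1.symm)

theorem in_whR (hα : α.Valid) (hβ : β.Valid) (h : α.q = β.p) :
    α.tail.In (Z := Z.up) {x | Z.Cp 0 x (β.a 0 true)} :=
  hα.tail_in.mono fun _ hx => hx.2.trans ((congrArg (Z.d true 0) h).trans ((hβ 0).s true).symm)

/-- `valid_map` with `pf_whL`. -/
theorem valid_whL (hα : α.Valid) (hβ : β.Valid) (h : α.q = β.p) :
    (whL (α.a 0 false) β.tail).Valid :=
  valid_map (pf_whL ((hα 0).dim false)) hβ.tail (in_whL hα hβ h)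

theorem valid_whR (hα : α.Valid) (hβ : β.Valid) (h : α.q = β.p) :
    (whR α.tail (β.a 0 true)).Valid :=
  valid_map (pf_whR ((hβ 0).dim true)) hα.tail (in_whR hα hβ h)

theorem whL_q (hα : α.Valid) (hβ : β.Valid) (h : α.q = β.p) :
    (whL (α.a 0 false) β.tail).q = (whR α.tail (β.a 0 true)).p := by
  have h1 : Z.Cp 0 (α.a 0 false) α.q := hα.cpP 0
  have h2 : Z.Cp 0 β.p (β.a 0 true) := hβ.cpQ 0
  change Z.cmp 0 (α.a 0 false) (Z.cmp 0 β.p (β.a 0 true)) =
    Z.cmp 0 (Z.cmp 0 (α.a 0 false) α.q) (β.a 0 true)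
  rw [← h] at h2 ⊢
  exact (Z.assoc h1 h2).symm

theorem tail_V (hα : α.Valid) (hβ : β.Valid) (h : α.q = β.p) :
    (V α β).tail = V (whL (α.a 0 false) β.tail) (whR α.tail (β.a 0 true)) :=
  Cyl.ext (Z.assoc (cp_a_zero hα hβ h false) (hβ.cpP 0))
    (Z.assoc (hα.cpQ 0) (cp_a_zero hα hβ h true)).symm rfl

/-- Prove `ValidAt k` by induction on `k`, for all `Z α β`, with `tail_V`, `validAt_tail`. -/
theorem valid_V (hα : α.Valid) (hβ : β.Valid) (h : α.q = β.p) : (V α β).Valid := by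
  intro k
  induction k generalizing Z with
  | zero =>
    exact ⟨fun e => (Z.s_cmp (cp_a_zero hα hβ h e)).trans ((hα 0).s e),
      fun e => (Z.t_cmp (cp_a_zero hα hβ h e)).trans ((hβ 0).t e),
      fun e => ((hα 0).dim e).cmp ((hβ 0).dim e) (cp_a_zero hα hβ h e)⟩
  | succ k ih =>
    rw [← validAt_tail, tail_V hα hβ h]
    exact ih (valid_whL hα hβ h) (valid_whR hα hβ h) (whL_q hα hβ h)

theorem in_whL' {S : Set Z.C} (hc : Z.Closed S) (hα : α.Valid) (hβ : β.Valid) (h : α.q = β.p)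
    (h1 : α.In S) (h2 : β.In S) : (whL (α.a 0 false) β.tail).In (Z := Z.up) S :=
  ((in_whL hα hβ h).inter' (in_tail (f := id) ⟨hc, fun _ _ _ _ => rfl, fun _ _ _ => rfl⟩ hβ h2)).map'
    fun _ hx => hc.cmp hx.1 (h1.a 0 false) hx.2

theorem in_whR' {S : Set Z.C} (hc : Z.Closed S) (hα : α.Valid) (hβ : β.Valid) (h : α.q = β.p)
    (h1 : α.In S) (h2 : β.In S) : (whR α.tail (β.a 0 true)).In (Z := Z.up) S :=
  ((in_whR hα hβ h).inter' (in_tail (f := id) ⟨hc, fun _ _ _ _ => rfl, fun _ _ _ => rfl⟩ hα h1)).map'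
    fun _ hx => hc.cmp hx.1 hx.2 (h2.a 0 true)

/-- Induction on the index, for all `Z`, `S` (a closed set stays closed in `Z.up`). -/
theorem in_V {S : Set Z.C} (hc : Z.Closed S) (hα : α.Valid) (hβ : β.Valid) (h : α.q = β.p)
    (h1 : α.In S) (h2 : β.In S) : (V α β).In S := by
  refine ⟨h1.p, h2.q, fun i e => ?_⟩
  induction i generalizing Z with
  | zero => exact hc.cmp (cp_a_zero hα hβ h e) (h1.a 0 e) (h2.a 0 e)
  | succ i ih =>
    exact ih (Z := Z.up) ⟨fun e n => hc.d e (n + 1), hc.cmp⟩ (valid_whL hα hβ h)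
      (valid_whR hα hβ h) (whL_q hα hβ h) (in_whL' hc hα hβ h h1 h2) (in_whR' hc hα hβ h h1 h2)

theorem map_V {S : Set Z.C} {f : Z.C → Y.C} (hf : PF Z Y S f) (hα : α.Valid) (hβ : β.Valid)
    (h : α.q = β.p) (h1 : α.In S) (h2 : β.In S) :
    (V α β).map f = V (α.map f) (β.map f) := by
  refine Cyl.ext rfl rfl (funext fun i => funext fun e => ?_)
  induction i generalizing Z Y with
  | zero => exact hf.map_cmp (cp_a_zero hα hβ h e) (h1.a 0 e) (h2.a 0 e)
  | succ i ih =>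
    have e1 : (whL (α.a 0 false) β.tail).map (Y := Z.up) (Z := Y.up) f =
        whL ((α.map f).a 0 false) (β.map f).tail := by
      rw [tail_map hf hβ h2]
      exact ((in_whL hα hβ h).inter' (in_tail hf hβ h2)).map_congr' (Z := Z.up) (Y := Y.up)
        (f := fun x => f (Z.cmp 0 (α.a 0 false) x)) (g := fun x => Y.cmp 0 (f (α.a 0 false)) (f x))
        fun _ hx => hf.map_cmp hx.1 (h1.a 0 false) hx.2
    have e2 : (whR α.tail (β.a 0 true)).map (Y := Z.up) (Z := Y.up) f =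
        whR (α.map f).tail ((β.map f).a 0 true) := by
      rw [tail_map hf hα h1]
      exact ((in_whR hα hβ h).inter' (in_tail hf hα h1)).map_congr' (Z := Z.up) (Y := Y.up)
        (f := fun x => f (Z.cmp 0 x (β.a 0 true))) (g := fun x => Y.cmp 0 (f x) (f (β.a 0 true)))
        fun _ hx => hf.map_cmp hx.1 hx.2 (h2.a 0 true)
    rw [V_a_succ, ← e1, ← e2]
    exact ih hf.up (valid_whL hα hβ h) (valid_whR hα hβ h) (whL_q hα hβ h)
      (in_whL' hf.closed hα hβ h h1 h2) (in_whR' hf.closed hα hβ h h1 h2)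

/-- From `map_V` for `pf_fst`, `pf_snd`. -/
theorem pair_V {α' β' : Cyl Y} (hα : α.Valid) (hβ : β.Valid) (h : α.q = β.p) (hα' : α'.Valid)
    (hβ' : β'.Valid) (h' : α'.q = β'.p) :
    pair (V α β) (V α' β') = V (pair α α') (pair β β') := by
  have hq : (pair α α').q = (pair β β').p := Prod.ext h h'
  have h1 := map_V pf_fst (hα.pair hα') (hβ.pair hβ') hq (in_univ _) (in_univ _)
  have h2 := map_V pf_snd (hα.pair hα') (hβ.pair hβ') hq (in_univ _) (in_univ _)
  exact Cyl.ext rfl rfl (funext fun i => funext fun e => Prod.ext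
    (congrArg (fun γ : Cyl Z => γ.a i e) h1).symm (congrArg (fun γ : Cyl Y => γ.a i e) h2).symm)

theorem V_flat {z : Z.C} (hz : Z.Dim 0 z) (k : ℕ) (e : Bool) :
    (V (⟨z, z, fun _ _ => z⟩ : Cyl Z) ⟨z, z, fun _ _ => z⟩).a k e = z := by
  induction k generalizing Z with
  | zero => exact hz.cmp_self le_rfl
  | succ k ih =>
    have h0 : Z.cmp 0 z z = z := hz.cmp_self le_rfl
    have e1 : whL z (⟨z, z, fun _ _ => z⟩ : Cyl Z).tail = ⟨z, z, fun _ _ => z⟩ :=
      Cyl.ext ((congrArg (Z.cmp 0 z) h0).trans h0) ((congrArg (Z.cmp 0 z) h0).trans h0)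
        (funext fun _ => funext fun _ => h0)
    have e2 : whR (⟨z, z, fun _ _ => z⟩ : Cyl Z).tail z = ⟨z, z, fun _ _ => z⟩ :=
      Cyl.ext ((congrArg (Z.cmp 0 · z) h0).trans h0) ((congrArg (Z.cmp 0 · z) h0).trans h0)
        (funext fun _ => funext fun _ => h0)
    rw [V_a_succ, e1, e2]
    exact ih (Z := Z.up) (hz.mono zero_le_one)

theorem Valid.tail_d_zero (h : γ.Valid) (e : Bool) :
    (Cyl.d e 0 γ).tail = ⟨γ.a 0 e, γ.a 0 e, fun _ _ => γ.a 0 e⟩ :=
  Cyl.ext (h.pr_d_gt e Nat.one_pos).1 (h.pr_d_gt e Nat.one_pos).2 rfl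

/-- Induction on `n` with `Valid.tail_d`, `map_d`. For `n = 0` all components of both sides equal
`z = α₀ β₀`: show by induction on the index that the vertical composite of two cylinders all of
whose cells equal one cell `z` with `Dim 0 z` has all components equal to `z`. -/
theorem d_V (hα : α.Valid) (hβ : β.Valid) (h : α.q = β.p) (e : Bool) (n : ℕ) :
    d e n (V α β) = V (d e n α) (d e n β) := by
  induction n generalizing Z with
  | zero =>
    refine Cyl.ext rfl rfl (funext fun i => funext fun e' => ?_)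
    rcases i with _ | i
    · rfl
    · rw [V_a_succ, hα.tail_d_zero, hβ.tail_d_zero]
      exact (V_flat (Z := Z.up) (((hα 0).dim e).cmp ((hβ 0).dim e) (cp_a_zero hα hβ h e)) i e').symm
  | succ n ih =>
    refine Cyl.ext rfl rfl (funext fun i => funext fun e' => ?_)
    rcases i with _ | i
    · rfl
    · have e1 : whL ((d e (n + 1) α).a 0 false) (d e n β.tail) =
          d e n (whL (α.a 0 false) β.tail) :=
        map_d (pf_whL ((hα 0).dim false)) (in_whL hα hβ h) e n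
      have e2 : whR (d e n α.tail) ((d e (n + 1) β).a 0 true) =
          d e n (whR α.tail (β.a 0 true)) :=
        map_d (pf_whR ((hβ 0).dim true)) (in_whR hα hβ h) e n
      rw [V_a_succ, hα.tail_d, hβ.tail_d, e1, e2,
        ← ih (valid_whL hα hβ h) (valid_whR hα hβ h) (whL_q hα hβ h), ← tail_V hα hβ h,
        ← (valid_V hα hβ h).tail_d]
      rfl

/-- Induction on the index: the tails are
`V (α₀⁻ β₀⁻ tγ) (V (α₀⁻ tβ γ₀⁺) (tα β₀⁺ γ₀⁺))` and `V (V (α₀⁻ β₀⁻ tγ) (α₀⁻ tβ γ₀⁺)) (tα β₀⁺ γ₀⁺)`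
by `tail_V` and `map_V` for the whiskerings. -/
theorem V_assoc (hα : α.Valid) (hβ : β.Valid) (hγ : γ.Valid) (h : α.q = β.p) (h' : β.q = γ.p) :
    V (V α β) γ = V α (V β γ) := by
  refine Cyl.ext rfl rfl (funext fun i => funext fun e => ?_)
  induction i generalizing Z with
  | zero => exact Z.assoc (cp_a_zero hα hβ h e) (cp_a_zero hβ hγ h' e)
  | succ i ih =>
    have i1 : (whL (α.a 0 false) β.tail).In (Z := Z.up) {x | Z.Cp 0 x (γ.a 0 true)} :=
      ((in_whL hα hβ h).inter' (in_whR hβ hγ h')).map' fun _ hx =>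
        Cp.cmp_left (Z := Z) hx.1 hx.2
    have i2 : (whR α.tail (β.a 0 true)).In (Z := Z.up) {x | Z.Cp 0 x (γ.a 0 true)} :=
      (in_whR hα hβ h).map' fun _ hx => Cp.cmp_left (Z := Z) hx (cp_a_zero hβ hγ h' true)
    have i3 : (whL (β.a 0 false) γ.tail).In (Z := Z.up) {x | Z.Cp 0 (α.a 0 false) x} :=
      (in_whL hβ hγ h').map' fun _ hx => Cp.cmp_right (Z := Z) (cp_a_zero hα hβ h false) hx
    have i4 : (whR β.tail (γ.a 0 true)).In (Z := Z.up) {x | Z.Cp 0 (α.a 0 false) x} :=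
      ((in_whL hα hβ h).inter' (in_whR hβ hγ h')).map' fun _ hx =>
        Cp.cmp_right (Z := Z) hx.1 hx.2
    have e1 : whR (V α β).tail (γ.a 0 true) = V (whR (whL (α.a 0 false) β.tail) (γ.a 0 true))
        (whR (whR α.tail (β.a 0 true)) (γ.a 0 true)) := by
      rw [tail_V hα hβ h]
      exact map_V (pf_whR ((hγ 0).dim true)) (valid_whL hα hβ h) (valid_whR hα hβ h)
        (whL_q hα hβ h) i1 i2
    have e2 : whL (α.a 0 false) (V β γ).tail = V (whL (α.a 0 false) (whL (β.a 0 false) γ.tail))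
        (whL (α.a 0 false) (whR β.tail (γ.a 0 true))) := by
      rw [tail_V hβ hγ h']
      exact map_V (pf_whL ((hα 0).dim false)) (valid_whL hβ hγ h') (valid_whR hβ hγ h')
        (whL_q hβ hγ h') i3 i4
    have eA : whL ((V α β).a 0 false) γ.tail = whL (α.a 0 false) (whL (β.a 0 false) γ.tail) :=
      (in_whL hβ hγ h').map_congr' (Z := Z.up) (Y := Z.up)
        (g := fun x => Z.cmp 0 (α.a 0 false) (Z.cmp 0 (β.a 0 false) x))
        fun _ hx => Z.assoc (cp_a_zero hα hβ h false) hx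
    have eB : whR (whL (α.a 0 false) β.tail) (γ.a 0 true) =
        whL (α.a 0 false) (whR β.tail (γ.a 0 true)) :=
      ((in_whL hα hβ h).inter' (in_whR hβ hγ h')).map_congr' (Z := Z.up) (Y := Z.up)
        (f := fun x => Z.cmp 0 (Z.cmp 0 (α.a 0 false) x) (γ.a 0 true))
        (g := fun x => Z.cmp 0 (α.a 0 false) (Z.cmp 0 x (γ.a 0 true)))
        fun _ hx => Z.assoc hx.1 hx.2
    have eC : whR (whR α.tail (β.a 0 true)) (γ.a 0 true) = whR α.tail ((V β γ).a 0 true) :=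
      (in_whR hα hβ h).map_congr' (Z := Z.up) (Y := Z.up)
        (f := fun x => Z.cmp 0 (Z.cmp 0 x (β.a 0 true)) (γ.a 0 true))
        fun _ hx => Z.assoc hx (cp_a_zero hβ hγ h' true)
    have vA : (whL (α.a 0 false) (whL (β.a 0 false) γ.tail)).Valid :=
      valid_map (pf_whL ((hα 0).dim false)) (valid_whL hβ hγ h') i3
    have vB : (whL (α.a 0 false) (whR β.tail (γ.a 0 true))).Valid :=
      valid_map (pf_whL ((hα 0).dim false)) (valid_whR hβ hγ h') i4
    have vC : (whR α.tail ((V β γ).a 0 true)).Valid := valid_whR hα (valid_V hβ hγ h') h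
    have q1 : (whL (α.a 0 false) (whL (β.a 0 false) γ.tail)).q =
        (whL (α.a 0 false) (whR β.tail (γ.a 0 true))).p :=
      congrArg (Z.cmp 0 (α.a 0 false)) (whL_q hβ hγ h')
    have q2 : (whL (α.a 0 false) (whR β.tail (γ.a 0 true))).q =
        (whR α.tail ((V β γ).a 0 true)).p := by
      rw [← eB, ← eC]
      exact congrArg (Z.cmp 0 · (γ.a 0 true)) (whL_q hα hβ h)
    rw [V_a_succ, V_a_succ, e1, e2, eA, eB, eC]
    exact (ih vA vB vC q1 q2).symm

/-- Induction on the index with `tail_cyl`, `map_cyl` and `wh₂`. -/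
theorem V_cyl {ξ η : Z.C} (h : Z.Cp 0 ξ η) : V (cyl ξ) (cyl η) = cyl (Z.cmp 0 ξ η) := by
  refine Cyl.ext (Z.s_cmp h).symm (Z.t_cmp h).symm (funext fun i => funext fun e => ?_)
  induction i generalizing Z with
  | zero => exact (Z.d_cmp e Nat.one_pos h).symm
  | succ i ih =>
    have e1 : whL ((cyl ξ).a 0 false) (cyl (Z := Z.up) η) =
        cyl (Z := Z.up) (Z.cmp 0 (Z.d false 1 ξ) η) :=
      map_cyl (pf_whL (dim_d false ξ le_rfl)) (h.d_left false Nat.one_pos)
    have e2 : whR (cyl (Z := Z.up) ξ) ((cyl η).a 0 true) =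
        cyl (Z := Z.up) (Z.cmp 0 ξ (Z.d true 1 η)) :=
      map_cyl (pf_whR (dim_d true η le_rfl)) (h.d_right true Nat.one_pos)
    have h1 : Z.up.Cp 0 (Z.cmp 0 (Z.d false 1 ξ) η) (Z.cmp 0 ξ (Z.d true 1 η)) :=
      Cp.xchg_out Nat.one_pos (d_d true false 1 ξ) (d_d false true 1 η).symm
        (h.d_left false Nat.one_pos)
    rw [V_a_succ, tail_cyl, tail_cyl, e1, e2, ih h1]
    exact congrArg (Z.d e (i + 2)) (wh₂ Nat.one_pos h)

end Cyl

end Vale.Agent.P213
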