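import Vale.Agent.P213.Gam
import Vale.Agent.P213.CylV

/-! P213: cylinders in the omega-category of tables. -/

open CategoryTheory

noncomputable section

namespace Vale.Agent.P213

open OCat

variable {A B : ADC}

/-- The top entry of a component of a cylinder of tables. -/
def top (γ : Cyl (nu A)) (i : ℕ) (e : Bool) : A.K := Tab.x (γ.a i e) (i + 1) false

theorem top_map (F : ADCHom A B) (γ : Cyl (nu A)) (i : ℕ) (e : Bool) :
    top (γ.map (Z := nu B) F.tab) i e = F.f (top γ i e) := rfl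

theorem nucyl_dim {a : Tab A} {n i : ℕ} (h : (nu A).Dim n a) (hi : n < i) (e : Bool) :
    a.x i e = 0 := by
  rw [← h]
  exact (if_neg (by omega)).trans (if_neg (by omega))

theorem nucyl_cmp {a b : Tab A} {n i : ℕ} (h : (nu A).Cp n a b) (hi : n < i) (e : Bool) :
    (Tab.cmp n a b).x i e = a.x i e + b.x i e := by
  rw [Tab.cmp_x h, if_neg (by omega), if_neg (by omega)]

theorem nucyl_ext {a b : Tab A} {k : ℕ} (hs : Tab.d false k a = Tab.d false k b)
    (ht : Tab.d true k a = Tab.d true k b) (ha : (nu A).Dim (k + 1) a) (hb : (nu A).Dim (k + 1) b)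
    (h : a.x (k + 1) false = b.x (k + 1) false) : a = b := by
  rw [← ha, ← hb]
  ext i e
  simp only [Tab.d_x, h]
  split_ifs with h1
  · have h2 : ∀ e, Tab.d e k a = Tab.d e k b := fun e => by cases e <;> assumption
    have h3 := congrArg (fun t : Tab A => t.x i e) (h2 e)
    simp only [Tab.d_x] at h3
    split_ifs at h3 with h4 h5
    · exact h3
    · exact h5 ▸ h3
    · omega
  · rfl
  · rfl

/-- The alternating sequence `p, q, p, ...`. -/
def nucylAlt {T : Type} : ℕ → T → T → T
  | 0, p, _ => p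
  | j + 1, p, q => nucylAlt j q p

theorem nucyl_sign (j : ℕ) (p q : Tab A) (i : ℕ) (e : Bool) :
    (-1 : ℤ) ^ j • (q.x i e - p.x i e) = (nucylAlt j q p).x i e - (nucylAlt j p q).x i e := by
  induction j generalizing p q with
  | zero => simp [nucylAlt]
  | succ j ih => rw [nucylAlt, nucylAlt, ← ih, pow_succ, mul_smul, neg_one_smul, neg_sub]

/-- The entries of the components below the top. -/
def nucylM (p q : Tab A) (τ : ℕ → Bool → A.K) (i : ℕ) (e' e : Bool) : A.K :=
  (bif e then nucylAlt i q p else nucylAlt i p q).x i e' +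
    (match i with | 0 => 0 | j + 1 => τ j e)

/-- The components. -/
def nucylA (p q : Tab A) (τ : ℕ → Bool → A.K) (pos : ∀ i e, τ i e ∈ A.P (i + 1))
    (hτ : ∀ i e, A.bd (τ i e) = nucylM p q τ i e true - nucylM p q τ i e false) (k : ℕ)
    (e' : Bool) : Tab A where
  x i e := if i < k + 1 then nucylM p q τ i (if i < k then e else e') e
    else if i = k + 1 then τ k e' else 0
  pos i e := by
    split_ifs with h1 h2 h3
    all_goals first | (exact h3 ▸ pos _ _) | (exact zero_mem _) | skip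
    all_goals
      refine add_mem (Tab.pos _ _ _) ?_
      cases i
      · exact zero_mem _
      · exact pos _ _
  bd0 e := by
    rw [if_pos k.succ_pos, nucylM, add_zero, Tab.bd0]
  bdS i e := by
    rcases lt_trichotomy i k with h | rfl | h
    · simp only [if_pos h, if_pos (Nat.succ_lt_succ h), if_pos (Nat.lt_succ_of_lt h)]
      rw [nucylM, map_add, Tab.bdS, hτ]
      cases e <;> simp only [nucylM, nucylAlt, cond_true, cond_false] <;> abel
    · simp [hτ]
    · rw [if_neg (by omega), if_neg (by omega), if_neg (by omega), if_neg (show ¬ i < k + 1 by omega),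
        map_zero, sub_self]
  fin := ⟨k + 2, fun i hi e => by rw [if_neg (by omega), if_neg (by omega)]⟩

/-- Put `X j = p`, `Y j = q` for even `j`, and `X j = q`, `Y j = p` for odd `j`, `τ (-1) = 0`. The
table `a k e` has the entries `(X i).x i false + τ (i-1) false` and `(Y i).x i true + τ (i-1) true`
in degree `i < k`, `(X k).x k e + τ (k-1) false` and `(Y k).x k e + τ (k-1) true` in degree `k`,
`τ k e` in degree `k + 1`, and zero above. By induction `P k` (resp. `Q k`) has the same entries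
as `a k e` in degrees `< k`, the entries `(X k).x k e + τ (k-1) false` (resp.
`(Y k).x k e + τ (k-1) true`) in degree `k`, and those of `X k` (resp. `Y k`) above. -/
theorem exists_cyl_of_tops (p q : Tab A) (τ : ℕ → Bool → A.K) (pos : ∀ i e, τ i e ∈ A.P (i + 1))
    (bd0 : ∀ e, A.bd (τ 0 e) = q.x 0 e - p.x 0 e)
    (bdS : ∀ i e, A.bd (τ (i + 1) e) =
      τ i true - τ i false + (-1 : ℤ) ^ (i + 1) • (q.x (i + 1) e - p.x (i + 1) e)) :
    ∃ γ : Cyl (nu A), γ.Valid ∧ γ.p = p ∧ γ.q = q ∧ ∀ i e, top γ i e = τ i e := by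
  have hτ : ∀ i e, A.bd (τ i e) = nucylM p q τ i e true - nucylM p q τ i e false := by
    intro i e
    cases i
    · simp [bd0, nucylM, nucylAlt]
    · rw [bdS, nucyl_sign]
      simp only [nucylM, cond_true, cond_false]
      abel
  let γ : Cyl (nu A) := ⟨p, q, nucylA p q τ pos hτ⟩
  have ha : ∀ k e' i e, Tab.x (γ.a k e') i e = if i < k + 1 then
      nucylM p q τ i (if i < k then e else e') e else if i = k + 1 then τ k e' else 0 :=
    fun _ _ _ _ => rfl
  have hd : ∀ k e, (nu A).Dim (k + 1) (γ.a k e) := fun k e => by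
    refine Tab.ext (funext fun i => funext fun e' => ?_)
    simp only [Tab.d_x, ha]
    split_ifs <;> first | rfl | omega
  have step : ∀ k, (∀ i e, Tab.x (γ.P k) i e = if i < k then nucylM p q τ i e e else
      if i = k then nucylM p q τ k e false else (nucylAlt k p q).x i e) →
      (∀ i e, Tab.x (γ.Q k) i e = if i < k then nucylM p q τ i e e else
      if i = k then nucylM p q τ k e true else (nucylAlt k q p).x i e) → γ.ValidAt k := by
    intro k hP hQ
    refine ⟨fun e => ?_, fun e => ?_, hd k⟩ <;>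
    · refine Tab.ext (funext fun i => funext fun e' => ?_)
      simp only [Tab.d_x, ha, hP, hQ]
      split_ifs <;> first | rfl | omega
  have key : ∀ k, (∀ i e, Tab.x (γ.P k) i e = if i < k then nucylM p q τ i e e else
      if i = k then nucylM p q τ k e false else (nucylAlt k p q).x i e) ∧
      ∀ i e, Tab.x (γ.Q k) i e = if i < k then nucylM p q τ i e e else
      if i = k then nucylM p q τ k e true else (nucylAlt k q p).x i e := by
    intro k
    induction k with
    | zero =>
      constructor <;>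
      · intro i e
        cases i <;> simp [nucylM, nucylAlt, Cyl.P_zero, Cyl.Q_zero, γ]
    | succ k ih =>
      have v := step k ih.1 ih.2
      constructor <;> intro i e
      · refine (Tab.cmp_x (v.t false) i e).trans ?_
        simp only [ha, ih.2]
        split_ifs <;> first | rfl | omega | skip
        · subst_vars
          cases e <;> rfl
        · subst_vars
          exact add_comm _ _
        · exact zero_add _
      · refine (Tab.cmp_x (v.s true).symm i e).trans ?_
        simp only [ha, ih.1]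
        split_ifs <;> first | rfl | omega | skip
        · subst_vars
          cases e <;> rfl
        · subst_vars
          rfl
        · exact add_zero _
  refine ⟨γ, fun k => step k (key k).1 (key k).2, rfl, rfl, fun i e => ?_⟩
  rw [top, ha, if_neg (lt_irrefl _), if_pos rfl]

/-- A table of dimension at most `k + 1` is determined by its `k`-source, `k`-target and top entry;
strong induction on the index. -/
theorem cyl_ext_tops {γ γ' : Cyl (nu A)} (h : γ.Valid) (h' : γ'.Valid) (hp : γ.p = γ'.p)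
    (hq : γ.q = γ'.q) (ht : ∀ i e, top γ i e = top γ' i e) : γ = γ' := by
  have h1 : ∀ k, γ.P k = γ'.P k → γ.Q k = γ'.Q k → ∀ e, γ.a k e = γ'.a k e := fun k hP hQ e =>
    nucyl_ext (((h k).s e).trans (hP ▸ ((h' k).s e).symm))
      (((h k).t e).trans (hQ ▸ ((h' k).t e).symm)) ((h k).dim e) ((h' k).dim e) (ht k e)
  have h2 : ∀ k, γ.P k = γ'.P k ∧ γ.Q k = γ'.Q k := fun k => by
    induction k with
    | zero => exact ⟨hp, hq⟩
    | succ k ih =>
      rw [Cyl.P_succ, Cyl.Q_succ, Cyl.P_succ, Cyl.Q_succ, h1 k ih.1 ih.2, h1 k ih.1 ih.2, ih.1,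
        ih.2]
      exact ⟨rfl, rfl⟩
  exact Cyl.ext hp hq (funext fun k => funext fun e => h1 k (h2 k).1 (h2 k).2 e)

theorem top_d {γ : Cyl (nu A)} (h : γ.Valid) (e : Bool) (n i : ℕ) (e' : Bool) :
    top (Cyl.d e n γ) i e' = if i < n then top γ i e' else if i = n then top γ n e else 0 := by
  simp only [top, Cyl.d_a]
  split_ifs with h1 h2
  · rfl
  · rw [h2]
  · exact nucyl_dim ((h n).dim e) (by omega) _

theorem top_cmp {α β : Cyl (nu A)} (hα : α.Valid) (hβ : β.Valid) {n : ℕ} (h : Cyl.Cp n α β)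
    (i : ℕ) (e : Bool) : top (Cyl.cmp n α β) i e = if i < n then top α i e else if i = n then
      (bif e then top β n true else top α n false) else top α i e + top β i e := by
  have hG : ∀ (e₁ e₂ : Bool), n < i → (nu A).Cp (n + 1)
      ((nu A).cmp n (α.a i e) ((nu A).d e₁ (n + 1) (β.Q n)))
      ((nu A).cmp n ((nu A).d e₂ (n + 1) (α.P n)) (β.a i e)) →
      Tab.x (Cyl.GG n e₁ e₂ (α.P n) (β.Q n) (α.a i e) (β.a i e)) (i + 1) false =
        top α i e + top β i e := fun e₁ e₂ hi c => by
    refine (nucyl_cmp c (by omega) _).trans ?_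
    rw [nucyl_cmp ((Cyl.cp_a_Q hα hβ h hi e).d_right e₁ n.lt_succ_self) (by omega),
      nucyl_cmp ((Cyl.cp_P_a hα hβ h hi e).d_left e₂ n.lt_succ_self) (by omega),
      nucyl_dim (dim_d e₁ (β.Q n) le_rfl) (by omega), nucyl_dim (dim_d e₂ (α.P n) le_rfl) (by omega),
      add_zero, zero_add]
    rfl
  split_ifs with h1 h2
  · rw [top, Cyl.cmp_a_lt _ _ h1, top]
  · subst h2
    cases e
    · rw [top, Cyl.cmp_a_false]
      rfl
    · rw [top, Cyl.cmp_a_true]
      rfl
  · rcases (show i = n + 1 ∨ n + 1 < i by omega) with rfl | hi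
    · rw [top, Cyl.cmp_a_succ]
      exact hG e e n.lt_succ_self (Cyl.cp_succ hα hβ h e)
    · rw [top, Cyl.cmp_a_gt _ _ hi]
      exact hG false true (by omega) ((Cyl.gs_a hα hβ hi e e).cp3 hα hβ h)

theorem nucyl_V {M : Type} [AddCommMonoid M] (k : ℕ) (Z : OCat) (T : ℕ → Z.C → M)
    (h1 : ∀ {n i x y}, n < i → Z.Cp n x y → T i (Z.cmp n x y) = T i x + T i y)
    (h2 : ∀ {j i x}, j < i → Z.Dim j x → T i x = 0) {α β : Cyl Z} (hα : α.Valid) (hβ : β.Valid)
    (h : α.q = β.p) (e : Bool) :
    T (k + 1) ((Cyl.V α β).a k e) = T (k + 1) (α.a k e) + T (k + 1) (β.a k e) := by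
  induction k generalizing Z with
  | zero => exact h1 Nat.one_pos (Cyl.cp_a_zero hα hβ h e)
  | succ k ih =>
    refine (ih Z.up (fun i => T (i + 1)) (fun hi c => h1 (Nat.succ_lt_succ hi) c)
      (fun hi c => h2 (Nat.succ_lt_succ hi) c) (Cyl.valid_whL hα hβ h) (Cyl.valid_whR hα hβ h)
      (Cyl.whL_q hα hβ h)).trans ?_
    refine (congrArg₂ (· + ·) (h1 (Nat.succ_pos _) ((Cyl.in_whL hα hβ h).a k e))
      (h1 (Nat.succ_pos _) ((Cyl.in_whR hα hβ h).a k e))).trans ?_
    rw [h2 (by omega) ((hα 0).dim false), h2 (by omega) ((hβ 0).dim true), zero_add, add_zero,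
      add_comm]
    rfl

/-- Generalize: for any `Z` and functions `T i : Z.C → M` with `T i (cmp n x y) = T i x + T i y`
for composable cells and `n < i`, and `T i x = 0` if `Dim j x` with `j < i`, one has
`T (k+1) ((V α β).a k e) = T (k+1) (α.a k e) + T (k+1) (β.a k e)`; induction through `Z.up`. -/
theorem top_V {α β : Cyl (nu A)} (hα : α.Valid) (hβ : β.Valid) (h : α.q = β.p) (i : ℕ)
    (e : Bool) : top (Cyl.V α β) i e = top α i e + top β i e := by
  exact nucyl_V i (nu A) (fun i x => Tab.x x i false) (fun hi c => nucyl_cmp c hi _)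
    (fun hi c => nucyl_dim c hi _) hα hβ h e

theorem top_cyl (ξ : Tab A) (i : ℕ) (e : Bool) :
    top (Cyl.cyl (Z := nu A) ξ) i e = ξ.x (i + 1) e := by
  exact (if_neg (lt_irrefl _)).trans (if_pos rfl)

theorem top_const (ξ : Tab A) (i : ℕ) (e : Bool) : top (Cyl.const (Z := nu A) ξ) i e = 0 := by
  exact nucyl_dim (dim_d (Z := nu A) e ξ le_rfl) i.lt_succ_self _

/-- A positive chain homotopy. -/
structure CHtp (f g : ADCHom A B) (h : A.K →ₗ[ℤ] B.K) : Prop where
  pos : ∀ i, ∀ x ∈ A.P i, h x ∈ B.P (i + 1)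
  bd : ∀ i, ∀ x ∈ A.P i, B.bd (h x) = h (A.bd x) + (-1 : ℤ) ^ i • (g.f x - f.f x)
  pt : h A.pt = 0

theorem exists_gamOfHtp {f g : ADCHom A B} {h : A.K →ₗ[ℤ] B.K} (H : CHtp f g h) :
    ∃ Θ : nu A ⟶ Gam (nu B), Θ ≫ p0 _ = nuMap f ∧ Θ ≫ p1 _ = nuMap g ∧
      ∀ x i e, top (Θ.f x).1 i e = h (Tab.x x i e) := by
  choose γ hv hp hq ht using fun x : Tab A => exists_cyl_of_tops (f.tab x) (g.tab x)
    (fun i e => h (x.x i e)) (fun i e => H.pos i _ (x.pos i e))
    (fun e => by rw [H.bd 0 _ (x.pos 0 e), x.bd0, H.pt, zero_add, pow_zero, one_smul]; rfl)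
    (fun i e => by rw [H.bd _ _ (x.pos _ e), x.bdS, map_sub]; rfl)
  have hd : ∀ e n x, γ (Tab.d e n x) = Cyl.d e n (γ x) := fun e n x => by
    refine cyl_ext_tops (hv _) ((hv x).d e n) ?_ ?_ fun i e' => ?_
    · rw [hp, f.tab_d, ← hp]
      rfl
    · rw [hq, g.tab_d, ← hq]
      rfl
    · rw [top_d (hv x), ht, ht, ht, Tab.d_x]
      split_ifs
      exacts [rfl, rfl, map_zero h]
  refine ⟨⟨fun x => ⟨γ x, hv x, ((nu A).fin x).imp fun N hN => by rw [← hd]; exact congrArg γ hN⟩,
    fun e n x => Subtype.ext (hd e n x), fun {n x y} c => Subtype.ext ?_⟩, ohom_ext hp, ohom_ext hq,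
    ht⟩
  have c' : Cyl.Cp n (γ x) (γ y) := by rw [Cyl.Cp, ← hd, ← hd]; exact congrArg γ c
  refine Eq.trans ?_ (gamCmp_val c').symm
  refine cyl_ext_tops (hv _) (Cyl.valid_cmp (hv x) (hv y) c') ?_ ?_ fun i e => ?_
  · refine (hp _).trans (((nuMap f).map_cmp c).trans ?_)
    exact congrArg₂ _ (hp x).symm (hp y).symm
  · refine (hq _).trans (((nuMap g).map_cmp c).trans ?_)
    exact congrArg₂ _ (hq x).symm (hq y).symm
  · rw [top_cmp (hv x) (hv y) c']
    simp only [ht, Tab.cmp_x c]
    split_ifs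
    · rfl
    · cases e <;> rfl
    · exact map_add _ _ _

theorem gam_hom_ext {X : OCat} {Θ Θ' : X ⟶ Gam (nu B)} (h0 : Θ ≫ p0 _ = Θ' ≫ p0 _)
    (h1 : Θ ≫ p1 _ = Θ' ≫ p1 _) (ht : ∀ x i e, top (Θ.f x).1 i e = top (Θ'.f x).1 i e) :
    Θ = Θ' := by
  exact ohom_ext fun x => Subtype.ext (cyl_ext_tops (Θ.f x).2.1 (Θ'.f x).2.1
    (congrArg (fun F => OHom.f F x) h0) (congrArg (fun F => OHom.f F x) h1) (ht x))

end Vale.Agent.P213
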