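import Vale.Agent.P213.NDefs
import Vale.Agent.P213.NuCyl

/-! P213: the two homotopies into cylinders. -/

open CategoryTheory Simplicial MonoidalCategory Opposite Limits CartesianMonoidalCategory

noncomputable section

namespace Vale.Agent.P213

/-- Adding a last vertex to a monotone sequence. -/
def snocO {T : Type} [Preorder T] {m : ℕ} (f : Fin (m + 1) →o T) (w : T) (hw : ∀ i, f i ≤ w) :
    Fin (m + 2) →o T where
  toFun := Fin.snoc (α := fun _ => T) f w
  monotone' := Fin.monotone_iff_le_succ.2 fun i => by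
    rw [Fin.snoc_castSucc]
    refine Fin.lastCases ?_ (fun j => ?_) i
    · rw [Fin.succ_last, Fin.snoc_last]
      exact hw _
    · rw [Fin.succ_castSucc, Fin.snoc_castSucc]
      exact f.monotone (Fin.castSucc_le_succ j)

theorem snocO_cs {T : Type} [Preorder T] {m : ℕ} (f : Fin (m + 1) →o T) (w : T)
    (hw : ∀ i, f i ≤ w) (i : Fin (m + 1)) : snocO f w hw i.castSucc = f i :=
  Fin.snoc_castSucc (α := fun _ => T) _ _ _

theorem snocO_last {T : Type} [Preorder T] {m : ℕ} (f : Fin (m + 1) →o T) (w : T)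
    (hw : ∀ i, f i ≤ w) : snocO f w hw (Fin.last _) = w :=
  Fin.snoc_last (α := fun _ => T) _ _

/-- The inclusion of an initial segment. -/
def csO (m : ℕ) : Fin m →o Fin (m + 1) := ⟨Fin.castSucc, Fin.strictMono_castSucc.monotone⟩

open Classical in
/-- Collapsing an upper set to a point. -/
def cutO {L L' : Type} [LinearOrder L] [LinearOrder L'] {K : Set L} (hK : IsUpperSet K)
    (f : L →o L') (w : L') (hw : ∀ i, f i ≤ w) : L →o L' where
  toFun i := if i ∈ K then w else f i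
  monotone' a b h := by
    dsimp only
    split_ifs with h1 h2 h2
    · exact le_rfl
    · exact absurd (hK h h1) h2
    · exact hw a
    · exact f.monotone h

theorem cutO_mem {L L' : Type} [LinearOrder L] [LinearOrder L'] {K : Set L} (hK : IsUpperSet K)
    (f : L →o L') (w : L') (hw : ∀ i, f i ≤ w) {i : L} (h : i ∈ K) : cutO hK f w hw i = w :=
  if_pos h

theorem cutO_notMem {L L' : Type} [LinearOrder L] [LinearOrder L'] {K : Set L} (hK : IsUpperSet K)
    (f : L →o L') (w : L') (hw : ∀ i, f i ≤ w) {i : L} (h : i ∉ K) : cutO hK f w hw i = f i :=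
  if_neg h

section

variable {L L' L'' : Type} [LinearOrder L] [LinearOrder L'] [LinearOrder L'']

theorem theta_nuMap_comp (f : L →o L') (g : L' →o L'') :
    nuMap (spxMap (g.comp f)) = nuMap (spxMap f) ≫ nuMap (spxMap g) :=
  ohom_ext fun x => tab_comp f g x

/-- A functor into cylinders with prescribed ends and top entries. -/
structure IsH (f g : L →o L') (h : Chn L →ₗ[ℤ] Chn L') (H : nu (spx L) ⟶ Gam (nu (spx L'))) :
    Prop where
  e0 : H ≫ p0 _ = nuMap (spxMap f)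
  e1 : H ≫ p1 _ = nuMap (spxMap g)
  top : ∀ x i e, top (H.f x).1 i e = h (Tab.x x i e)

variable {f g : L →o L'} {h : Chn L →ₗ[ℤ] Chn L'} {H H' : nu (spx L) ⟶ Gam (nu (spx L'))}

theorem IsH.unique (a : IsH f g h H) (b : IsH f g h H') : H = H' :=
  gam_hom_ext (a.e0.trans b.e0.symm) (a.e1.trans b.e1.symm) fun x i e =>
    (a.top x i e).trans (b.top x i e).symm

theorem IsH.pre (a : IsH f g h H) (α : L'' →o L) :
    IsH (f.comp α) (g.comp α) (h ∘ₗ push α) (nuMap (spxMap α) ≫ H) where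
  e0 := by rw [Category.assoc, a.e0, theta_nuMap_comp]
  e1 := by rw [Category.assoc, a.e1, theta_nuMap_comp]
  top x i e := a.top ((spxMap α).tab x) i e

theorem IsH.post (a : IsH f g h H) (β : L' →o L'') :
    IsH (β.comp f) (β.comp g) (push β ∘ₗ h) (H ≫ gmap (nuMap (spxMap β))) where
  e0 := by rw [Category.assoc, gmap_p0, ← Category.assoc, a.e0, theta_nuMap_comp]
  e1 := by rw [Category.assoc, gmap_p1, ← Category.assoc, a.e1, theta_nuMap_comp]
  top x i e := congrArg (push β) (a.top x i e)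

theorem isH_const (f : L →o L') : IsH f f 0 (nuMap (spxMap f) ≫ gconst _) where
  e0 := by rw [Category.assoc, gconst_p0, Category.comp_id]
  e1 := by rw [Category.assoc, gconst_p1, Category.comp_id]
  top x i e := top_const _ i e

theorem exists_isH_hT {K : Set L} (hK : IsUpperSet K) (f : L →o L') (w : L') (hw : ∀ v, f v ≤ w) :
    ∃ H, IsH f (cutO hK f w hw) (hT K f w) H := by
  obtain ⟨H, h0, h1, h2⟩ := exists_gamOfHtp (A := spx L) (B := spx L') (f := spxMap f)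
    (g := spxMap (cutO hK f w hw)) (h := hT K f w)
    ⟨fun i x hx => jn_pos w ((spxMap f).pos i _ (sub_A0_pos K hx)),
      fun i x hx => bd_hT hK f _ w hw (fun _ => cutO_mem hK f w hw)
        (fun _ => cutO_notMem hK f w hw) hx, by simp [hT_apply, A0_single]⟩
  exact ⟨H, h0, h1, h2⟩

theorem exists_isH_hT' {K : Set L} (hK : IsUpperSet K) (f : L →o L') (w₁ w₂ : L')
    (hw : ∀ v, f v ≤ w₁) (hw' : w₁ ≤ w₂) : ∃ H, IsH (cutO hK f w₁ hw)
      (cutO hK f w₂ fun v => (hw v).trans hw') (hT' K f w₁ w₂) H := by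
  obtain ⟨H, h0, h1, h2⟩ := exists_gamOfHtp (A := spx L) (B := spx L')
    (f := spxMap (cutO hK f w₁ hw)) (g := spxMap (cutO hK f w₂ fun v => (hw v).trans hw'))
    (h := hT' K f w₁ w₂)
    ⟨fun i x hx => hT'_pos K f w₁ w₂ hx,
      fun i x hx => bd_hT' hK f _ _ w₁ w₂ hw hw' (fun _ => cutO_mem hK f w₁ hw)
        (fun _ => cutO_notMem hK f w₁ hw) (fun _ => cutO_mem hK f w₂ _)
        (fun _ => cutO_notMem hK f w₂ _) hx, by simp [hT'_apply, CC_single]⟩
  exact ⟨H, h0, h1, h2⟩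

theorem hT_pre (K : Set L) (f : L →o L') (w : L') (α : L'' →o L) :
    hT K f w ∘ₗ push α = hT (α ⁻¹' K) (f.comp α) w := by
  refine LinearMap.ext fun x => ?_
  rw [LinearMap.comp_apply, hT_apply, hT_apply, A0_push, ← map_sub, push_comp]

theorem hT_post (K : Set L) (f : L →o L') (w : L') (β : L' →o L'') :
    push β ∘ₗ hT K f w = hT K (β.comp f) (β w) := by
  refine LinearMap.ext fun x => ?_
  rw [LinearMap.comp_apply, hT_apply, hT_apply, push_jn, push_comp]

theorem hT_empty {K : Set L} (hK : ∀ i, i ∉ K) (f : L →o L') (w : L') : hT K f w = 0 := by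
  refine LinearMap.ext fun x => ?_
  rw [hT_apply, A0_eq_self fun _ _ v _ => hK v, sub_self, map_zero, map_zero]
  rfl

theorem hT'_pre (K : Set L) (f : L →o L') (w₁ w₂ : L') (α : L'' →o L) :
    hT' K f w₁ w₂ ∘ₗ push α = hT' (α ⁻¹' K) (f.comp α) w₁ w₂ := by
  refine LinearMap.ext fun x => ?_
  rw [LinearMap.comp_apply, hT'_apply, hT'_apply, CC_push, push_comp]

theorem hT'_post (K : Set L) (f : L →o L') (w₁ w₂ : L') (β : L' →o L'') :
    push β ∘ₗ hT' K f w₁ w₂ = hT' K (β.comp f) (β w₁) (β w₂) := by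
  refine LinearMap.ext fun x => ?_
  rw [LinearMap.comp_apply, hT'_apply, hT'_apply, push_jn, push_jn, push_comp]

theorem hT'_empty {K : Set L} (hK : ∀ i, i ∉ K) (f : L →o L') (w₁ w₂ : L') :
    hT' K f w₁ w₂ = 0 := by
  refine LinearMap.ext fun x => ?_
  rw [hT'_apply, CC_eq_zero fun _ _ v _ => hK v, map_zero, map_zero, map_zero]
  rfl

end

variable {P : Type} [PartialOrder P] {A B : Set P} {Y : OCat}

theorem theta_nat (g : (NS B : SSet.{0}) ⟶ NO.obj Y) {a b : SimplexCategoryᵒᵖ}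
    (β : Fin (a.unop.len + 1) →o Fin (b.unop.len + 1)) (σ : (NS B : SSet.{0}).obj b)
    (τ : (NS B : SSet.{0}).obj a) (h : ∀ i, NP.fn τ.1 i = NP.fn σ.1 (β i)) :
    NO.fn (g.app a τ) = nuMap (spxMap β) ≫ NO.fn (g.app b σ) := by
  have e : τ = (NS B : SSet.{0}).map (mkH (a := a.unop) (b := b.unop) β).op σ :=
    Subtype.ext (OrderHom.ext _ _ (funext h))
  rw [e]
  exact g.naturality_apply (mkH (a := a.unop) (b := b.unop) β).op σ

/-- The vertices outside `A`. -/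
def cutS (A : Set P) {m : SimplexCategoryᵒᵖ} (σ : (NS B : SSet.{0}).obj m) :
    Set (Fin (m.unop.len + 1)) := {i | NP.fn σ.1 i ∉ A}

theorem cutS_upper (hA : IsLowerSet A) {m : SimplexCategoryᵒᵖ} (σ : (NS B : SSet.{0}).obj m) :
    IsUpperSet (cutS A σ) := fun _ _ h hi hj => hi (hA ((NP.fn σ.1).monotone h) hj)

/-- A natural relation with unique existence defines a map of simplicial sets. -/
theorem theta_glue {K Z : SSet.{0}} (R : ∀ m, K.obj m → Z.obj m → Prop)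
    (ex : ∀ m σ, ∃ T, R m σ T) (un : ∀ m σ T T', R m σ T → R m σ T' → T = T')
    (nat : ∀ m m' (α : m ⟶ m') σ T, R m σ T → R m' (K.map α σ) (Z.map α T)) :
    ∃ Θ : K ⟶ Z, ∀ m σ, R m σ (Θ.app m σ) := by
  choose F hF using ex
  exact ⟨⟨fun m => TypeCat.ofHom (F m), fun m m' α => by
    ext σ
    exact un _ _ _ _ (hF _ _) (nat _ _ α _ _ (hF _ _))⟩, hF⟩

/-- The defining relation of the first homotopy. -/
def ThR (hA : IsLowerSet A) (v : P) (g : (NS B : SSet.{0}) ⟶ NO.obj Y) (m : SimplexCategoryᵒᵖ)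
    (σ : (NS B : SSet.{0}).obj m) (T : (NO.obj (Gam Y)).obj m) : Prop :=
  ∃ (m' : SimplexCategoryᵒᵖ) (σ' : (NS B : SSet.{0}).obj m')
    (f : Fin (m.unop.len + 1) →o Fin (m'.unop.len + 1)) (w : Fin (m'.unop.len + 1))
    (hw : ∀ i, f i ≤ w) (H : nu (spx _) ⟶ Gam (nu (spx _))),
    (∀ i, NP.fn σ.1 i = NP.fn σ'.1 (f i)) ∧ (∀ i ∈ cutS A σ, NP.fn σ'.1 w = v) ∧
      IsH f (cutO (cutS_upper hA σ) f w hw) (hT (cutS A σ) f w) H ∧
      NO.fn T = H ≫ gmap (NO.fn (g.app m' σ'))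

theorem ThR.empty {hA : IsLowerSet A} {v : P} {g : (NS B : SSet.{0}) ⟶ NO.obj Y}
    {m : SimplexCategoryᵒᵖ} {σ : (NS B : SSet.{0}).obj m} {T : (NO.obj (Gam Y)).obj m}
    (h : ThR hA v g m σ T) (hK : ∀ i, i ∉ cutS A σ) :
    NO.fn T = NO.fn (g.app m σ) ≫ gconst Y := by
  obtain ⟨m', σ', f, w, hw, H, h1, -, h3, h4⟩ := h
  rw [hT_empty hK, show cutO (cutS_upper hA σ) f w hw = f from
    OrderHom.ext _ _ (funext fun i => cutO_notMem _ _ _ _ (hK i))] at h3
  rw [h4, h3.unique (isH_const f), Category.assoc, gconst_gmap, ← Category.assoc,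
    ← theta_nat g f σ' σ h1]

theorem exists_theta (hA : IsLowerSet A) (h : A ⊆ B) {v : P} (hv : v ∈ B)
    (hle : ∀ b ∈ B, b ∉ A → b ≤ v) (hm : MonotoneOn (colT A v) B) (hb : Set.MapsTo (colT A v) B B)
    (g : (NS B : SSet.{0}) ⟶ NO.obj Y) : ∃ Θ : (NS B : SSet.{0}) ⟶ NO.obj (Gam Y),
      Θ ≫ NO.map (p0 Y) = g ∧ Θ ≫ NO.map (p1 Y) = NSmap (colT A v) hm hb ≫ g ∧
      NSi h ≫ Θ = NSi h ≫ g ≫ NO.map (gconst Y) := by
  obtain ⟨Θ, hΘ⟩ := theta_glue (ThR hA v g) (fun m σ => by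
    obtain ⟨w, hwB, hw, hw'⟩ : ∃ w ∈ B, (∀ i, NP.fn σ.1 i ≤ w) ∧ ∀ i ∈ cutS A σ, w = v := by
      by_cases hl : NP.fn σ.1 (Fin.last _) ∈ A
      · exact ⟨_, σ.2 _, fun i => (NP.fn σ.1).monotone (Fin.le_last i),
          fun i hi => absurd hl (cutS_upper hA σ (Fin.le_last i) hi)⟩
      · exact ⟨v, hv, fun i => ((NP.fn σ.1).monotone (Fin.le_last i)).trans (hle _ (σ.2 _) hl),
          fun _ _ => rfl⟩
    obtain ⟨H, hH⟩ := exists_isH_hT (cutS_upper hA σ) (csO _) (Fin.last _) fun _ => Fin.le_last _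
    refine ⟨_, op ⦋m.unop.len + 1⦌, ⟨snocO (NP.fn σ.1) w hw, fun i => ?_⟩, csO _, Fin.last _, _, H,
      fun i => (snocO_cs _ _ hw i).symm, fun i hi => (snocO_last _ _ hw).trans (hw' i hi), hH, rfl⟩
    refine Fin.lastCases (motive := fun i => snocO (NP.fn σ.1) w hw i ∈ B) ?_ (fun j => ?_) i
    · rwa [snocO_last]
    · rw [snocO_cs]
      exact σ.2 j) (fun m σ T T' hT hT' => by
    by_cases hK : ∀ i, i ∉ cutS A σ
    · exact (hT.empty hK).trans (hT'.empty hK).symm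
    · obtain ⟨i₀, hi₀⟩ := not_forall.1 hK
      obtain ⟨H₀, hH₀⟩ := exists_isH_hT (cutS_upper hA σ) (csO _) (Fin.last _)
        fun _ => Fin.le_last _
      have key : ∀ T, ThR hA v g m σ T → ∃ τ : (NS B : SSet.{0}).obj (op ⦋m.unop.len + 1⦌),
          (∀ i : Fin (m.unop.len + 1), NP.fn τ.1 i.castSucc = NP.fn σ.1 i) ∧
          NP.fn τ.1 (Fin.last _) = v ∧ NO.fn T = H₀ ≫ gmap (NO.fn (g.app _ τ)) := by
        rintro T ⟨m', σ', f, w, hw, H, h1, h2, h3, h4⟩
        have h5 := hH₀.post (snocO f w hw)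
        have e1 : (snocO f w hw).comp (csO _) = f := OrderHom.ext _ _ (funext (snocO_cs f w hw))
        have e2 : (snocO f w hw).comp (cutO (cutS_upper hA σ) (csO _) (Fin.last _)
            fun _ => Fin.le_last _) = cutO (cutS_upper hA σ) f w hw := by
          refine OrderHom.ext _ _ (funext fun i => ?_)
          by_cases hi : i ∈ cutS A σ
          · rw [OrderHom.comp_coe, Function.comp_apply, cutO_mem _ _ _ _ hi, cutO_mem _ _ _ _ hi,
              snocO_last]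
          · rw [OrderHom.comp_coe, Function.comp_apply, cutO_notMem _ _ _ _ hi,
              cutO_notMem _ _ _ _ hi]
            exact snocO_cs f w hw i
        rw [hT_post, e1, e2, snocO_last] at h5
        refine ⟨⟨(NP.fn σ'.1).comp (snocO f w hw), fun i => σ'.2 _⟩, fun i => ?_, ?_, ?_⟩
        · exact (congrArg (NP.fn σ'.1) (snocO_cs f w hw i)).trans (h1 i).symm
        · exact (congrArg (NP.fn σ'.1) (snocO_last f w hw)).trans (h2 i₀ (not_not.1 hi₀))
        · rw [h4, h3.unique h5, Category.assoc, ← gmap_comp]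
          exact congrArg (fun z => H₀ ≫ gmap z)
            (theta_nat g (a := op ⦋m.unop.len + 1⦌) (snocO f w hw) σ' _ fun _ => rfl).symm
      obtain ⟨τ, a1, a2, a3⟩ := key T hT
      obtain ⟨τ', b1, b2, b3⟩ := key T' hT'
      obtain rfl : τ = τ' := Subtype.ext (OrderHom.ext _ _ (funext fun i =>
        Fin.lastCases (motive := fun i => NP.fn τ.1 i = NP.fn τ'.1 i) (a2.trans b2.symm)
          (fun j => (a1 j).trans (b1 j).symm) i))
      exact a3.trans b3.symm) (by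
    rintro m m₁ α σ T ⟨m', σ', f, w, hw, H, h1, h2, h3, h4⟩
    have h5 := h3.pre α.unop.toOrderHom
    rw [hT_pre] at h5
    exact ⟨m', σ', f.comp α.unop.toOrderHom, w, fun _ => hw _, _, fun _ => h1 _,
      fun _ hi => h2 _ hi, h5, by rw [NO_obj_map_fn, h4, Category.assoc]⟩)
  refine ⟨Θ, ?_, ?_, ?_⟩
  · ext m σ
    obtain ⟨m', σ', f, w, hw, H, h1, -, h3, h4⟩ := hΘ m σ
    change NO.fn (Θ.app m σ) ≫ p0 Y = NO.fn (g.app m σ)
    rw [h4, Category.assoc, gmap_p0, ← Category.assoc, h3.e0, theta_nat g f σ' σ h1]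
  · ext m σ
    obtain ⟨m', σ', f, w, hw, H, h1, h2, h3, h4⟩ := hΘ m σ
    change NO.fn (Θ.app m σ) ≫ p1 Y = NO.fn (g.app m ((NSmap (colT A v) hm hb).app m σ))
    rw [h4, Category.assoc, gmap_p1, ← Category.assoc, h3.e1]
    refine (theta_nat g _ σ' _ fun i => ?_).symm
    rw [NSmap_fn]
    by_cases hi : i ∈ cutS A σ
    · rw [cutO_mem _ _ _ _ hi, h2 i hi, colT_of_notMem _ hi]
    · rw [cutO_notMem _ _ _ _ hi, colT_of_mem _ (not_not.1 hi), h1]
  · ext m σ
    exact (hΘ m ((NSi h).app m σ)).empty fun i hi => hi (σ.2 i)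

/-- The defining relation of the second homotopy. -/
def ThR' (hA : IsLowerSet A) (v t : P) (g : (NS B : SSet.{0}) ⟶ NO.obj Y) (m : SimplexCategoryᵒᵖ)
    (σ : (NS B : SSet.{0}).obj m) (T : (NO.obj (Gam Y)).obj m) : Prop :=
  ∃ (m' : SimplexCategoryᵒᵖ) (σ' : (NS B : SSet.{0}).obj m')
    (f : Fin (m.unop.len + 1) →o Fin (m'.unop.len + 1)) (w₁ w₂ : Fin (m'.unop.len + 1))
    (hw : ∀ i, f i ≤ w₁) (hw' : w₁ ≤ w₂) (H : nu (spx _) ⟶ Gam (nu (spx _))),
    (∀ i, colT A t (NP.fn σ.1 i) = NP.fn σ'.1 (f i)) ∧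
      (∀ i ∈ cutS A σ, NP.fn σ'.1 w₁ = t ∧ NP.fn σ'.1 w₂ = v) ∧
      IsH (cutO (cutS_upper hA σ) f w₁ hw) (cutO (cutS_upper hA σ) f w₂ fun i => (hw i).trans hw')
        (hT' (cutS A σ) f w₁ w₂) H ∧ NO.fn T = H ≫ gmap (NO.fn (g.app m' σ'))

theorem ThR'.empty {hA : IsLowerSet A} {v t : P} {g : (NS B : SSet.{0}) ⟶ NO.obj Y}
    {m : SimplexCategoryᵒᵖ} {σ : (NS B : SSet.{0}).obj m} {T : (NO.obj (Gam Y)).obj m}
    (h : ThR' hA v t g m σ T) (hK : ∀ i, i ∉ cutS A σ) :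
    NO.fn T = NO.fn (g.app m σ) ≫ gconst Y := by
  obtain ⟨m', σ', f, w₁, w₂, hw, hw', H, h1, -, h3, h4⟩ := h
  rw [hT'_empty hK, show cutO (cutS_upper hA σ) f w₁ hw = f from
    OrderHom.ext _ _ (funext fun i => cutO_notMem _ _ _ _ (hK i)),
    show cutO (cutS_upper hA σ) f w₂ (fun i => (hw i).trans hw') = f from
    OrderHom.ext _ _ (funext fun i => cutO_notMem _ _ _ _ (hK i))] at h3
  rw [h4, h3.unique (isH_const f), Category.assoc, gconst_gmap, ← Category.assoc,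
    ← theta_nat g f σ' σ fun i => (colT_of_mem t (not_not.1 (hK i))).symm.trans (h1 i)]

theorem exists_theta' (hA : IsLowerSet A) {v t : P} (hv : v ∉ A) (ht : t ∈ A) (htv : t < v)
    (hmax : ∀ a ∈ A, a < v → a ≤ t) (h : A ⊆ insert v A)
    (hm : MonotoneOn (colT A t) (insert v A)) (hb : Set.MapsTo (colT A t) (insert v A) (insert v A))
    (g : (NS (insert v A) : SSet.{0}) ⟶ NO.obj Y) :
    ∃ Θ : (NS (insert v A) : SSet.{0}) ⟶ NO.obj (Gam Y),
      Θ ≫ NO.map (p0 Y) = NSmap (colT A t) hm hb ≫ g ∧ Θ ≫ NO.map (p1 Y) = g ∧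
      NSi h ≫ Θ = NSi h ≫ g ≫ NO.map (gconst Y) := by
  have hl : ∀ (k : ℕ) (i : Fin (k + 1)), ((csO _).comp (csO _)) i ≤ (Fin.last (k + 1)).castSucc :=
    fun k i => Fin.castSucc_le_castSucc_iff.2 (Fin.le_last _)
  obtain ⟨Θ, hΘ⟩ := theta_glue (ThR' hA v t g) (fun m σ => by
    let ρ := (NSmap (colT A t) hm hb).app m σ
    obtain ⟨w₁, hw₁, w₂, hw₂, hw, hw', hw''⟩ : ∃ w₁ ∈ insert v A, ∃ w₂ ∈ insert v A,
        (∀ i, NP.fn ρ.1 i ≤ w₁) ∧ w₁ ≤ w₂ ∧ ∀ i ∈ cutS A σ, w₁ = t ∧ w₂ = v := by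
      by_cases hl : NP.fn σ.1 (Fin.last _) ∈ A
      · exact ⟨_, ρ.2 _, _, ρ.2 _, fun i => (NP.fn ρ.1).monotone (Fin.le_last i), le_rfl,
          fun i hi => absurd hl (cutS_upper hA σ (Fin.le_last i) hi)⟩
      · exact ⟨t, h ht, v, Set.mem_insert _ _,
          fun i => ((NP.fn ρ.1).monotone (Fin.le_last i)).trans (colT_of_notMem t hl).le, htv.le,
          fun _ _ => ⟨rfl, rfl⟩⟩
    have hw3 : ∀ i, snocO (NP.fn ρ.1) w₁ hw i ≤ w₂ := fun i =>
      ((snocO (NP.fn ρ.1) w₁ hw).monotone (Fin.le_last i)).trans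
        ((snocO_last _ _ hw).le.trans hw')
    obtain ⟨H, hH⟩ := exists_isH_hT' (cutS_upper hA σ) ((csO _).comp (csO _))
      (Fin.last _).castSucc (Fin.last _) (hl _) (Fin.le_last _)
    refine ⟨_, op ⦋m.unop.len + 2⦌, ⟨snocO (snocO (NP.fn ρ.1) w₁ hw) w₂ hw3, fun i => ?_⟩,
      (csO _).comp (csO _), (Fin.last _).castSucc, Fin.last _, hl _, Fin.le_last _, H,
      fun i => ((snocO_cs _ _ hw3 _).trans (snocO_cs _ _ hw i)).symm,
      fun i hi => ⟨((snocO_cs _ _ hw3 _).trans (snocO_last _ _ hw)).trans (hw'' i hi).1,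
        (snocO_last _ _ hw3).trans (hw'' i hi).2⟩, hH, rfl⟩
    refine Fin.lastCases (motive := fun i => snocO (snocO (NP.fn ρ.1) w₁ hw) w₂ hw3 i ∈
      insert v A) ?_ (fun j => ?_) i
    · rwa [snocO_last]
    · rw [snocO_cs]
      refine Fin.lastCases (motive := fun j => snocO (NP.fn ρ.1) w₁ hw j ∈ insert v A) ?_
        (fun j => ?_) j
      · rwa [snocO_last]
      · rw [snocO_cs]
        exact ρ.2 j) (fun m σ T T' hT hT' => by
    by_cases hK : ∀ i, i ∉ cutS A σ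
    · exact (hT.empty hK).trans (hT'.empty hK).symm
    · obtain ⟨i₀, hi₀⟩ := not_forall.1 hK
      obtain ⟨H₀, hH₀⟩ := exists_isH_hT' (cutS_upper hA σ) ((csO _).comp (csO _))
        (Fin.last _).castSucc (Fin.last _) (hl _) (Fin.le_last _)
      have key : ∀ T, ThR' hA v t g m σ T →
          ∃ τ : (NS (insert v A) : SSet.{0}).obj (op ⦋m.unop.len + 2⦌),
          (∀ i : Fin (m.unop.len + 1),
            NP.fn τ.1 i.castSucc.castSucc = colT A t (NP.fn σ.1 i)) ∧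
          NP.fn τ.1 (Fin.last _).castSucc = t ∧ NP.fn τ.1 (Fin.last _) = v ∧
          NO.fn T = H₀ ≫ gmap (NO.fn (g.app _ τ)) := by
        rintro T ⟨m', σ', f, w₁, w₂, hw, hw', H, h1, h2, h3, h4⟩
        have hw3 : ∀ i, snocO f w₁ hw i ≤ w₂ := fun i =>
          ((snocO f w₁ hw).monotone (Fin.le_last i)).trans ((snocO_last _ _ hw).le.trans hw')
        have c1 : ∀ i, snocO (snocO f w₁ hw) w₂ hw3 (((csO _).comp (csO _)) i) = f i := fun i =>
          (snocO_cs _ _ hw3 _).trans (snocO_cs _ _ hw i)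
        have c2 : snocO (snocO f w₁ hw) w₂ hw3 (Fin.last _).castSucc = w₁ :=
          (snocO_cs _ _ hw3 _).trans (snocO_last _ _ hw)
        have h5 := hH₀.post (snocO (snocO f w₁ hw) w₂ hw3)
        have e1 : (snocO (snocO f w₁ hw) w₂ hw3).comp ((csO _).comp (csO _)) = f :=
          OrderHom.ext _ _ (funext c1)
        have e2 : ∀ u hu u' hu', snocO (snocO f w₁ hw) w₂ hw3 u = u' →
            (snocO (snocO f w₁ hw) w₂ hw3).comp
              (cutO (cutS_upper hA σ) ((csO _).comp (csO _)) u hu) =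
              cutO (cutS_upper hA σ) f u' hu' := fun u hu u' hu' e => by
          refine OrderHom.ext _ _ (funext fun i => ?_)
          by_cases hi : i ∈ cutS A σ
          · rw [OrderHom.comp_coe, Function.comp_apply, cutO_mem _ _ _ _ hi, cutO_mem _ _ _ _ hi, e]
          · rw [OrderHom.comp_coe, Function.comp_apply, cutO_notMem _ _ _ _ hi,
              cutO_notMem _ _ _ _ hi, c1]
        rw [hT'_post, e1, e2 _ _ w₁ hw c2, e2 _ _ w₂ (fun i => (hw i).trans hw') (snocO_last _ _ _),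
          c2, snocO_last] at h5
        refine ⟨⟨(NP.fn σ'.1).comp (snocO (snocO f w₁ hw) w₂ hw3), fun i => σ'.2 _⟩,
          fun i => ?_, ?_, ?_, ?_⟩
        · exact (congrArg (NP.fn σ'.1) (c1 i)).trans (h1 i).symm
        · exact (congrArg (NP.fn σ'.1) c2).trans (h2 i₀ (not_not.1 hi₀)).1
        · exact (congrArg (NP.fn σ'.1) (snocO_last _ _ hw3)).trans (h2 i₀ (not_not.1 hi₀)).2
        · rw [h4, h3.unique h5, Category.assoc, ← gmap_comp]
          exact congrArg (fun z => H₀ ≫ gmap z) (theta_nat g (a := op ⦋m.unop.len + 2⦌)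
            (snocO (snocO f w₁ hw) w₂ hw3) σ' _ fun _ => rfl).symm
      obtain ⟨τ, a1, a2, a3, a4⟩ := key T hT
      obtain ⟨τ', b1, b2, b3, b4⟩ := key T' hT'
      obtain rfl : τ = τ' := Subtype.ext (OrderHom.ext _ _ (funext fun i =>
        Fin.lastCases (motive := fun i => NP.fn τ.1 i = NP.fn τ'.1 i) (a3.trans b3.symm)
          (fun j => Fin.lastCases (motive := fun j => NP.fn τ.1 j.castSucc = NP.fn τ'.1 j.castSucc)
            (a2.trans b2.symm) (fun j => (a1 j).trans (b1 j).symm) j) i))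
      exact a4.trans b4.symm) (by
    rintro m m₁ α σ T ⟨m', σ', f, w₁, w₂, hw, hw', H, h1, h2, h3, h4⟩
    have h5 := h3.pre α.unop.toOrderHom
    rw [hT'_pre] at h5
    exact ⟨m', σ', f.comp α.unop.toOrderHom, w₁, w₂, fun _ => hw _, hw', _, fun _ => h1 _,
      fun _ hi => h2 _ hi, h5, by rw [NO_obj_map_fn, h4, Category.assoc]⟩)
  refine ⟨Θ, ?_, ?_, ?_⟩
  · ext m σ
    obtain ⟨m', σ', f, w₁, w₂, hw, hw', H, h1, h2, h3, h4⟩ := hΘ m σ
    change NO.fn (Θ.app m σ) ≫ p0 Y = NO.fn (g.app m ((NSmap (colT A t) hm hb).app m σ))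
    rw [h4, Category.assoc, gmap_p0, ← Category.assoc, h3.e0]
    refine (theta_nat g _ σ' _ fun i => ?_).symm
    rw [NSmap_fn]
    by_cases hi : i ∈ cutS A σ
    · rw [cutO_mem _ _ _ _ hi, (h2 i hi).1, colT_of_notMem _ hi]
    · rw [cutO_notMem _ _ _ _ hi, h1]
  · ext m σ
    obtain ⟨m', σ', f, w₁, w₂, hw, hw', H, h1, h2, h3, h4⟩ := hΘ m σ
    change NO.fn (Θ.app m σ) ≫ p1 Y = NO.fn (g.app m σ)
    rw [h4, Category.assoc, gmap_p1, ← Category.assoc, h3.e1]
    refine (theta_nat g _ σ' _ fun i => ?_).symm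
    by_cases hi : i ∈ cutS A σ
    · rw [cutO_mem _ _ _ _ hi, (h2 i hi).2]
      exact (σ.2 i).resolve_right hi
    · rw [cutO_notMem _ _ _ _ hi, ← h1, colT_of_mem _ (not_not.1 hi)]
  · ext m σ
    exact (hΘ m ((NSi h).app m σ)).empty fun i hi => hi (σ.2 i)

end Vale.Agent.P213
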