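import Vale.Agent.P213.AttA
import Vale.Agent.P213.Theta
import Vale.Agent.P213.AW
import Vale.Agent.P213.OLim
import Vale.Agent.P213.SGlue
import Vale.Agent.P213.SZig

/-! P213: the base cases of the key lemma. -/

open CategoryTheory Simplicial MonoidalCategory Opposite Limits CartesianMonoidalCategory

noncomputable section

namespace Vale.Agent.P213

open OCat

variable {P : Type} [PartialOrder P] {n : ℕ∞} {A B : Set P} {X Q : OCat}
  {fs : (NS A : SSet.{0}) ⟶ NO.obj X} {i : X ⟶ Q}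

theorem htp_of_gam {Y Z : OCat} (θ : Y ⟶ Gam Z) : Htp (NO.map (θ ≫ p0 Z)) (NO.map (θ ≫ p1 Z)) := by
  rw [NO.map_comp, NO.map_comp]
  exact (htp_p0_p1 Z).pre _

theorem base_NS_ext {K : SSet.{0}} {f f' : K ⟶ (NS B : SSet.{0})}
    (h : ∀ m σ j, NP.fn (f.app m σ).1 j = NP.fn (f'.app m σ).1 j) : f = f' := by
  ext m σ
  exact Subtype.ext (OrderHom.ext _ _ (funext (h m σ)))

theorem base_whe {Y Z : OCat} (j : Y ⟶ Z) (r : Z ⟶ Y) (h1 : j ≫ r = 𝟙 Y)
    (h2 : HtpE (NO.map (r ≫ j)) (NO.map (𝟙 Z))) : WHE (NO.map j) := by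
  refine whe_of_htpEquiv _ (NO.map r) ?_ ?_
  · rw [← NO.map_comp, h1, NO.map_id]
    exact .refl _
  · rwa [NO.map_comp, NO.map_id] at h2

theorem Att.isIso {h : A ⊆ B} {g : (NS B : SSet.{0}) ⟶ NO.obj Q} (att : Att n h fs i g)
    (h' : B ⊆ A) : IsIso i := by
  obtain ⟨r, h1, h2⟩ := att.ex X att.isNX (𝟙 X) (NSi h' ≫ fs) (by
    rw [NO.map_id, Category.comp_id]
    rfl)
  refine ⟨r, h1, att.uniq Q att.isN _ _ ?_ ?_⟩
  · rw [← Category.assoc, h1, Category.id_comp, Category.comp_id]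
  · rw [NO.map_comp, ← Category.assoc, h2, Category.assoc, att.w, NO.map_id, Category.comp_id]
    rfl

/-- From `Att.restrict` with `B₁ = A` and `Att.isIso`. All labels are `⊥` or outside `A`
(`Att.gen` for the set of cells whose source and target labels have this property). -/
theorem Att.inj {h : A ⊆ B} {g : (NS B : SSet.{0}) ⟶ NO.obj Q} (att : Att n h fs i g)
    (hn : 1 ≤ n) (hA : IsLowerSet A) {l : Q ⟶ posCat (WithBot P)} (hl : IsLab A i g l) :
    Function.Injective i.f ∧ ∀ z, lab l z = ⊥ → ∃ x, i.f x = z := by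
  obtain ⟨i₁, g₁, e, -, a₁⟩ := att.restrict hn hl hA subset_rfl h
  have := a₁.isIso subset_rfl
  subst e
  refine ⟨(subι_inj _).comp (Function.LeftInverse.injective (g := (inv i₁).f) fun x =>
    congrArg (fun F => OHom.f F x) (IsIso.hom_inv_id i₁)), fun z hz => ?_⟩
  have hz' : lab l z ∈ lowL A := hz ▸ bot_mem_lowL A
  let z' : (sub (closed_lab l (isLowerSet_lowL hA))).C := ⟨z, hz'⟩
  exact ⟨(inv i₁).f z', congrArg (fun F => OHom.f F z') (IsIso.inv_hom_id_assoc i₁ (subι _))⟩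

theorem hpo_base_eq {h : A ⊆ B} {g : (NS B : SSet.{0}) ⟶ NO.obj Q} (att : Att n h fs i g)
    (h' : B ⊆ A) : HPO (NSi h) fs g (NO.map i) := by
  have := att.isIso h'
  have : IsIso (NSi h) := ⟨NSi h', rfl, rfl⟩
  exact hpo_of_whe (whe_of_isIso _) (whe_of_isIso _)

/-- A simplex of `NS (insert v A)` is in `NS A` or constant at `v`. By `Att.gen` every cell of `Q`
is in the image of `i` or is the object `z` given by `v` (`tab_const`). A simplex of the nerve of
`Q` has all its vertices with the same label (`exists_edge`), so it factors through `i` (`liftInj`)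
or is constant at `z`. Use `isPushout_of_levelwise'` and `hpo_of_isPushout`. -/
theorem hpo_base_iso (hn : 1 ≤ n) (hA : IsLowerSet A) {v : P} (hv : v ∉ A)
    (hlt : ∀ a ∈ A, ¬ a < v) {h : A ⊆ insert v A}
    {g : (NS (insert v A) : SSet.{0}) ⟶ NO.obj Q} (att : Att n h fs i g) :
    HPO (NSi h) fs g (NO.map i) := by
  obtain ⟨l, hl⟩ := att.exists_lab hn hA
  obtain ⟨inj, sur⟩ := att.inj hn hA hl
  let c : ∀ m, (NS (insert v A) : SSet.{0}).obj m := fun m =>
    ⟨OrderHom.const _ v, fun _ => Set.mem_insert _ _⟩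
  have dich : ∀ m (σ : (NS (insert v A) : SSet.{0}).obj m),
      (∃ τ, (NSi h).app m τ = σ) ∨ σ = c m := fun m σ => by
    by_cases h1 : ∀ j, NP.fn σ.1 j ∈ A
    · exact Or.inl ⟨⟨σ.1, h1⟩, rfl⟩
    obtain ⟨j, hj⟩ := not_forall.1 h1
    have e : NP.fn σ.1 j = v := (σ.2 j).resolve_right hj
    refine Or.inr (Subtype.ext (OrderHom.ext _ _ (funext fun k => (σ.2 k).elim id fun hk => ?_)))
    rcases le_total j k with hjk | hjk
    · exact absurd (hA ((NP.fn σ.1).monotone hjk) hk) hj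
    · exact absurd (lt_of_le_of_ne (((NP.fn σ.1).monotone hjk).trans_eq e)
        (ne_of_mem_of_not_mem hk hv)) (hlt _ hk)
  let z : Q.C := (NO.fn (g.app (op ⦋0⦌) (c _))).f (vx 0)
  have hz : ∀ e k, Q.d e k z = z := fun e k => (OHom.map_d _ e k _).symm.trans
    (congrArg _ (d_vx e k _))
  have hc : ∀ m x, (NO.fn (g.app m (c m))).f x = z := fun m x => by
    have e := NatTrans.naturality_apply g (SimplexCategory.const m.unop ⦋0⦌ 0).op (c _)
    refine (congrArg (fun F => (NO.fn F).f x) e).trans ?_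
    exact congrArg (NO.fn (g.app (op ⦋0⦌) (c _))).f (tab_const _ _ (fun _ => rfl) x)
  have lz : lab l z ≠ ⊥ := by
    rw [hl.hg]
    exact (lb_of_notMem hv).trans_ne WithBot.coe_ne_bot
  have hA' : ∀ m τ x, (NO.fn (g.app m ((NSi h).app m τ))).f x = i.f ((NO.fn (fs.app m τ)).f x) :=
    fun m τ x => congrArg (fun F : (NS A : SSet.{0}) ⟶ NO.obj Q => (NO.fn (F.app m τ)).f x)
      att.w.symm
  have gen : ∀ y : Q.C, y ∈ Set.range i.f ∪ {z} := att.gen ⟨?_, ?_⟩ (fun x => Or.inl ⟨x, rfl⟩)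
    fun m σ x => by
      rcases dich m σ with ⟨τ, rfl⟩ | rfl
      · exact Or.inl ⟨_, (hA' m τ x).symm⟩
      · exact Or.inr (hc m x)
  rotate_left
  · rintro e k _ (hx | rfl)
    · exact Or.inl ((closed_range i inj).d e k hx)
    · exact Or.inr (hz e k)
  · rintro k x y hxy (hx | rfl) hy
    · rcases hy with hy | rfl
      · exact Or.inl ((closed_range i inj).cmp hxy hx hy)
      · rw [Dim.cmp_right (hz false k) hxy]
        exact Or.inl hx
    · rwa [Dim.cmp_left (hz false k) hxy]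
  have ld : ∀ e y, lab l (Q.d e 0 y) = ⊥ ↔ lab l y = ⊥ := fun e y => by
    rcases gen y with ⟨x, rfl⟩ | rfl
    · rw [← i.map_d, hl.hi, hl.hi]
    · rw [hz]
  refine hpo_of_isPushout (isPushout_of_levelwise' _ _ _ _ att.w (fun m _ _ e => cancel_inj inj e)
    (fun m _ _ e => Subtype.ext (congrArg (fun σ : (NS (insert v A) : SSet.{0}).obj m => σ.1) e))
    (fun m x y e => ?_) (fun m τ => ?_) fun m x y e => ?_)
  · refine (dich m x).symm.imp_left ?_
    rintro rfl
    rcases dich m y with ⟨τ, rfl⟩ | rfl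
    · refine absurd ?_ lz
      rw [← hc m (vx 0), e, hA', hl.hi]
    · rfl
  · have key : ∀ x, lab l ((NO.fn τ).f x) = ⊥ ↔ lab l ((NO.fn τ).f (vx 0)) = ⊥ := fun x => by
      obtain ⟨y, h0, h1⟩ := exists_edge (Fin.zero_le (vt true x))
      rw [← ld true, ← OHom.map_d, ← h0, ← d_zero_eq, OHom.map_d _ false, ld,
        ← ld true ((NO.fn τ).f y), ← OHom.map_d]
      change lab l ((NO.fn τ).f (Tab.d true 0 x)) = ⊥ ↔ lab l ((NO.fn τ).f (Tab.d true 0 y)) = ⊥
      rw [d_zero_eq, d_zero_eq, h1]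
    by_cases h0 : lab l ((NO.fn τ).f (vx 0)) = ⊥
    · exact Or.inl ⟨_, liftInj_comp i inj (NO.fn τ) fun x => sur _ ((key x).2 h0)⟩
    · refine Or.inr ⟨c m, ohom_ext fun x => (hc m x).trans ((gen _).resolve_left ?_).symm⟩
      rintro ⟨y, hy⟩
      exact h0 ((key x).1 (hy ▸ hl.hi y))
  · refine (dich m y).resolve_right ?_
    rintro rfl
    refine lz ?_
    rw [← hc m (vx 0), ← e]
    exact hl.hi _

/-- The retraction `r` is induced by `𝟙 X` and `NSmap (colT A t) ≫ fs`; `θ : Q ⟶ Gam Q` is induced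
by `i ≫ gconst Q` and `exists_theta'`; `θ ≫ p0 = r ≫ i`, `θ ≫ p1 = 𝟙`. Then `whe_of_htpEquiv`,
`whe_NSi`, `hpo_of_whe`. -/
theorem hpo_base_max (hA : IsLowerSet A) {v t : P} (hv : v ∉ A) (ht : t ∈ A) (htv : t < v)
    (hmax : ∀ a ∈ A, a < v → a ≤ t) {h : A ⊆ insert v A}
    {g : (NS (insert v A) : SSet.{0}) ⟶ NO.obj Q} (att : Att n h fs i g) :
    HPO (NSi h) fs g (NO.map i) := by
  have hm : MonotoneOn (colT A t) (insert v A) := fun a ha b hb hab => by
    by_cases h1 : b ∈ A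
    · rwa [colT_of_mem _ h1, colT_of_mem _ (hA hab h1)]
    rw [colT_of_notMem _ h1]
    by_cases h2 : a ∈ A
    · rw [colT_of_mem _ h2]
      exact hmax a h2 (lt_of_le_of_ne (hb.resolve_right h1 ▸ hab) fun e => hv (e ▸ h2))
    · rw [colT_of_notMem _ h2]
  have hb : Set.MapsTo (colT A t) (insert v A) A := fun a _ => by
    by_cases h1 : a ∈ A
    · rwa [colT_of_mem _ h1]
    · rwa [colT_of_notMem _ h1]
  obtain ⟨r, r1, r2⟩ := att.ex X att.isNX (𝟙 X) (NSmap _ hm hb ≫ fs) (by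
    rw [NO.map_id, Category.comp_id, ← Category.assoc,
      base_NS_ext (f := NSi h ≫ NSmap _ hm hb) (f' := 𝟙 _) fun m σ j => colT_of_mem _ (σ.2 j),
      Category.id_comp])
  obtain ⟨Θ, t0, t1, t2⟩ := exists_theta' hA hv ht htv hmax h hm (hb.mono_right h) g
  obtain ⟨θ, s1, s2⟩ := att.ex (Gam Q) att.isN.gam (i ≫ gconst Q) Θ (by
    rw [t2, NO.map_comp, ← Category.assoc, att.w, Category.assoc])
  have e0 : θ ≫ p0 Q = r ≫ i := by
    refine att.uniq Q att.isN _ _ ?_ ?_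
    · rw [← Category.assoc, s1, ← Category.assoc, r1]
      rfl
    · rw [NO.map_comp, NO.map_comp, ← Category.assoc, s2, t0, ← Category.assoc, r2, Category.assoc,
        att.w]
      rfl
  have e1 : θ ≫ p1 Q = 𝟙 Q := by
    refine att.uniq Q att.isN _ _ ?_ ?_
    · rw [← Category.assoc, s1]
      rfl
    · rw [NO.map_comp, ← Category.assoc, s2, t1, NO.map_id, Category.comp_id]
  refine hpo_of_whe (whe_NSi h _ hm hb (fun _ => colT_of_mem _) (Or.inr fun a ha => ?_))
    (base_whe i r r1 (.rel _ _ (e0 ▸ e1 ▸ htp_of_gam θ)))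
  by_cases h1 : a ∈ A
  · rw [colT_of_mem _ h1]
  · rw [colT_of_notMem _ h1, ha.resolve_right h1]
    exact htv.le

/-- Take `Q'` from `exists_att` for `insert v A`, `j : Q' ⟶ Q`, `r : Q ⟶ Q'` induced by
`colT A v`, `θ` induced by `exists_theta`; `j ≫ r = 𝟙`, `θ ≫ p0 = 𝟙`, `θ ≫ p1 = r ≫ j`. Then
`hpo_transfer`. -/
theorem hpo_base_top (hn : 1 ≤ n) (hA : Dw A) {h : A ⊆ B} {v : P} (hv : v ∈ B) (hvA : v ∉ A)
    (hle : ∀ b ∈ B, b ∉ A → b ≤ v) {g : (NS B : SSet.{0}) ⟶ NO.obj Q} (att : Att n h fs i g) :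
    HPO (NSi h) fs g (NO.map i) := by
  have h₁ : A ⊆ insert v A := Set.subset_insert _ _
  have h₂ : insert v A ⊆ B := Set.insert_subset hv h
  obtain ⟨Q', i', g', att'⟩ := exists_att h₁ att.isNX fs
  have H : HPO (NSi h₁) fs g' (NO.map i') := by
    rcases hA.dw v hvA with h1 | ⟨t, h1, h2, h3⟩
    · exact hpo_base_iso hn hA.lower hvA h1 att'
    · exact hpo_base_max hA.lower hvA h1 h2 h3 att'
  obtain ⟨j, j1, j2⟩ := att'.ex Q att.isN i (NSi h₂ ≫ g) att.w
  have hle' : ∀ a ∈ B, a ≤ colT A v a := fun a ha => by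
    by_cases h1 : a ∈ A
    · rw [colT_of_mem _ h1]
    · rw [colT_of_notMem _ h1]
      exact hle a ha h1
  have hm : MonotoneOn (colT A v) B := fun a ha b hb hab => by
    by_cases h2 : a ∈ A
    · rw [colT_of_mem _ h2]
      exact hab.trans (hle' b hb)
    · rw [colT_of_notMem _ h2, colT_of_notMem _ fun h1 => h2 (hA.lower hab h1)]
  have hb : Set.MapsTo (colT A v) B (insert v A) := fun a _ => by
    by_cases h1 : a ∈ A
    · rw [colT_of_mem _ h1]
      exact h₁ h1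
    · rw [colT_of_notMem _ h1]
      exact Set.mem_insert _ _
  have hid : ∀ a ∈ insert v A, colT A v a = a := fun a ha => by
    by_cases h1 : a ∈ A
    · exact colT_of_mem _ h1
    · rw [colT_of_notMem _ h1, ha.resolve_right h1]
  obtain ⟨r, r1, r2⟩ := att.ex Q' att'.isN i' (NSmap _ hm hb ≫ g') (by
    rw [att'.w, ← Category.assoc,
      base_NS_ext (f := NSi h ≫ NSmap _ hm hb) (f' := NSi h₁) fun m σ j => colT_of_mem _ (σ.2 j)])
  obtain ⟨Θ, t0, t1, t2⟩ := exists_theta hA.lower h hv hle hm (hb.mono_right h₂) g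
  obtain ⟨θ, s1, s2⟩ := att.ex (Gam Q) att.isN.gam (i ≫ gconst Q) Θ (by
    rw [t2, NO.map_comp, ← Category.assoc, att.w, Category.assoc])
  have e : j ≫ r = 𝟙 Q' := by
    refine att'.uniq Q' att'.isN _ _ ?_ ?_
    · rw [← Category.assoc, j1, r1, Category.comp_id]
    · rw [NO.map_comp, ← Category.assoc, j2, Category.assoc, r2, ← Category.assoc,
        base_NS_ext (f := NSi h₂ ≫ NSmap _ hm hb) (f' := 𝟙 _) fun m σ j => hid _ (σ.2 j),
        NO.map_id, Category.id_comp, Category.comp_id]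
  have e0 : θ ≫ p0 Q = 𝟙 Q := by
    refine att.uniq Q att.isN _ _ ?_ ?_
    · rw [← Category.assoc, s1]
      rfl
    · rw [NO.map_comp, ← Category.assoc, s2, t0, NO.map_id, Category.comp_id]
  have e1 : θ ≫ p1 Q = r ≫ j := by
    refine att.uniq Q att.isN _ _ ?_ ?_
    · rw [← Category.assoc, s1, ← Category.assoc, r1, j1]
      rfl
    · rw [NO.map_comp, NO.map_comp, ← Category.assoc, s2, t1, ← Category.assoc, r2, Category.assoc,
        j2]
      rfl
  have := hpo_transfer (NSi h₂) (whe_NSi h₂ _ hm hb hid (Or.inl hle')) (NO.map j)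
    (base_whe j r e (.symm _ _ (.rel _ _ (e0 ▸ e1 ▸ htp_of_gam θ)))) g att'.w j2 H
  rwa [← NO.map_comp, j1] at this

end Vale.Agent.P213
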