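import Vale.Agent.P213.OBasic

/-! P213: the cut operators on chains of a simplex. -/

open CategoryTheory

noncomputable section

namespace Vale.Agent.P213

open OCat

variable {L L' : Type} [LinearOrder L] [LinearOrder L']

open Classical in
/-- Keep the faces which do not meet `K`. -/
def A0 (K : Set L) : Chn L →ₗ[ℤ] Chn L :=
  Finsupp.linearCombination ℤ fun σ => if ∀ v ∈ σ, v ∉ K then Finsupp.single σ (1 : ℤ) else 0

open Classical in
/-- The front face of the faces with exactly one vertex in `K`. -/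
def CC (K : Set L) : Chn L →ₗ[ℤ] Chn L :=
  Finsupp.linearCombination ℤ fun σ =>
    if (σ.filter (· ∈ K)).card = 1 then Finsupp.single (σ.filter (· ∉ K)) (1 : ℤ) else 0

open Classical in
theorem A0_single (K : Set L) (σ : Finset L) : A0 K (Finsupp.single σ 1) =
    if ∀ v ∈ σ, v ∉ K then Finsupp.single σ (1 : ℤ) else 0 := by
  rw [A0, Finsupp.linearCombination_single, one_smul]

open Classical in
theorem CC_single (K : Set L) (σ : Finset L) : CC K (Finsupp.single σ 1) =
    if (σ.filter (· ∈ K)).card = 1 then Finsupp.single (σ.filter (· ∉ K)) (1 : ℤ) else 0 := by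
  rw [CC, Finsupp.linearCombination_single, one_smul]

variable {K : Set L}

omit [LinearOrder L] in
theorem chain2_ext {M : Type} [AddCommGroup M] {f g : Chn L →ₗ[ℤ] M} {x : Chn L}
    (h : ∀ σ, x σ ≠ 0 → f (Finsupp.single σ 1) = g (Finsupp.single σ 1)) : f x = g x := by
  rw [← Finsupp.sum_single x, Finsupp.sum, map_sum, map_sum]
  refine Finset.sum_congr rfl fun σ hσ => ?_
  rw [← mul_one (x σ), ← smul_eq_mul, ← Finsupp.smul_single, map_smul, map_smul,
    h σ (Finsupp.mem_support_iff.1 hσ)]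

omit [LinearOrder L] in
theorem chain2_card {i : ℕ} {x : Chn L} (hx : x ∈ posChn L i) {σ : Finset L} (h : x σ ≠ 0) :
    σ.card = i + 1 := by
  by_contra h'
  exact h ((hx σ).2 h')

omit [LinearOrder L] [LinearOrder L'] in
theorem chain2_pos {f : Chn L →ₗ[ℤ] Chn L'} {i j : ℕ}
    (h : ∀ σ : Finset L, σ.card = i + 1 → f (Finsupp.single σ 1) ∈ posChn L' j) {x : Chn L}
    (hx : x ∈ posChn L i) : f x ∈ posChn L' j :=
  posChn_induction (Q := fun c => f c ∈ posChn L' j) (by rw [map_zero]; exact zero_mem _) h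
    (fun a b ha hb => by rw [map_add]; exact add_mem ha hb) hx

open Classical in
omit [LinearOrder L] in
theorem chain2_card_filter (K : Set L) (σ : Finset L) :
    (σ.filter (· ∈ K)).card + (σ.filter (· ∉ K)).card = σ.card :=
  Finset.card_filter_add_card_filter_not _

theorem A0_pos (K : Set L) {i : ℕ} {x : Chn L} (hx : x ∈ posChn L i) : A0 K x ∈ posChn L i := by
  refine chain2_pos (fun σ h => ?_) hx
  rw [A0_single]
  split_ifs
  · exact single_mem_posChn h
  · exact zero_mem _

theorem sub_A0_pos (K : Set L) {i : ℕ} {x : Chn L} (hx : x ∈ posChn L i) :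
    x - A0 K x ∈ posChn L i := by
  refine chain2_pos (f := LinearMap.id - A0 K) (fun σ h => ?_) hx
  rw [LinearMap.sub_apply, LinearMap.id_apply, A0_single]
  split_ifs
  · rw [sub_self]
    exact zero_mem _
  · rw [sub_zero]
    exact single_mem_posChn h

theorem CC_pos (K : Set L) {i : ℕ} {x : Chn L} (hx : x ∈ posChn L (i + 1)) :
    CC K x ∈ posChn L i := by
  refine chain2_pos (fun σ h => ?_) hx
  rw [CC_single]
  split_ifs with h1
  · have := chain2_card_filter K σ
    exact single_mem_posChn (by omega)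
  · exact zero_mem _

theorem jn_pos (w : L) {i : ℕ} {x : Chn L} (hx : x ∈ posChn L i) : jn w x ∈ posChn L (i + 1) := by
  refine chain2_pos (fun σ h => ?_) hx
  rw [jn_single]
  split_ifs with h1
  · exact zero_mem _
  · exact single_mem_posChn (by rw [Finset.card_insert_of_notMem h1, h])

theorem A0_eq_self {x : Chn L} (h : ∀ σ, x σ ≠ 0 → ∀ v ∈ σ, v ∉ K) : A0 K x = x := by
  refine chain2_ext (g := LinearMap.id) fun σ hσ => ?_
  rw [A0_single, if_pos (h σ hσ), LinearMap.id_apply]

theorem CC_eq_zero {x : Chn L} (h : ∀ σ, x σ ≠ 0 → ∀ v ∈ σ, v ∉ K) : CC K x = 0 := by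
  classical
  refine chain2_ext (g := 0) fun σ hσ => ?_
  rw [CC_single, Finset.filter_false_of_mem (h σ hσ), if_neg (by simp), LinearMap.zero_apply]

theorem A0_eq_zero {i : ℕ} {x : Chn L} (hx : x ∈ posChn L i) (h : ∀ σ, x σ ≠ 0 → ∀ v ∈ σ, v ∈ K) :
    A0 K x = 0 := by
  refine chain2_ext (g := 0) fun σ hσ => ?_
  obtain ⟨v, hv⟩ : σ.Nonempty := Finset.card_pos.1 (by rw [chain2_card hx hσ]; omega)
  rw [A0_single, if_neg (fun h' => h' v hv (h σ hσ v hv)), LinearMap.zero_apply]

theorem CC_eq_zero' {i : ℕ} {x : Chn L} (hx : x ∈ posChn L (i + 1))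
    (h : ∀ σ, x σ ≠ 0 → ∀ v ∈ σ, v ∈ K) : CC K x = 0 := by
  classical
  refine chain2_ext (g := 0) fun σ hσ => ?_
  rw [CC_single, Finset.filter_true_of_mem (h σ hσ), chain2_card hx hσ, if_neg (by omega),
    LinearMap.zero_apply]

theorem chain2_A0_jn {w : L} (hw : w ∈ K) (c : Chn L) : A0 K (jn w c) = 0 := by
  refine LinearMap.congr_fun (chn_ext (f := A0 K ∘ₗ jn w) (g := 0) fun σ => ?_) c
  rw [LinearMap.comp_apply, jn_single, LinearMap.zero_apply]
  split_ifs
  · exact map_zero _
  · rw [A0_single, if_neg fun h => h w (Finset.mem_insert_self _ _) hw]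

theorem chain2_CC_jn {w : L} (hw : w ∈ K) {σ : Finset L} (h : w ∉ σ) :
    CC K (jn w (Finsupp.single σ 1)) = A0 K (Finsupp.single σ 1) := by
  classical
  rw [jn_single, if_neg h, CC_single, A0_single, Finset.filter_insert, if_pos hw,
    Finset.card_insert_of_notMem (fun h' => h (Finset.mem_of_mem_filter _ h')),
    Finset.filter_insert, if_neg (not_not.2 hw)]
  by_cases h1 : ∀ v ∈ σ, v ∉ K
  · rw [if_pos h1, Finset.filter_false_of_mem h1, if_pos (by simp), Finset.filter_true_of_mem h1]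
  · rw [if_neg h1, if_neg]
    intro h2
    rw [Nat.add_eq_right, Finset.card_eq_zero, Finset.filter_eq_empty_iff] at h2
    exact h1 h2

theorem chain2_CC_jn_bd {w : L} (hw : w ∈ K) {σ : Finset L} (h : w ∉ σ) :
    CC K (jn w (bd L (Finsupp.single σ 1))) = A0 K (bd L (Finsupp.single σ 1)) := by
  rw [bd_single, map_sum, map_sum, map_sum]
  refine Finset.sum_congr rfl fun v _ => ?_
  rw [map_smul, map_smul, map_smul, chain2_CC_jn hw fun h' => h (Finset.mem_of_mem_erase h')]

theorem chain2_A0_bd {σ : Finset L} (h : ∀ v ∈ σ, v ∉ K) :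
    A0 K (bd L (Finsupp.single σ 1)) = bd L (Finsupp.single σ 1) := by
  rw [bd_single, map_sum]
  refine Finset.sum_congr rfl fun v _ => ?_
  rw [map_smul, A0_single, if_pos fun u hu => h u (Finset.mem_of_mem_erase hu)]

theorem chain2_CC_none {σ : Finset L} (h : ∀ v ∈ σ, v ∉ K) :
    CC K (Finsupp.single σ 1) = 0 := by
  classical
  rw [CC_single, Finset.filter_false_of_mem h, if_neg (by simp)]

theorem chain2_CC_bd {σ : Finset L} (h : ∀ v ∈ σ, v ∉ K) :
    CC K (bd L (Finsupp.single σ 1)) = 0 := by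
  rw [bd_single, map_sum]
  refine Finset.sum_eq_zero fun v _ => ?_
  rw [map_smul, chain2_CC_none fun u hu => h u (Finset.mem_of_mem_erase hu), smul_zero]

theorem chain2_none (hK : IsUpperSet K) {w : L} {σ : Finset L} (h : ∀ v ∈ σ, v < w) (hw : w ∉ K) :
    ∀ v ∈ insert w σ, v ∉ K := by
  intro v hv hvK
  rcases Finset.mem_insert.1 hv with rfl | hv
  · exact hw hvK
  · exact hw (hK (h v hv).le hvK)

/-- Induction on the face by its largest vertex (`Finset.induction_on_max`, `bd_insert`); if the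
largest vertex `w` is in `K` then `A0 (jn w c) = 0` and `CC (jn w c) = A0 c` for chains `c` below
`w`, otherwise no vertex is in `K`. -/
theorem bd_A0_single (hK : IsUpperSet K) (σ : Finset L) : bd L (A0 K (Finsupp.single σ 1)) =
    A0 K (bd L (Finsupp.single σ 1)) + (-1 : ℤ) ^ σ.card • CC K (Finsupp.single σ 1) := by
  induction σ using Finset.induction_on_max with
  | empty => rw [chain2_A0_bd (by simp), chain2_CC_none (by simp), A0_single, if_pos (by simp),
      smul_zero, add_zero]
  | insert w σ h _ =>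
    have hw : w ∉ σ := fun hw => lt_irrefl _ (h w hw)
    by_cases hwK : w ∈ K
    · have e : Finsupp.single (insert w σ) (1 : ℤ) = jn w (Finsupp.single σ 1) := by
        rw [jn_single, if_neg hw]
      rw [bd_insert h, map_add, chain2_A0_jn hwK, e, chain2_A0_jn hwK, chain2_CC_jn hwK hw,
        map_smul, Finset.card_insert_of_notMem hw, pow_succ, map_zero]
      simp
    · have h1 := chain2_none hK h hwK
      rw [chain2_A0_bd h1, chain2_CC_none h1, A0_single, if_pos h1, smul_zero, add_zero]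

theorem bd_A0 (hK : IsUpperSet K) {i : ℕ} {x : Chn L} (hx : x ∈ posChn L i) :
    bd L (A0 K x) = A0 K (bd L x) + (-1 : ℤ) ^ (i + 1) • CC K x := by
  refine chain2_ext (f := bd L ∘ₗ A0 K) (g := A0 K ∘ₗ bd L + (-1 : ℤ) ^ (i + 1) • CC K)
    fun σ hσ => ?_
  rw [← chain2_card hx hσ]
  exact bd_A0_single hK σ

theorem bd_CC (hK : IsUpperSet K) (x : Chn L) : bd L (CC K x) = CC K (bd L x) := by
  refine LinearMap.congr_fun (chn_ext (f := bd L ∘ₗ CC K) (g := CC K ∘ₗ bd L) fun σ => ?_) x
  simp only [LinearMap.comp_apply]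
  induction σ using Finset.induction_on_max with
  | empty => rw [chain2_CC_bd (by simp), chain2_CC_none (by simp), map_zero]
  | insert w σ h _ =>
    have hw : w ∉ σ := fun hw => lt_irrefl _ (h w hw)
    by_cases hwK : w ∈ K
    · have e : Finsupp.single (insert w σ) (1 : ℤ) = jn w (Finsupp.single σ 1) := by
        rw [jn_single, if_neg hw]
      rw [bd_insert h, map_add, chain2_CC_jn_bd hwK hw, e, chain2_CC_jn hwK hw, map_smul,
        bd_A0_single hK]
    · have h1 := chain2_none hK h hwK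
      rw [chain2_CC_bd h1, chain2_CC_none h1, map_zero]

theorem A0_push (K : Set L') (f : L →o L') (x : Chn L) :
    A0 K (push f x) = push f (A0 (f ⁻¹' K) x) := by
  refine LinearMap.congr_fun
    (chn_ext (f := A0 K ∘ₗ push f) (g := push f ∘ₗ A0 (f ⁻¹' K)) fun σ => ?_) x
  simp only [LinearMap.comp_apply]
  rw [A0_single, push_single]
  by_cases h1 : ∀ v ∈ σ, v ∉ f ⁻¹' K
  · rw [if_pos h1, push_single]
    split_ifs
    · rw [A0_single, if_pos]
      exact Finset.forall_mem_image.2 fun v hv => h1 v hv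
    · exact map_zero _
  · rw [if_neg h1, map_zero]
    split_ifs
    · rw [A0_single, if_neg fun h => h1 fun v hv => h _ (Finset.mem_image_of_mem f hv)]
    · exact map_zero _

theorem CC_push (K : Set L') (f : L →o L') (x : Chn L) :
    CC K (push f x) = push f (CC (f ⁻¹' K) x) := by
  classical
  refine LinearMap.congr_fun
    (chn_ext (f := CC K ∘ₗ push f) (g := push f ∘ₗ CC (f ⁻¹' K)) fun σ => ?_) x
  simp only [LinearMap.comp_apply]
  have e1 : (σ.image f).filter (· ∈ K) = (σ.filter (· ∈ f ⁻¹' K)).image f := Finset.filter_image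
  have e2 : (σ.image f).filter (· ∉ K) = (σ.filter (· ∉ f ⁻¹' K)).image f := Finset.filter_image
  have c1 := chain2_card_filter K (σ.image f)
  have c2 := chain2_card_filter (f ⁻¹' K) σ
  have c3 := Finset.card_image_le (s := σ.filter (· ∈ f ⁻¹' K)) (f := f)
  have c4 := Finset.card_image_le (s := σ.filter (· ∉ f ⁻¹' K)) (f := f)
  rw [e1, e2] at c1
  rw [CC_single, push_single]
  by_cases h1 : (σ.image f).card = σ.card
  · rw [if_pos h1, CC_single, e1, e2]
    by_cases h2 : (σ.filter (· ∈ f ⁻¹' K)).card = 1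
    · rw [if_pos h2, if_pos (by omega), push_single, if_pos (by omega)]
    · rw [if_neg h2, if_neg (by omega), map_zero]
  · rw [if_neg h1, map_zero]
    split_ifs with h2
    · have c5 : ((σ.filter (· ∈ f ⁻¹' K)).image f).card = 1 := by
        obtain ⟨a, ha⟩ := Finset.card_eq_one.1 h2
        rw [ha, Finset.image_singleton, Finset.card_singleton]
      rw [push_single, if_neg (by omega)]
    · exact (map_zero _).symm

theorem push_cut (K : Set L) (f g : L →o L') (w : L') (h1 : ∀ v ∈ K, g v = w)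
    (h2 : ∀ v, v ∉ K → g v = f v) (x : Chn L) :
    push g x = push f (A0 K x) + jn w (push f (CC K x)) := by
  classical
  refine LinearMap.congr_fun (chn_ext (f := push g)
    (g := push f ∘ₗ A0 K + jn w ∘ₗ push f ∘ₗ CC K) fun σ => ?_) x
  simp only [LinearMap.comp_apply, LinearMap.add_apply]
  by_cases h3 : ∀ v ∈ σ, v ∉ K
  · have e : σ.image g = σ.image f := Finset.image_congr fun v hv => h2 v (h3 v hv)
    rw [chain2_CC_none h3, map_zero, map_zero, add_zero, A0_single, if_pos h3, push_single,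
      push_single, e]
  · have c2 := chain2_card_filter K σ
    have c4 := Finset.card_image_le (s := σ.filter (· ∉ K)) (f := f)
    have e : σ.image g = insert w ((σ.filter (· ∉ K)).image f) := by
      ext u
      simp only [Finset.mem_image, Finset.mem_insert, Finset.mem_filter]
      constructor
      · rintro ⟨v, hv, rfl⟩
        by_cases hv' : v ∈ K
        · exact Or.inl (h1 v hv')
        · exact Or.inr ⟨v, ⟨hv, hv'⟩, (h2 v hv').symm⟩
      · rintro (rfl | ⟨v, ⟨hv, hv'⟩, rfl⟩)
        · push Not at h3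
          obtain ⟨v, hv, hv'⟩ := h3
          exact ⟨v, hv, h1 v hv'⟩
        · exact ⟨v, hv, h2 v hv'⟩
    have c5 : (σ.filter (· ∈ K)).card ≠ 0 := by
      rw [Ne, Finset.card_eq_zero, Finset.filter_eq_empty_iff]
      exact h3
    have c6 := Finset.card_insert_le w ((σ.filter (· ∉ K)).image f)
    rw [A0_single, if_neg h3, map_zero, zero_add, CC_single, push_single, e]
    by_cases h4 : (σ.filter (· ∈ K)).card = 1
    · rw [if_pos h4, push_single]
      by_cases h5 : ((σ.filter (· ∉ K)).image f).card = (σ.filter (· ∉ K)).card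
      · rw [if_pos h5, jn_single]
        by_cases h6 : w ∈ (σ.filter (· ∉ K)).image f
        · rw [if_pos h6, Finset.insert_eq_of_mem h6, if_neg (by omega)]
        · rw [if_neg h6, Finset.card_insert_of_notMem h6, if_pos (by omega)]
      · rw [if_neg h5, if_neg (by omega), map_zero]
    · rw [if_neg h4, if_neg (by omega), map_zero, map_zero]

/-- The first chain homotopy: collapse `K` to the top vertex `w`. -/
def hT (K : Set L) (f : L →o L') (w : L') : Chn L →ₗ[ℤ] Chn L' :=
  jn w ∘ₗ push f ∘ₗ (LinearMap.id - A0 K)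

theorem hT_apply (K : Set L) (f : L →o L') (w : L') (x : Chn L) :
    hT K f w x = jn w (push f (x - A0 K x)) := rfl

theorem chain2_bd_jn_push (f : L →o L') {w : L'} (hw : ∀ v, f v ≤ w) (σ : Finset L) :
    bd L' (jn w (push f (Finsupp.single σ 1))) = jn w (bd L' (push f (Finsupp.single σ 1))) +
      (-1 : ℤ) ^ σ.card • push f (Finsupp.single σ 1) := by
  rw [push_single]
  split_ifs with h
  · rw [bd_jn (Finset.forall_mem_image.2 fun v _ => hw v), h]
  · simp

theorem chain2_bd_jn_jn (f : L →o L') {w₁ w₂ : L'} (hw : ∀ v, f v ≤ w₁) (hw' : w₁ ≤ w₂)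
    (σ : Finset L) : bd L' (jn w₂ (jn w₁ (push f (Finsupp.single σ 1)))) =
      jn w₂ (bd L' (jn w₁ (push f (Finsupp.single σ 1)))) +
        (-1 : ℤ) ^ (σ.card + 1) • jn w₁ (push f (Finsupp.single σ 1)) := by
  rw [push_single]
  split_ifs with h
  · rw [jn_single]
    split_ifs with h1
    · simp
    · rw [bd_jn, Finset.card_insert_of_notMem h1, h]
      exact (Finset.forall_mem_insert _ _ _).2
        ⟨hw', Finset.forall_mem_image.2 fun v _ => (hw v).trans hw'⟩
  · simp

/-- Use `bd_jn`, `bd_A0`, `push_cut`. -/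
theorem bd_hT (hK : IsUpperSet K) (f g : L →o L') (w : L') (hw : ∀ v, f v ≤ w)
    (h1 : ∀ v ∈ K, g v = w) (h2 : ∀ v, v ∉ K → g v = f v) {i : ℕ} {x : Chn L}
    (hx : x ∈ posChn L i) :
    bd L' (hT K f w x) = hT K f w (bd L x) + (-1 : ℤ) ^ i • (push g x - push f x) := by
  have e : bd L' (jn w (push f (x - A0 K x))) = jn w (bd L' (push f (x - A0 K x))) +
      (-1 : ℤ) ^ (i + 1) • push f (x - A0 K x) := by
    refine chain2_ext (f := bd L' ∘ₗ jn w ∘ₗ push f)
      (g := jn w ∘ₗ bd L' ∘ₗ push f + (-1 : ℤ) ^ (i + 1) • push f) fun σ hσ => ?_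
    rw [← chain2_card (sub_A0_pos K hx) hσ]
    exact chain2_bd_jn_push f hw σ
  rw [hT_apply, hT_apply, e, ← push_bd, push_cut K f g w h1 h2 x, map_sub (bd L), bd_A0 hK hx]
  simp only [map_sub, map_add, map_smul, pow_succ]
  module

/-- The second chain homotopy: move the image of `K` from `w₁` to `w₂`. -/
def hT' (K : Set L) (f : L →o L') (w₁ w₂ : L') : Chn L →ₗ[ℤ] Chn L' :=
  jn w₂ ∘ₗ jn w₁ ∘ₗ push f ∘ₗ CC K

theorem hT'_apply (K : Set L) (f : L →o L') (w₁ w₂ : L') (x : Chn L) :
    hT' K f w₁ w₂ x = jn w₂ (jn w₁ (push f (CC K x))) := rfl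

theorem hT'_pos (K : Set L) (f : L →o L') (w₁ w₂ : L') {i : ℕ} {x : Chn L}
    (hx : x ∈ posChn L i) : hT' K f w₁ w₂ x ∈ posChn L' (i + 1) := by
  refine chain2_pos (fun σ h => ?_) hx
  have c := chain2_card_filter K σ
  rw [hT'_apply, CC_single]
  split_ifs with h1
  · rw [push_single]
    split_ifs with h2
    · refine jn_pos w₂ ?_
      rw [jn_single]
      split_ifs with h3
      · exact zero_mem _
      · exact single_mem_posChn (by rw [Finset.card_insert_of_notMem h3]; omega)
    · rw [map_zero, map_zero]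
      exact zero_mem _
  · rw [map_zero, map_zero, map_zero]
    exact zero_mem _

theorem bd_hT' (hK : IsUpperSet K) (f g₁ g₂ : L →o L') (w₁ w₂ : L') (hw : ∀ v, f v ≤ w₁)
    (hw' : w₁ ≤ w₂) (h1 : ∀ v ∈ K, g₁ v = w₁) (h2 : ∀ v, v ∉ K → g₁ v = f v)
    (h3 : ∀ v ∈ K, g₂ v = w₂) (h4 : ∀ v, v ∉ K → g₂ v = f v) {i : ℕ} {x : Chn L}
    (hx : x ∈ posChn L i) : bd L' (hT' K f w₁ w₂ x) =
      hT' K f w₁ w₂ (bd L x) + (-1 : ℤ) ^ i • (push g₂ x - push g₁ x) := by
  have e : bd L' (jn w₂ (jn w₁ (push f (CC K x)))) = jn w₂ (jn w₁ (bd L' (push f (CC K x)))) +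
      (-1 : ℤ) ^ i • (jn w₂ (push f (CC K x)) - jn w₁ (push f (CC K x))) := by
    refine chain2_ext (f := bd L' ∘ₗ jn w₂ ∘ₗ jn w₁ ∘ₗ push f ∘ₗ CC K)
      (g := jn w₂ ∘ₗ jn w₁ ∘ₗ bd L' ∘ₗ push f ∘ₗ CC K +
        (-1 : ℤ) ^ i • (jn w₂ ∘ₗ push f ∘ₗ CC K - jn w₁ ∘ₗ push f ∘ₗ CC K)) fun σ hσ => ?_
    have c := chain2_card_filter K σ
    have c1 := chain2_card hx hσ
    simp only [LinearMap.comp_apply, LinearMap.add_apply, LinearMap.smul_apply,
      LinearMap.sub_apply]
    rw [CC_single]
    split_ifs with h5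
    · rw [c1, h5, add_comm, Nat.add_right_cancel_iff] at c
      rw [chain2_bd_jn_jn f hw hw', chain2_bd_jn_push f hw, c]
      simp only [map_add, map_smul, pow_succ]
      module
    · simp
  rw [hT'_apply, hT'_apply, e, ← push_bd, bd_CC hK, push_cut K f g₁ w₁ h1 h2 x,
    push_cut K f g₂ w₂ h3 h4 x, add_sub_add_left_eq_sub]

end Vale.Agent.P213
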