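import Vale.Agent.P213.NuCyl
import Vale.Agent.P213.Chain1

/-! P213: cutting a cell of an oriental into three pieces. -/

open CategoryTheory

noncomputable section

namespace Vale.Agent.P213

open OCat

variable {L L' : Type} [LinearOrder L] [LinearOrder L'] {K : Set L}

/-- The cell starts outside `K` and ends in `K`. -/
def Cross (K : Set L) (x : Tab (spx L)) : Prop := vt false x ∉ K ∧ vt true x ∈ K

/-- The pieces of a crossing cell. -/
structure IsCut (K : Set L) (x c : Tab (spx L)) (al be : Cyl (nu (spx L))) : Prop where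
  c_x : ∀ i e, c.x i e = CC K (x.x (i + 1) e)
  al_valid : al.Valid
  al_p : al.p = vx (vt false x)
  al_q : al.q = c
  al_top : ∀ i e, top al i e = A0 K (x.x (i + 1) e)
  be_valid : be.Valid
  be_p : be.p = c
  be_q : be.q = vx (vt true x)
  be_top : ∀ i e, top be i e = x.x (i + 1) e - A0 K (x.x (i + 1) e)

variable {x y c c' : Tab (spx L)} {al be al' be' : Cyl (nu (spx L))}

/-- The middle piece of a crossing cell. -/
def cutMid (hK : IsUpperSet K) (hx : Cross K x) : Tab (spx L) where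
  x i e := CC K (x.x (i + 1) e)
  pos i e := CC_pos K (x.pos (i + 1) e)
  bd0 e := by
    classical
    change bd L _ = Finsupp.single ∅ 1
    rw [bd_CC hK, show bd L (x.x (0 + 1) e) = _ from x.bdS 0 e, vt_spec, vt_spec, map_sub,
      chain2_CC_none (σ := {vt false x}) (by simpa using hx.1), CC_single]
    simp [Finset.filter_singleton, hx.2]
  bdS i e := by
    change bd L _ = _
    rw [bd_CC hK, show bd L (x.x (i + 1 + 1) e) = _ from x.bdS (i + 1) e, map_sub]
  fin := x.fin.imp fun N hN i hi e => by rw [hN (i + 1) (by omega), map_zero]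

theorem cut_bd0 (hK : IsUpperSet K) (hx : Cross K x) (e : Bool) :
    bd L (A0 K (x.x (0 + 1) e)) = CC K (x.x (0 + 1) e) - Finsupp.single {vt false x} 1 := by
  rw [bd_A0 hK (x.pos _ e), show bd L (x.x (0 + 1) e) = _ from x.bdS 0 e, vt_spec, vt_spec,
    map_sub, A0_single, A0_single, if_neg (by simpa using hx.2), if_pos (by simpa using hx.1)]
  simp [sub_eq_add_neg, add_comm]

theorem cut_bdS (hK : IsUpperSet K) (x : Tab (spx L)) (i : ℕ) (e : Bool) :
    bd L (A0 K (x.x (i + 1 + 1) e)) = A0 K (x.x (i + 1) true) - A0 K (x.x (i + 1) false) +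
      (-1 : ℤ) ^ (i + 1) • CC K (x.x (i + 1 + 1) e) := by
  rw [bd_A0 hK (x.pos _ e), show bd L (x.x (i + 1 + 1) e) = _ from x.bdS (i + 1) e, map_sub,
    pow_succ, pow_succ, mul_assoc, neg_one_mul, neg_neg, mul_one]

/-- `bd_CC`, `bd_A0`, `exists_cyl_of_tops`. -/
theorem exists_isCut (hK : IsUpperSet K) (hx : Cross K x) : ∃ c al be, IsCut K x c al be := by
  obtain ⟨al, h1, h2, h3, h4⟩ := exists_cyl_of_tops (vx (vt false x)) (cutMid hK hx)
    (fun i e => A0 K (x.x (i + 1) e)) (fun i e => A0_pos K (x.pos _ e)) (cut_bd0 hK hx)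
    (fun i e => (cut_bdS hK x i e).trans (by
      rw [vx_x, if_neg (Nat.succ_ne_zero i), sub_zero]
      rfl))
  obtain ⟨be, g1, g2, g3, g4⟩ := exists_cyl_of_tops (cutMid hK hx) (vx (vt true x))
    (fun i e => x.x (i + 1) e - A0 K (x.x (i + 1) e)) (fun i e => sub_A0_pos K (x.pos _ e))
    (fun e => by
      change bd L _ = Finsupp.single {vt true x} 1 - CC K (x.x (0 + 1) e)
      rw [map_sub, cut_bd0 hK hx, show bd L (x.x (0 + 1) e) = _ from x.bdS 0 e, vt_spec, vt_spec]
      abel)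
    (fun i e => by
      change bd L _ = _ + (-1 : ℤ) ^ (i + 1) • (0 - CC K (x.x (i + 1 + 1) e))
      rw [map_sub, cut_bdS hK, show bd L (x.x (i + 1 + 1) e) = _ from x.bdS (i + 1) e]
      module)
  exact ⟨_, al, be, fun _ _ => rfl, h1, h2, h3, h4, g1, g2, g3, g4⟩

theorem IsCut.unique (h : IsCut K x c al be) (h' : IsCut K x c' al' be') :
    c = c' ∧ al = al' ∧ be = be' := by
  obtain rfl : c = c' := Tab.ext (funext fun i => funext fun e => (h.c_x i e).trans (h'.c_x i e).symm)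
  exact ⟨rfl, cyl_ext_tops h.al_valid h'.al_valid (h.al_p.trans h'.al_p.symm)
    (h.al_q.trans h'.al_q.symm) fun i e => (h.al_top i e).trans (h'.al_top i e).symm,
    cyl_ext_tops h.be_valid h'.be_valid (h.be_p.trans h'.be_p.symm)
    (h.be_q.trans h'.be_q.symm) fun i e => (h.be_top i e).trans (h'.be_top i e).symm⟩

theorem IsCut.d (h : IsCut K x c al be) (e : Bool) (n : ℕ) :
    IsCut K (Tab.d e (n + 1) x) (Tab.d e n c) (Cyl.d e n al) (Cyl.d e n be) := by
  refine ⟨fun i e' => ?_, h.al_valid.d e n, ?_, congrArg (Tab.d e n) h.al_q, fun i e' => ?_,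
    h.be_valid.d e n, congrArg (Tab.d e n) h.be_p, ?_, fun i e' => ?_⟩
  · simp only [Tab.d_x, h.c_x, Nat.add_lt_add_iff_right, Nat.add_right_cancel_iff]
    split_ifs <;> simp
  · rw [vt_d_succ, ← d_vx e n, ← h.al_p]
    rfl
  · simp only [top_d h.al_valid, Tab.d_x, h.al_top, Nat.add_lt_add_iff_right,
      Nat.add_right_cancel_iff]
    split_ifs <;> simp
  · rw [vt_d_succ, ← d_vx e n, ← h.be_q]
    rfl
  · simp only [top_d h.be_valid, Tab.d_x, h.be_top, Nat.add_lt_add_iff_right,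
      Nat.add_right_cancel_iff]
    split_ifs <;> simp

theorem IsCut.cp (h : IsCut K x c al be) (h' : IsCut K y c' al' be') {n : ℕ}
    (hc : Tab.d true (n + 1) x = Tab.d false (n + 1) y) :
    Tab.d true n c = Tab.d false n c' ∧ Cyl.Cp n al al' ∧ Cyl.Cp n be be' :=
  (h.d true n).unique (hc ▸ h'.d false n)

theorem IsCut.cmp_succ (h : IsCut K x c al be) (h' : IsCut K y c' al' be') {n : ℕ}
    (hc : Tab.d true (n + 1) x = Tab.d false (n + 1) y) :
    IsCut K (Tab.cmp (n + 1) x y) (Tab.cmp n c c') (Cyl.cmp n al al') (Cyl.cmp n be be') := by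
  obtain ⟨h1, h2, h3⟩ := h.cp h' hc
  have hv : ∀ v : L, Tab.cmp n (vx v) (vx v) = vx v := fun v =>
    Dim.cmp_self (Z := nu (spx L)) (d_vx false n v) le_rfl
  refine ⟨fun i e => ?_, Cyl.valid_cmp h.al_valid h'.al_valid h2, ?_, ?_, fun i e => ?_,
    Cyl.valid_cmp h.be_valid h'.be_valid h3, ?_, ?_, fun i e => ?_⟩
  · simp only [Tab.cmp_x h1, Tab.cmp_x hc, h.c_x, h'.c_x, Nat.add_lt_add_iff_right,
      Nat.add_right_cancel_iff]
    split_ifs
    · rfl
    · cases e <;> rfl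
    · exact (map_add _ _ _).symm
  · change Tab.cmp n al.p al'.p = _
    rw [h.al_p, h'.al_p, vt_cmp_false hc, ← vt_cp_succ hc, hv]
  · change Tab.cmp n al.q al'.q = _
    rw [h.al_q, h'.al_q]
  · simp only [top_cmp h.al_valid h'.al_valid h2, Tab.cmp_x hc, h.al_top, h'.al_top,
      Nat.add_lt_add_iff_right, Nat.add_right_cancel_iff]
    split_ifs
    · rfl
    · cases e <;> rfl
    · exact (map_add _ _ _).symm
  · change Tab.cmp n be.p be'.p = _
    rw [h.be_p, h'.be_p]
  · change Tab.cmp n be.q be'.q = _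
    rw [h.be_q, h'.be_q, vt_cmp_true hc, vt_cp_succ hc, hv]
  · simp only [top_cmp h.be_valid h'.be_valid h3, Tab.cmp_x hc, h.be_top, h'.be_top,
      Nat.add_lt_add_iff_right, Nat.add_right_cancel_iff]
    split_ifs
    · rfl
    · cases e <;> rfl
    · rw [map_add, add_sub_add_comm]

/-- All faces of `x` avoid `K` (`supp_le`). -/
theorem IsCut.cmp_left (hK : IsUpperSet K) (hx : vt true x ∉ K) (h : IsCut K y c al be)
    (hc : Tab.d true 0 x = Tab.d false 0 y) :
    IsCut K (Tab.cmp 0 x y) c (Cyl.V (Cyl.cyl (Z := nu (spx L)) x) al) be := by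
  have h0 : ∀ i e σ, x.x i e σ ≠ 0 → ∀ v ∈ σ, v ∉ K := fun i e σ hσ v hv hvK =>
    hx (hK (supp_le hσ hv) hvK)
  have h1 : (Cyl.cyl (Z := nu (spx L)) x).q = al.p := by
    rw [h.al_p, ← d_zero_eq]
    exact hc
  have h2 : ∀ i e, (Tab.cmp 0 x y).x (i + 1) e = x.x (i + 1) e + y.x (i + 1) e := fun i e =>
    nucyl_cmp hc i.succ_pos e
  refine ⟨fun i e => ?_, Cyl.valid_V (Cyl.valid_cyl _) h.al_valid h1, ?_, h.al_q, fun i e => ?_,
    h.be_valid, h.be_p, ?_, fun i e => ?_⟩
  · rw [h2, map_add, CC_eq_zero (h0 _ e), zero_add, h.c_x]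
  · rw [vt_cmp_false hc, ← d_zero_eq]
    rfl
  · rw [top_V (Cyl.valid_cyl _) h.al_valid h1, top_cyl, h2, map_add, A0_eq_self (h0 _ e), h.al_top]
  · rw [vt_cmp_true hc, h.be_q]
  · rw [h2, map_add, A0_eq_self (h0 _ e), add_sub_add_left_eq_sub, h.be_top]

/-- All faces of `y` are contained in `K` (`le_supp`). -/
theorem IsCut.cmp_right (hK : IsUpperSet K) (hy : vt false y ∈ K) (h : IsCut K x c al be)
    (hc : Tab.d true 0 x = Tab.d false 0 y) :
    IsCut K (Tab.cmp 0 x y) c al (Cyl.V be (Cyl.cyl (Z := nu (spx L)) y)) := by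
  have h0 : ∀ i e σ, y.x i e σ ≠ 0 → ∀ v ∈ σ, v ∈ K := fun i e σ hσ v hv => hK (le_supp hσ hv) hy
  have h1 : be.q = (Cyl.cyl (Z := nu (spx L)) y).p := by
    rw [h.be_q, ← d_zero_eq]
    exact hc
  have h2 : ∀ i e, (Tab.cmp 0 x y).x (i + 1) e = x.x (i + 1) e + y.x (i + 1) e := fun i e =>
    nucyl_cmp hc i.succ_pos e
  refine ⟨fun i e => ?_, h.al_valid, ?_, h.al_q, fun i e => ?_,
    Cyl.valid_V h.be_valid (Cyl.valid_cyl _) h1, h.be_p, ?_, fun i e => ?_⟩
  · rw [h2, map_add, CC_eq_zero' (y.pos _ e) (h0 _ e), add_zero, h.c_x]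
  · rw [vt_cmp_false hc, h.al_p]
  · rw [h2, map_add, A0_eq_zero (y.pos _ e) (h0 _ e), add_zero, h.al_top]
  · rw [vt_cmp_true hc, ← d_zero_eq]
    rfl
  · rw [top_V h.be_valid (Cyl.valid_cyl _) h1, top_cyl, h2, map_add,
      A0_eq_zero (y.pos _ e) (h0 _ e), add_zero, h.be_top, sub_add_eq_add_sub]

theorem IsCut.push {K : Set L'} (f : L →o L') (h : IsCut (f ⁻¹' K) x c al be) :
    IsCut K ((spxMap f).tab x) ((spxMap f).tab c) (al.map (Z := nu (spx L')) (spxMap f).tab)
      (be.map (Z := nu (spx L')) (spxMap f).tab) := by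
  have hf := OHom.pf (nuMap (spxMap f))
  refine ⟨fun i e => ?_, Cyl.valid_map hf h.al_valid (Cyl.in_univ _), ?_,
    congrArg (spxMap f).tab h.al_q, fun i e => ?_, Cyl.valid_map hf h.be_valid (Cyl.in_univ _),
    congrArg (spxMap f).tab h.be_p, ?_, fun i e => ?_⟩
  · change P213.push f (c.x i e) = CC K (P213.push f (x.x (i + 1) e))
    rw [h.c_x, CC_push]
  · rw [vt_tab, ← tab_vx, ← h.al_p]
    rfl
  · change P213.push f (top al i e) = A0 K (P213.push f (x.x (i + 1) e))
    rw [h.al_top, A0_push]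
  · rw [vt_tab, ← tab_vx, ← h.be_q]
    rfl
  · change P213.push f (top be i e) =
      P213.push f (x.x (i + 1) e) - A0 K (P213.push f (x.x (i + 1) e))
    rw [h.be_top, A0_push, map_sub]

end Vale.Agent.P213
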