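import Vale.Agent.P213.CylDefs

/-! P213: validity of the composite of two cylinders. -/

open CategoryTheory

noncomputable section

namespace Vale.Agent.P213

open OCat

namespace Cyl

variable {Y Z : OCat} {k : ℕ} {α β : Cyl Z}

/-- The cells to which the pasting `GG k false true` applies. -/
structure GS (k : ℕ) (α β : Cyl Z) (φ φ' : Z.C) : Prop where
  s1 : Z.d false (k + 1) φ = Z.d false (k + 1) (α.P (k + 1))
  t1 : Z.d true (k + 1) φ = Z.d true (k + 1) (α.Q (k + 1))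
  s2 : Z.d false (k + 1) φ' = Z.d false (k + 1) (β.P (k + 1))
  t2 : Z.d true (k + 1) φ' = Z.d true (k + 1) (β.Q (k + 1))

theorem Valid.dP {γ : Cyl Z} (h : γ.Valid) (e : Bool) (k : ℕ) :
    Z.d e (k + 1) (γ.P (k + 1)) = Z.cmp k (γ.a k false) (Z.d e (k + 1) (γ.Q k)) := by
  rw [P_succ, Z.d_cmp e k.lt_succ_self (h.cpP k), ((h k).dim false).d e le_rfl]

theorem Valid.dQ {γ : Cyl Z} (h : γ.Valid) (e : Bool) (k : ℕ) :
    Z.d e (k + 1) (γ.Q (k + 1)) = Z.cmp k (Z.d e (k + 1) (γ.P k)) (γ.a k true) := by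
  rw [Q_succ, Z.d_cmp e k.lt_succ_self (h.cpQ k), ((h k).dim true).d e le_rfl]

theorem GG_pf {S : Set Z.C} {f : Z.C → Y.C} (hf : PF Z Y S f) {e e' : Bool} {p q φ φ' : Z.C}
    (c1 : Z.Cp k φ q) (c2 : Z.Cp k p φ')
    (c3 : Z.Cp (k + 1) (Z.cmp k φ (Z.d e (k + 1) q)) (Z.cmp k (Z.d e' (k + 1) p) φ'))
    (hp : p ∈ S) (hq : q ∈ S) (h1 : φ ∈ S) (h2 : φ' ∈ S) : GG k e e' p q φ φ' ∈ S ∧
      f (GG k e e' p q φ φ') = GG k e e' (f p) (f q) (f φ) (f φ') := by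
  have d1 := c1.d_right e k.lt_succ_self
  have d2 := c2.d_left e' k.lt_succ_self
  have m1 := hf.closed.d e (k + 1) hq
  have m2 := hf.closed.d e' (k + 1) hp
  have m3 := hf.closed.cmp d1 h1 m1
  have m4 := hf.closed.cmp d2 m2 h2
  refine ⟨hf.closed.cmp c3 m3 m4, ?_⟩
  rw [GG, hf.map_cmp c3 m3 m4, hf.map_cmp d1 h1 m1, hf.map_cmp d2 m2 h2, hf.map_d _ _ hp,
    hf.map_d _ _ hq, GG]

section

variable (hα : α.Valid) (hβ : β.Valid)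
include hα hβ

theorem gs_a {i : ℕ} (hi : k + 1 < i) (e e' : Bool) : GS k α β (α.a i e) (β.a i e') :=
  ⟨hα.s_a hi e, hα.t_a hi e, hβ.s_a hi e', hβ.t_a hi e'⟩

theorem gs_P {j : ℕ} (hj : k + 1 < j) : GS k α β (α.P j) (β.P j) :=
  ⟨hα.s_P hj.le, hα.t_P hj, hβ.s_P hj.le, hβ.t_P hj⟩

theorem gs_Q {j : ℕ} (hj : k + 1 < j) : GS k α β (α.Q j) (β.Q j) :=
  ⟨hα.s_Q hj, hα.t_Q hj.le, hβ.s_Q hj, hβ.t_Q hj.le⟩

variable (h : Cp k α β)
include h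

theorem cp_a_Q {i : ℕ} (hi : k < i) (e : Bool) : Z.Cp k (α.a i e) (β.Q k) :=
  (hα.t_a hi e).trans (h.cpQ hα hβ le_rfl)

theorem cp_P_a {i : ℕ} (hi : k < i) (e : Bool) : Z.Cp k (α.P k) (β.a i e) :=
  (h.cpP hα hβ le_rfl).trans (hβ.s_a hi e).symm

/-- Induction on `j`, with `distL`, `distR`. -/
theorem pr_cmp_le {j : ℕ} (hj : j ≤ k) : (cmp k α β).P j = Z.cmp k (α.P j) (β.P j) ∧
    (cmp k α β).Q j = Z.cmp k (α.Q j) (β.Q j) := by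
  induction j with
  | zero => exact ⟨rfl, rfl⟩
  | succ j ih =>
    obtain ⟨h1, h2⟩ := ih (by omega)
    rw [P_succ, Q_succ, h1, h2, cmp_a_lt _ _ hj, cmp_a_lt _ _ hj,
      distL hj (((hα j).dim false).mono hj) (h.cpQ hα hβ (by omega)) (hα.cpP j),
      distR hj (((hα j).dim true).mono hj) (h.cpP hα hβ (by omega)) (hα.cpQ j),
      P_succ, P_succ, Q_succ, Q_succ, ← h.a_lt hj, ← h.a_lt hj]
    exact ⟨rfl, rfl⟩

theorem pr_cmp_succ : (cmp k α β).P (k + 1) = Z.cmp k (α.P (k + 1)) (β.Q k) ∧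
    (cmp k α β).Q (k + 1) = Z.cmp k (α.P k) (β.Q (k + 1)) := by
  obtain ⟨h1, h2⟩ := pr_cmp_le hα hβ h le_rfl
  rw [P_succ, Q_succ, h1, h2, cmp_a_false, cmp_a_true, P_succ, Q_succ,
    Z.assoc (hα.cpP k) (h.cpQ hα hβ le_rfl), Z.assoc (h.cpP hα hβ le_rfl) (hβ.cpQ k)]
  exact ⟨rfl, rfl⟩

theorem mid (e e' : Bool) : Z.cmp k (Z.d e (k + 1) (α.Q (k + 1))) (Z.d e' (k + 1) (β.Q k)) =
    Z.cmp k (Z.d e (k + 1) (α.P k)) (Z.d e' (k + 1) (β.P (k + 1))) := by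
  rw [hα.dQ, hβ.dP, ← h.a_top]
  exact Z.assoc ((hα.cpQ k).d_left e k.lt_succ_self)
    (Cp.d_right (h.a_top ▸ hβ.cpP k) e' k.lt_succ_self)

theorem cp_gen1 {e : Bool} {φ : Z.C} (t1 : Z.d true (k + 1) φ = Z.d e (k + 1) (α.Q (k + 1))) :
    Z.Cp k φ (β.Q k) := by
  rw [OCat.Cp, ← Z.d_d_lt true true _ k.lt_succ_self, t1, Z.d_d_lt _ _ _ k.lt_succ_self,
    hα.t_Q k.le_succ]
  exact h.cpQ hα hβ le_rfl

theorem cp_gen2 {e : Bool} {φ : Z.C} (s2 : Z.d false (k + 1) φ = Z.d e (k + 1) (β.P (k + 1))) :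
    Z.Cp k (α.P k) φ := by
  rw [OCat.Cp, ← Z.d_d_lt false false _ k.lt_succ_self, s2, Z.d_d_lt _ _ _ k.lt_succ_self,
    hβ.s_P k.le_succ]
  exact h.cpP hα hβ le_rfl

theorem cp_gen (e e' : Bool) {φ φ' : Z.C}
    (t1 : Z.d true (k + 1) φ = Z.d e' (k + 1) (α.Q (k + 1)))
    (s2 : Z.d false (k + 1) φ' = Z.d e (k + 1) (β.P (k + 1))) :
    Z.Cp (k + 1) (Z.cmp k φ (Z.d e (k + 1) (β.Q k))) (Z.cmp k (Z.d e' (k + 1) (α.P k)) φ') := by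
  rw [OCat.Cp, Z.d_cmp _ k.lt_succ_self ((cp_gen1 hα hβ h t1).d_right _ k.lt_succ_self),
    Z.d_cmp _ k.lt_succ_self ((cp_gen2 hα hβ h s2).d_left _ k.lt_succ_self), OCat.d_d, OCat.d_d,
    t1, s2, mid hα hβ h]

theorem cp_succ (e : Bool) : Z.Cp (k + 1) (Z.cmp k (α.a (k + 1) e) (Z.d e (k + 1) (β.Q k)))
    (Z.cmp k (Z.d e (k + 1) (α.P k)) (β.a (k + 1) e)) := by
  exact cp_gen hα hβ h e e ((hα (k + 1)).t e) ((hβ (k + 1)).s e)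

theorem GS.cp1 {φ φ' : Z.C} (g : GS k α β φ φ') : Z.Cp k φ (β.Q k) := by
  exact cp_gen1 hα hβ h g.t1

theorem GS.cp2 {φ φ' : Z.C} (g : GS k α β φ φ') : Z.Cp k (α.P k) φ' := by
  exact cp_gen2 hα hβ h g.s2

theorem GS.cp3 {φ φ' : Z.C} (g : GS k α β φ φ') :
    Z.Cp (k + 1) (Z.cmp k φ (Z.d false (k + 1) (β.Q k)))
      (Z.cmp k (Z.d true (k + 1) (α.P k)) φ') := by
  exact cp_gen hα hβ h false true g.t1 g.s2

theorem GS.s_GG {φ φ' : Z.C} (g : GS k α β φ φ') :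
    Z.d false (k + 1) (GG k false true (α.P k) (β.Q k) φ φ') =
      Z.d false (k + 1) ((cmp k α β).P (k + 1)) := by
  rw [GG, Z.s_cmp (g.cp3 hα hβ h), (pr_cmp_succ hα hβ h).1,
    Z.d_cmp _ k.lt_succ_self ((g.cp1 hα hβ h).d_right _ k.lt_succ_self), OCat.d_d, g.s1,
    Z.d_cmp _ k.lt_succ_self ((hα.t_P k.lt_succ_self).trans (h.cpQ hα hβ le_rfl))]

theorem GS.t_GG {φ φ' : Z.C} (g : GS k α β φ φ') :
    Z.d true (k + 1) (GG k false true (α.P k) (β.Q k) φ φ') =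
      Z.d true (k + 1) ((cmp k α β).Q (k + 1)) := by
  rw [GG, Z.t_cmp (g.cp3 hα hβ h), (pr_cmp_succ hα hβ h).2,
    Z.d_cmp _ k.lt_succ_self ((g.cp2 hα hβ h).d_left _ k.lt_succ_self), OCat.d_d, g.t2,
    Z.d_cmp _ k.lt_succ_self ((h.cpP hα hβ le_rfl).trans (hβ.s_Q k.lt_succ_self).symm)]

theorem GS.d_GG {φ φ' : Z.C} (g : GS k α β φ φ') (e : Bool) {m : ℕ} (hm : k + 1 < m) :
    Z.d e m (GG k false true (α.P k) (β.Q k) φ φ') =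
      GG k false true (α.P k) (β.Q k) (Z.d e m φ) (Z.d e m φ') := by
  rw [GG, Z.d_cmp _ hm (g.cp3 hα hβ h),
    Z.d_cmp _ (by omega) ((g.cp1 hα hβ h).d_right _ k.lt_succ_self),
    Z.d_cmp _ (by omega) ((g.cp2 hα hβ h).d_left _ k.lt_succ_self), Z.d_d_ge _ _ _ hm.le,
    Z.d_d_ge _ _ _ hm.le, GG]

theorem GS.cmp_GG {φ φ' ψ ψ' : Z.C} (g : GS k α β φ φ') {m : ℕ} (hm : k + 1 < m)
    (h1 : Z.Cp m φ ψ) (h2 : Z.Cp m φ' ψ') :
    GG k false true (α.P k) (β.Q k) (Z.cmp m φ ψ) (Z.cmp m φ' ψ') =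
      Z.cmp m (GG k false true (α.P k) (β.Q k) φ φ') (GG k false true (α.P k) (β.Q k) ψ ψ') := by
  have hk : k < m := by omega
  have c1 := (g.cp1 hα hβ h).d_right false k.lt_succ_self
  have c2 := (g.cp2 hα hβ h).d_left true k.lt_succ_self
  have d1 := dim_d false (β.Q k) hm.le
  have d2 := dim_d true (α.P k) hm.le
  rw [GG, distR hk d1 h1 c1, distL hk d2 h2 c2,
    Z.xchg hm (Cp.xchg_out hk h1 (d1.cp_self le_rfl) c1) (Cp.xchg_out hk (d2.cp_self le_rfl) h2 c2)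
      (g.cp3 hα hβ h), GG, GG]

/-- The case `j = k + 2`. For `k = 0` write `a = α₀⁻`, `m = α₀⁺ = β₀⁻`, `b = β₀⁺`, `p, q` for `α`,
`p', q'` for `β`, juxtaposition for the composite along `0` and `;` along `1`. The first equality
is `α₁⁻ s₁q' ; s₁p β₁⁻ ; p p' b = α₁⁻ s₁q' ; p m s₁q' ; t₁p β₁⁻ ; t₁p p' b`: by `wh₁`, `wh₂`
`p m s₁q' ; t₁p β₁⁻ = p β₁⁻ = s₁p β₁⁻ ; p s₁p' b` and `p s₁p' b ; t₁p p' b = p p' b`. The second
is `a q q' ; α₁⁺ t₁q' ; t₁p β₁⁺ = a q s₁q' ; α₁⁺ s₁q' ; t₁p m q' ; t₁p β₁⁺`, using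
`α₁⁺ s₁q' ; t₁p m q' = α₁⁺ q' = a t₁q q' ; α₁⁺ t₁q'`. -/
theorem pr_cmp_two :
    (cmp k α β).P (k + 2) = GG k false true (α.P k) (β.Q k) (α.P (k + 2)) (β.P (k + 2)) ∧
    (cmp k α β).Q (k + 2) = GG k false true (α.P k) (β.Q k) (α.Q (k + 2)) (β.Q (k + 2)) := by
  have hk := k.lt_succ_self
  constructor
  · have a1 := (cp_a_Q hα hβ h hk false).d_right false hk
    have a2 := (cp_P_a hα hβ h hk false).d_left false hk
    have a3 : Z.Cp (k + 1) (Z.d false (k + 1) (α.P k)) (α.P k) := OCat.d_d _ _ _ _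
    have a4 := dim_d false (β.Q k) (le_refl (k + 1))
    have a5 := hβ.s_P (k + 1).le_succ
    have a6 : Z.cmp k (α.Q (k + 1)) (Z.d false (k + 1) (β.Q k)) =
        Z.cmp k (α.P k) (Z.d false (k + 1) (β.P (k + 1 + 1))) := by
      rw [a5, hβ.dP, ← h.a_top]
      exact Z.assoc (hα.cpQ k) (Cp.d_right (h.a_top ▸ hβ.cpP k) false hk)
    rw [P_succ (cmp k α β), cmp_a_succ, (pr_cmp_succ hα hβ h).2, GG, GG,
      Z.assoc (cp_succ hα hβ h false) (Cp.xchg_out hk a3 (hβ.cpP (k + 1)) a2),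
      ← Z.xchg hk a3 (hβ.cpP (k + 1)) a2, Z.id_cmp, ← P_succ, P_succ α (k + 1),
      distR hk a4 (hα.cpP (k + 1)) a1,
      Z.assoc (Cp.xchg_out hk (hα.cpP (k + 1)) (a4.cp_self le_rfl) a1)
        (cp_gen hα hβ h false true rfl a5), a6, wh₁ hk (cp_gen2 hα hβ h a5)]
  · have a1 : Z.Cp k (α.P (k + 1)) (β.Q k) := (hα.t_P hk).trans (h.cpQ hα hβ le_rfl)
    have a2 : Z.Cp k (Z.d true (k + 1) (α.P k)) (β.P (k + 1)) :=
      (cp_gen2 hα hβ h (e := false) rfl).d_left true hk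
    have a3 : Z.Cp (k + 1) (β.Q k) (Z.d true (k + 1) (β.Q k)) := (OCat.d_d _ _ _ _).symm
    have a4 := dim_d true (α.P k) (le_refl (k + 1))
    have a5 := hα.t_Q (k + 1).le_succ
    have a6 : Z.cmp k (Z.d true (k + 1) (α.P k)) (β.P (k + 1)) =
        Z.cmp k (Z.d true (k + 1) (α.Q (k + 1 + 1))) (β.Q k) := by
      rw [a5, hα.dQ, h.a_top]
      exact (Z.assoc (Cp.d_left (h.a_top ▸ hα.cpQ k) true hk) (hβ.cpP k)).symm
    rw [Q_succ (cmp k α β), cmp_a_succ, (pr_cmp_succ hα hβ h).1, GG, GG,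
      ← Z.assoc (Cp.xchg_out hk (hα.cpQ (k + 1)) a3 a1) (cp_succ hα hβ h true),
      ← Z.xchg hk (hα.cpQ (k + 1)) a3 a1, Z.cmp_id, ← Q_succ, Q_succ β (k + 1),
      distL hk a4 (hβ.cpQ (k + 1)) a2,
      ← Z.assoc (cp_gen hα hβ h false true a5 rfl)
        (Cp.xchg_out hk (a4.cp_self le_rfl) (hβ.cpQ (k + 1)) a2), a6, wh₁ hk (cp_gen1 hα hβ h a5)]

/-- Induction from `pr_cmp_two` with `GS.cmp_GG`. -/
theorem pr_cmp_gt {j : ℕ} (hj : k + 1 < j) :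
    (cmp k α β).P j = GG k false true (α.P k) (β.Q k) (α.P j) (β.P j) ∧
    (cmp k α β).Q j = GG k false true (α.P k) (β.Q k) (α.Q j) (β.Q j) := by
  induction j, hj using Nat.le_induction with
  | base => exact pr_cmp_two hα hβ h
  | succ j hj ih =>
    rw [P_succ, Q_succ, ih.1, ih.2, cmp_a_gt _ _ hj, cmp_a_gt _ _ hj,
      ← (gs_a hα hβ hj false false).cmp_GG hα hβ h hj (hα.cpP j) (hβ.cpP j),
      ← (gs_P hα hβ hj).cmp_GG hα hβ h hj (hα.cpQ j) (hβ.cpQ j)]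
    exact ⟨rfl, rfl⟩

theorem valid_cmp : (cmp k α β).Valid := by
  intro i
  have hk := k.lt_succ_self
  rcases lt_trichotomy i k with hi | rfl | hi
  · obtain ⟨h1, h2⟩ := pr_cmp_le hα hβ h hi.le
    refine ⟨fun e => ?_, fun e => ?_, fun e => ?_⟩
    · rw [h1, cmp_a_lt _ _ hi, cmp_lt e hi (h.cpP hα hβ hi.le), (hα i).s]
    · rw [h2, cmp_a_lt _ _ hi, cmp_lt e hi (h.cpQ hα hβ hi.le), (hα i).t]
    · rw [cmp_a_lt _ _ hi]
      exact (hα i).dim e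
  · obtain ⟨h1, h2⟩ := pr_cmp_le hα hβ h le_rfl
    refine ⟨fun e => ?_, fun e => ?_, fun e => ?_⟩ <;> cases e
    · rw [h1, cmp_a_false, Z.s_cmp (h.cpP hα hβ le_rfl), (hα i).s]
    · rw [h1, cmp_a_true, Z.t_cmp (h.cpP hα hβ le_rfl), (hβ i).s]
    · rw [h2, cmp_a_false, Z.s_cmp (h.cpQ hα hβ le_rfl), (hα i).t]
    · rw [h2, cmp_a_true, Z.t_cmp (h.cpQ hα hβ le_rfl), (hβ i).t]
    · rw [cmp_a_false]
      exact (hα i).dim false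
    · rw [cmp_a_true]
      exact (hβ i).dim true
  rcases (Nat.succ_le_of_lt hi).eq_or_lt with rfl | hi
  · obtain ⟨h1, h2⟩ := pr_cmp_succ hα hβ h
    have c1 := fun e => (cp_a_Q hα hβ h hk e).d_right e hk
    have c2 := fun e => (cp_P_a hα hβ h hk e).d_left e hk
    refine ⟨fun e => ?_, fun e => ?_, fun e => ?_⟩
    · rw [h1, cmp_a_succ, GG, Z.s_cmp (cp_succ hα hβ h e), Z.d_cmp _ hk (c1 e), OCat.d_d,
        (hα _).s, Z.d_cmp _ hk ((hα.t_P hk).trans (h.cpQ hα hβ le_rfl))]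
    · rw [h2, cmp_a_succ, GG, Z.t_cmp (cp_succ hα hβ h e), Z.d_cmp _ hk (c2 e), OCat.d_d,
        (hβ _).t, Z.d_cmp _ hk ((h.cpP hα hβ le_rfl).trans (hβ.s_Q hk).symm)]
    · rw [cmp_a_succ]
      exact (((hα _).dim e).cmp (dim_d _ _ (Nat.le_succ _)) (c1 e)).cmp
        ((dim_d _ _ (Nat.le_succ _)).cmp ((hβ _).dim e) (c2 e)) (cp_succ hα hβ h e)
  · obtain ⟨h1, h2⟩ := pr_cmp_gt hα hβ h hi
    refine ⟨fun e => ?_, fun e => ?_, fun e => ?_⟩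
    · rw [h1, cmp_a_gt _ _ hi, (gs_a hα hβ hi e e).d_GG hα hβ h _ hi,
        (gs_P hα hβ hi).d_GG hα hβ h _ hi, (hα i).s, (hβ i).s]
    · rw [h2, cmp_a_gt _ _ hi, (gs_a hα hβ hi e e).d_GG hα hβ h _ hi,
        (gs_Q hα hβ hi).d_GG hα hβ h _ hi, (hα i).t, (hβ i).t]
    · rw [cmp_a_gt _ _ hi, Dim, (gs_a hα hβ hi e e).d_GG hα hβ h _ (Nat.lt_succ_of_lt hi),
        (hα i).dim, (hβ i).dim]

theorem a_pf {S : Set Z.C} {f : Z.C → Y.C} (hf : PF Z Y S f) (h1 : α.In S) (h2 : β.In S) (i : ℕ)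
    (e : Bool) : (cmp k α β).a i e ∈ S ∧
      f ((cmp k α β).a i e) = (cmp k (α.map f) (β.map f)).a i e := by
  have m1 := (pr_mem hf hα h1 k).1
  have m2 := (pr_mem hf hβ h2 k).2
  rcases lt_trichotomy i k with hi | rfl | hi
  · rw [cmp_a_lt _ _ hi, cmp_a_lt _ _ hi]
    exact ⟨h1.a _ _, rfl⟩
  · cases e
    · rw [cmp_a_false, cmp_a_false]
      exact ⟨h1.a _ _, rfl⟩
    · rw [cmp_a_true, cmp_a_true]
      exact ⟨h2.a _ _, rfl⟩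
  have c1 := cp_a_Q hα hβ h hi e
  have c2 := cp_P_a hα hβ h hi e
  rcases (Nat.succ_le_of_lt hi).eq_or_lt with rfl | hi
  · rw [cmp_a_succ, cmp_a_succ, (pr_map hf hα h1 k).1, (pr_map hf hβ h2 k).2]
    exact GG_pf hf c1 c2 (cp_succ hα hβ h e) m1 m2 (h1.a _ _) (h2.a _ _)
  · rw [cmp_a_gt _ _ hi, cmp_a_gt _ _ hi, (pr_map hf hα h1 k).1, (pr_map hf hβ h2 k).2]
    exact GG_pf hf c1 c2 ((gs_a hα hβ hi e e).cp3 hα hβ h) m1 m2 (h1.a _ _) (h2.a _ _)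

theorem in_cmp {S : Set Z.C} (hc : Z.Closed S) (h1 : α.In S) (h2 : β.In S) :
    (cmp k α β).In S := by
  have hf : PF Z Z S id := ⟨hc, fun _ _ _ _ => rfl, fun _ _ _ => rfl⟩
  exact ⟨hc.cmp h.p h1.p h2.p, hc.cmp h.q h1.q h2.q, fun i e => (a_pf hα hβ h hf h1 h2 i e).1⟩

theorem map_cmp {S : Set Z.C} {f : Z.C → Y.C} (hf : PF Z Y S f) (h1 : α.In S) (h2 : β.In S) :
    (cmp k α β).map f = cmp k (α.map f) (β.map f) := by
  exact Cyl.ext (hf.map_cmp h.p h1.p h2.p) (hf.map_cmp h.q h1.q h2.q)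
    (funext fun i => funext fun e => (a_pf hα hβ h hf h1 h2 i e).2)

end

theorem tail_cmp (hα : α.Valid) (hβ : β.Valid) (h : Cp (k + 1) α β) :
    (cmp (k + 1) α β).tail = cmp k α.tail β.tail := by
  refine Cyl.ext (pr_cmp_le hα hβ h (by omega)).1 (pr_cmp_le hα hβ h (by omega)).2
    (funext fun i => funext fun e => ?_)
  simp only [Cyl.tail, cmp, Nat.add_lt_add_iff_right, Nat.add_right_cancel_iff]
  rw [← P_tail, ← Q_tail]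
  rfl

theorem pf_GG (hα : α.Valid) (hβ : β.Valid) (h : Cp 0 α β) :
    PF (Z.up.up.prod Z.up.up) Z.up.up {x | GS 0 α β x.1 x.2}
      fun x => GG (Z := Z) 0 false true α.p β.q x.1 x.2 := by
  have l : ∀ n : ℕ, 0 + 1 < n + 1 + 1 := fun n => by omega
  refine ⟨⟨fun e n x g => ⟨(Z.d_d_lt _ _ _ (l n)).trans g.s1, (Z.d_d_lt _ _ _ (l n)).trans g.t1,
    (Z.d_d_lt _ _ _ (l n)).trans g.s2, (Z.d_d_lt _ _ _ (l n)).trans g.t2⟩, fun {n x y} c g _ => ?_⟩,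
    fun e n x g => (GS.d_GG hα hβ h g e (l n)).symm, fun {n x y} c g _ =>
      GS.cmp_GG hα hβ h g (l n) (congrArg Prod.fst c) (congrArg Prod.snd c)⟩
  have c1 : Z.Cp (n + 1 + 1) x.1 y.1 := congrArg Prod.fst c
  have c2 : Z.Cp (n + 1 + 1) x.2 y.2 := congrArg Prod.snd c
  exact ⟨(cmp_lt _ (l n) c1).trans g.s1, (cmp_lt _ (l n) c1).trans g.t1,
    (cmp_lt _ (l n) c2).trans g.s2, (cmp_lt _ (l n) c2).trans g.t2⟩

theorem in_GS (hα : α.Valid) (hβ : β.Valid) :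
    (pair α.tail.tail β.tail.tail).In {x : Z.C × Z.C | GS 0 α β x.1 x.2} := by
  exact ⟨gs_P hα hβ (j := 2) Nat.one_lt_two, gs_Q hα hβ (j := 2) Nat.one_lt_two,
    fun i e => gs_a hα hβ (i := i + 1 + 1) (by omega) e e⟩

theorem tail2_cmp (hα : α.Valid) (hβ : β.Valid) (h : Cp 0 α β) :
    (cmp 0 α β).tail.tail = (pair α.tail.tail β.tail.tail).map (Z := Z.up.up)
      fun x : Z.C × Z.C => GG (Z := Z) 0 false true α.p β.q x.1 x.2 := by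
  exact Cyl.ext (pr_cmp_two hα hβ h).1 (pr_cmp_two hα hβ h).2
    (funext fun i => funext fun e => cmp_a_gt (k := 0) (i := i + 1 + 1) α β (by omega) e)

end Cyl

end Vale.Agent.P213
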