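import Vale.Agent.P213.CylC

/-! P213: the interchange law for cylinders. -/

open CategoryTheory

noncomputable section

namespace Vale.Agent.P213

open OCat

namespace Cyl

variable {Z : OCat} {α β γ δ : Cyl Z}

namespace CylD

theorem n1 {m : ℕ} {φ x u r y w : Z.C} (h1 : Z.Cp (m + 1) φ (Z.cmp m x u)) (h2 : Z.Cp m x u)
    (h3 : Z.Cp m u r) (h4 : Z.d false (m + 1) y = Z.cmp m u r) (hr : Z.Dim (m + 1) r)
    (h5 : Z.Cp (m + 1) y w) :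
    Z.Cp (m + 1) (Z.cmp m (Z.cmp (m + 1) φ (Z.cmp m x u)) r)
      (Z.cmp m (Z.d true (m + 1) x) (Z.cmp (m + 1) y w)) ∧
    Z.cmp (m + 1) (Z.cmp m (Z.cmp (m + 1) φ (Z.cmp m x u)) r)
      (Z.cmp m (Z.d true (m + 1) x) (Z.cmp (m + 1) y w)) =
    Z.cmp (m + 1) (Z.cmp (m + 1) (Z.cmp m φ r) (Z.cmp m (Z.d false (m + 1) x) y))
      (Z.cmp m x w) := by
  have hm := m.lt_succ_self
  have a1 : Z.Cp m φ r := by rw [OCat.Cp, h1.lt true hm, Z.t_cmp h2, h3]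
  have a2 : Z.Cp m x y := by rw [OCat.Cp, ← Z.d_d_lt false false y hm, h4, Z.s_cmp h3, h2]
  have a3 : Z.Cp m x (Z.cmp (m + 1) y w) := a2.trans (cmp_lt false hm h5).symm
  have a4 : Z.cmp m (Z.cmp m x u) r = Z.cmp m x (Z.d false (m + 1) (Z.cmp (m + 1) y w)) := by
    rw [Z.assoc h2 h3, Z.s_cmp h5, h4]
  have a5 : Z.Cp (m + 1) (Z.cmp m φ r) (Z.cmp m (Z.cmp m x u) r) :=
    OCat.Cp.xchg_out hm h1 (hr.cp_self le_rfl) a1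
  have a6 : Z.Cp (m + 1) (Z.cmp m x (Z.d false (m + 1) (Z.cmp (m + 1) y w)))
      (Z.cmp m (Z.d true (m + 1) x) (Z.cmp (m + 1) y w)) :=
    OCat.Cp.xchg_out hm (d_d false true _ x).symm (d_d true false _ _) (a3.d_right _ hm)
  have a7 : Z.Cp (m + 1) (Z.cmp m (Z.d false (m + 1) x) y) (Z.cmp m x w) :=
    OCat.Cp.xchg_out hm (d_d true false _ x) h5 (a2.d_left _ hm)
  have a8 : Z.cmp (m + 1) (Z.cmp m (Z.d false (m + 1) x) y) (Z.cmp m x w) =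
      Z.cmp m x (Z.cmp (m + 1) y w) := by
    rw [← Z.xchg hm (d_d true false _ x) h5 (a2.d_left _ hm), Z.id_cmp]
  rw [a4] at a5
  have a9 : Z.Cp (m + 1) (Z.cmp m φ r) (Z.cmp m (Z.d false (m + 1) x) y) := by
    rw [OCat.Cp, a5, Z.d_cmp _ hm (a3.d_right _ hm), Z.d_cmp _ hm (a2.d_left _ hm), d_d, d_d,
      Z.s_cmp h5]
  rw [distR hm hr h1 a1, a4]
  exact ⟨a5.cmp_left a6, by rw [Z.assoc a5 a6, wh₁ hm a3, Z.assoc a9 a7, a8]⟩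

theorem n2 {m : ℕ} {v ψ r u z χ : Z.C} (h1 : Z.Cp (m + 1) v ψ)
    (h4 : Z.d true (m + 1) ψ = Z.cmp m r u) (h2 : Z.Cp m r u) (h3 : Z.Cp m u z)
    (hr : Z.Dim (m + 1) r) (h5 : Z.Cp (m + 1) (Z.cmp m u z) χ) :
    Z.cmp (m + 1) (Z.cmp m (Z.cmp (m + 1) v ψ) (Z.d false (m + 1) z))
      (Z.cmp m r (Z.cmp (m + 1) (Z.cmp m u z) χ)) =
    Z.cmp (m + 1) (Z.cmp m v z)
      (Z.cmp (m + 1) (Z.cmp m ψ (Z.d true (m + 1) z)) (Z.cmp m r χ)) := by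
  have hm := m.lt_succ_self
  have a1 : Z.Cp m r (Z.cmp m u z) := h2.cmp_right h3
  have a2 : Z.Cp m ψ z := by rw [OCat.Cp, ← Z.d_d_lt true true ψ hm, h4, Z.t_cmp h2, h3]
  have a2' : Z.Cp m v z := (h1.lt true hm).trans a2
  have a3 : Z.Cp m (Z.cmp (m + 1) v ψ) z := (cmp_lt true hm h1).trans a2'
  have a4 : Z.cmp m r (Z.cmp m u z) = Z.cmp m (Z.d true (m + 1) (Z.cmp (m + 1) v ψ)) z := by
    rw [← Z.assoc h2 h3, Z.t_cmp h1, h4]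
  have a5 : Z.Cp (m + 1) (Z.cmp m r (Z.cmp m u z)) (Z.cmp m r χ) :=
    OCat.Cp.xchg_out hm (hr.cp_self le_rfl) h5 a1
  have a6 : Z.Cp (m + 1) (Z.cmp m (Z.cmp (m + 1) v ψ) (Z.d false (m + 1) z))
      (Z.cmp m (Z.d true (m + 1) (Z.cmp (m + 1) v ψ)) z) :=
    OCat.Cp.xchg_out hm (d_d false true _ _).symm (d_d true false _ _) (a3.d_right _ hm)
  have a7 : Z.Cp (m + 1) (Z.cmp m v z) (Z.cmp m ψ (Z.d true (m + 1) z)) :=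
    OCat.Cp.xchg_out hm h1 (d_d false true _ z).symm a2'
  have a8 : Z.cmp (m + 1) (Z.cmp m v z) (Z.cmp m ψ (Z.d true (m + 1) z)) =
      Z.cmp m (Z.cmp (m + 1) v ψ) z := by
    rw [← Z.xchg hm h1 (d_d false true _ z).symm a2', Z.cmp_id]
  rw [distL hm hr h5 a1]
  rw [a4] at a5 ⊢
  have a9 : Z.Cp (m + 1) (Z.cmp m ψ (Z.d true (m + 1) z)) (Z.cmp m r χ) := by
    rw [OCat.Cp, ← a5, Z.d_cmp _ hm (a3.d_left _ hm), Z.d_cmp _ hm (a2.d_right _ hm), d_d, d_d,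
      Z.t_cmp h1]
  rw [← Z.assoc a6 a5, wh₁ hm a3, ← Z.assoc a7 a9, a8]

theorem cp4 {m n : ℕ} (hm : m < n) (h1 : Cp n α β) (h2 : Cp n γ δ) (h3 : Cp m α γ) :
    Cp m β δ := by
  rw [Cp, ← d_d_lt true false β hm, ← h1, d_d_lt _ _ _ hm, h3, ← d_d_lt false true γ hm, h2,
    d_d_lt _ _ _ hm]

theorem GG_congr {k : ℕ} {e e' : Bool} {p q p' q' : Z.C}
    (hp : Z.d e' (k + 1) p = Z.d e' (k + 1) p') (hq : Z.d e (k + 1) q = Z.d e (k + 1) q')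
    (φ φ' : Z.C) : GG k e e' p q φ φ' = GG k e e' p' q' φ φ' := by
  rw [GG, GG, hp, hq]

theorem GS_congr {k : ℕ} {φ φ' ψ ψ' : Z.C} (g : GS k α β φ φ')
    (h : ∀ e, Z.d e (k + 1) ψ = Z.d e (k + 1) φ) (h' : ∀ e, Z.d e (k + 1) ψ' = Z.d e (k + 1) φ') :
    GS k α β ψ ψ' :=
  ⟨(h _).trans g.s1, (h _).trans g.t1, (h' _).trans g.s2, (h' _).trans g.t2⟩

/-- The components above the index `n` of a composite along `n`. -/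
theorem cmp_a_top {n i : ℕ} (hi : n < i) (e : Bool) : ∃ e₁ e₂ : Bool,
    (∀ α β : Cyl Z, (cmp n α β).a i e = GG n e₁ e₂ (α.P n) (β.Q n) (α.a i e) (β.a i e)) ∧
    ∀ α β : Cyl Z, α.Valid → β.Valid → Cp n α β →
      Z.Cp (n + 1) (Z.cmp n (α.a i e) (Z.d e₁ (n + 1) (β.Q n)))
        (Z.cmp n (Z.d e₂ (n + 1) (α.P n)) (β.a i e)) := by
  rcases (Nat.succ_le_of_lt hi).lt_or_eq with h | rfl
  · exact ⟨false, true, fun α β => cmp_a_gt α β h e,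
      fun α β hα hβ hc => GS.cp3 hα hβ hc (gs_a hα hβ h e e)⟩
  · exact ⟨e, e, fun α β => cmp_a_succ n α β e, fun α β hα hβ hc => cp_succ hα hβ hc e⟩

/-- The components of index at most `m`. -/
theorem low {m n i : ℕ} (hm : m < n) (hi : i ≤ m) (e : Bool) :
    (cmp m (cmp n α β) (cmp n γ δ)).a i e = (cmp n (cmp m α γ) (cmp m β δ)).a i e := by
  rw [cmp_a_lt _ _ (hi.trans_lt hm)]
  rcases hi.lt_or_eq with hi | rfl
  · rw [cmp_a_lt _ _ hi, cmp_a_lt _ _ hi, cmp_a_lt _ _ (hi.trans hm)]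
  · cases e
    · rw [cmp_a_false, cmp_a_false, cmp_a_lt _ _ hm]
    · rw [cmp_a_true, cmp_a_true, cmp_a_lt _ _ hm]

end CylD

open CylD

/-- The components of index `i ≤ n` are easy (`pr_cmp_le` shows that the truncated `P m`, `Q m`
agree). For `i > n ≥ m + 2` use `pr_cmp_gt`, `GS.d_GG`, `GS.cmp_GG` (twice). -/
theorem xchg_far {m n : ℕ} (hm : m + 1 < n) (hα : α.Valid) (hβ : β.Valid) (hγ : γ.Valid)
    (hδ : δ.Valid) (h1 : Cp n α β) (h2 : Cp n γ δ) (h3 : Cp m α γ) :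
    cmp m (cmp n α β) (cmp n γ δ) = cmp n (cmp m α γ) (cmp m β δ) := by
  have hmn : m < n := by omega
  have h4 := cp4 hmn h1 h2 h3
  refine Cyl.ext (Z.xchg hmn h1.p h2.p h3.p) (Z.xchg hmn h1.q h2.q h3.q)
    (funext fun i => funext fun e => ?_)
  have c1 := h1.cpP hα hβ hmn.le
  have c2 := h2.cpQ hγ hδ hmn.le
  have g1 : ∀ e₁ e₂ φ φ', GG m e₁ e₂ ((cmp n α β).P m) ((cmp n γ δ).Q m) φ φ' =
      GG m e₁ e₂ (α.P m) (γ.Q m) φ φ' := fun e₁ e₂ => GG_congr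
    (by rw [(pr_cmp_le hα hβ h1 hmn.le).1, cmp_lt _ hm c1])
    (by rw [(pr_cmp_le hγ hδ h2 hmn.le).2, cmp_lt _ hm c2])
  have g2 : ∀ φ φ', GG m false true (β.P m) (δ.Q m) φ φ' =
      GG m false true (α.P m) (γ.Q m) φ φ' := GG_congr (c1.lt _ hm).symm (c2.lt _ hm).symm
  rcases le_or_gt i m with hi | hi
  · exact low hmn hi e
  rcases (Nat.succ_le_of_lt hi).eq_or_lt with rfl | hi'
  · rw [cmp_a_succ, g1, cmp_a_lt _ _ hm, cmp_a_lt _ _ hm, cmp_a_lt _ _ hm, cmp_a_succ]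
  rw [cmp_a_gt _ _ hi', g1]
  rcases lt_trichotomy i n with hn | rfl | hn
  · rw [cmp_a_lt _ _ hn, cmp_a_lt _ _ hn, cmp_a_lt _ _ hn, cmp_a_gt _ _ hi']
  · cases e
    · rw [cmp_a_false, cmp_a_false, cmp_a_false, cmp_a_gt _ _ hi']
    · rw [cmp_a_true, cmp_a_true, cmp_a_true, cmp_a_gt _ _ hi', g2]
  obtain ⟨e₁, e₂, ha, hc⟩ := cmp_a_top (Z := Z) hn e
  have hn1 : m + 1 < n + 1 := by omega
  have k1 := (cp_a_Q hα hβ h1 hn e).d_right e₁ n.lt_succ_self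
  have k2 := (cp_a_Q hγ hδ h2 hn e).d_right e₁ n.lt_succ_self
  have k3 := (cp_P_a hα hβ h1 hn e).d_left e₂ n.lt_succ_self
  have k4 := (cp_P_a hγ hδ h2 hn e).d_left e₂ n.lt_succ_self
  have s1 := gs_a hα hγ hi' e e
  have s2 := gs_P hα hγ hm
  rw [ha, ha, ha, (pr_cmp_gt hα hγ h3 hm).1, (pr_cmp_gt hβ hδ h4 hm).2, cmp_a_gt _ _ hi',
    cmp_a_gt _ _ hi', GG.eq_1 n, GG.eq_1 n, GG.eq_1 n,
    GS.d_GG hβ hδ h4 (gs_Q hβ hδ hm) e₁ hn1, GS.d_GG hα hγ h3 s2 e₂ hn1, g2, g2,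
    GS.cmp_GG hα hγ h3 (GS_congr s1 (fun e => cmp_lt e hm k1) fun e => cmp_lt e hm k2) hn1
      (hc α β hα hβ h1) (hc γ δ hγ hδ h2),
    GS.cmp_GG hα hγ h3 s1 hm k1 k2,
    GS.cmp_GG hα hγ h3 (GS_congr s2 (fun e => Z.d_d_lt _ _ _ hn1) fun e => Z.d_d_lt _ _ _ hn1)
      hm k3 k4]

/-- For `m = 0` and `i ≥ 2`, juxtaposition is the composite along `0`, `;` along `1`, primes are
truncations in dimension `2`, `a = α₀⁻ = β₀⁻`, `u = α₀⁺ = β₀⁺ = γ₀⁻ = δ₀⁻`, `b = γ₀⁺ = δ₀⁺`. After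
one interchange the left side is the composite along `2` of
`αᵢ s₁qγ ; pβ' u s₁qγ ; t₁pβ γᵢ ; t₁pβ pδ' b` and
`a qα' s₁qγ ; βᵢ s₁qγ ; t₁pβ u qγ' ; t₁pβ δᵢ`. In the first, `pβ' u s₁qγ ; t₁pβ γᵢ = pβ' γᵢ =
t₁pα γᵢ ; pβ' t₁pγ b` (`wh₁`, `wh₂`) and `pβ' t₁pγ b ; t₁pβ pδ' b = pβ' pδ' b`. The second is
symmetric. -/
theorem xchg_near {m : ℕ} (hα : α.Valid) (hβ : β.Valid) (hγ : γ.Valid) (hδ : δ.Valid)
    (h1 : Cp (m + 1) α β) (h2 : Cp (m + 1) γ δ) (h3 : Cp m α γ) :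
    cmp m (cmp (m + 1) α β) (cmp (m + 1) γ δ) = cmp (m + 1) (cmp m α γ) (cmp m β δ) := by
  have hm := m.lt_succ_self
  have hm1 := (m + 1).lt_succ_self
  have hm2 : m < m + 1 + 1 := by omega
  have h4 := cp4 hm h1 h2 h3
  refine Cyl.ext (Z.xchg hm h1.p h2.p h3.p) (Z.xchg hm h1.q h2.q h3.q)
    (funext fun i => funext fun e => ?_)
  have c1 := h1.cpP hα hβ hm.le
  have c2 := h2.cpQ hγ hδ hm.le
  have c3 := h2.cpP hγ hδ hm.le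
  have c4 := h1.cpQ hα hβ hm.le
  rcases le_or_gt i m with hi | hi
  · exact low hm hi e
  have eP := (pr_cmp_le hα hβ h1 hm.le).1
  have eQ := (pr_cmp_le hγ hδ h2 hm.le).2
  rcases (Nat.succ_le_of_lt hi).eq_or_lt with rfl | hi'
  · rw [cmp_a_succ, eP, eQ]
    cases e
    · rw [cmp_a_false, cmp_a_false, cmp_a_false, cmp_a_succ]
      exact GG_congr (Z.s_cmp c1) (Z.s_cmp c2) _ _
    · rw [cmp_a_true, cmp_a_true, cmp_a_true, cmp_a_succ]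
      exact GG_congr (Z.t_cmp c1) (Z.t_cmp c2) _ _
  obtain ⟨e₁, e₂, ha, hc⟩ := cmp_a_top (Z := Z) hi' e
  have u1 : β.a m true = γ.a m false := (h1.a_lt hm true).symm.trans h3.a_top
  have du := (hγ m).dim false
  have q1 : β.Q (m + 1) = Z.cmp m (β.P m) (γ.a m false) := by rw [Q_succ, u1]
  have b1 : Z.Cp m (β.P m) (γ.a m false) := u1 ▸ hβ.cpQ m
  have b2 := hγ.cpP m
  have q2 : Z.d e₁ (m + 1 + 1) (β.Q (m + 1)) =
      Z.cmp m (Z.d e₁ (m + 1 + 1) (β.P m)) (γ.a m false) := by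
    rw [q1, Z.d_cmp _ hm2 b1, du.d _ hm1.le]
  have q3 : Z.d e₂ (m + 1 + 1) (γ.P (m + 1)) =
      Z.cmp m (γ.a m false) (Z.d e₂ (m + 1 + 1) (γ.Q m)) := by
    rw [P_succ, Z.d_cmp _ hm2 b2, du.d _ hm1.le]
  have k1 := (cp_a_Q hα hβ h1 hi' e).d_right e₁ hm1
  have k2 := (cp_a_Q hγ hδ h2 hi' e).d_right e₁ hm1
  have k3 := (cp_P_a hα hβ h1 hi' e).d_left e₂ hm1
  have k4 := (cp_P_a hγ hδ h2 hi' e).d_left e₂ hm1
  have x1 := hc α β hα hβ h1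
  have x2 := hc γ δ hγ hδ h2
  rw [q2] at k1 x1
  rw [q3] at k4 x2
  obtain ⟨y1, y2⟩ := n1 k1 (b1.d_left e₁ hm2) (b2.d_right false hm)
    (by rw [hγ.s_a hi', P_succ, Z.d_cmp _ hm b2, du.d _ le_rfl]) (dim_d _ _ le_rfl) k2
  have y3 := n2 k3 (r := Z.d true (m + 1) (β.P m))
    (by rw [hβ.t_a hi', q1, Z.d_cmp _ hm b1, du.d _ le_rfl]) (b1.d_left true hm)
    (b2.d_right e₂ hm2) (dim_d _ _ le_rfl) k4
  rw [Z.d_d_lt _ _ _ hm1] at y1 y2 y3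
  rw [Z.d_d_lt _ _ _ hm1] at y2 y3
  have z1 : Z.Cp m (Z.cmp (m + 1) (α.a i e)
      (Z.cmp m (Z.d e₁ (m + 1 + 1) (β.P m)) (γ.a m false))) (Z.d false (m + 1) (γ.Q m)) :=
    (cmp_lt true hm k1).trans ((cp_a_Q hα hγ h3 hi e).d_right false hm)
  have z2 : Z.Cp m (Z.d true (m + 1) (β.P m))
      (Z.cmp (m + 1) (γ.a i e) (Z.d e₁ (m + 1 + 1) (δ.Q (m + 1)))) := by
    rw [OCat.Cp, cmp_lt false hm k2, Z.d_d_lt _ _ _ hm, ← c1.lt true hm]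
    exact cp_P_a hα hγ h3 hi e
  have d1 : Z.Dim (m + 1 + 1) (Z.d false (m + 1) (γ.Q m)) := dim_d _ _ hm1.le
  have d2 : Z.Dim (m + 1 + 1) (Z.d true (m + 1) (β.P m)) := dim_d _ _ hm1.le
  have w1 : Z.Cp m (β.P m) (δ.Q (m + 1)) :=
    (h4.cpP hβ hδ le_rfl).trans (hδ.s_Q hm).symm
  have w2 : Z.Cp m (α.P (m + 1)) (γ.Q m) := (hα.t_P hm).trans (h3.cpQ hα hγ le_rfl)
  rw [cmp_a_gt _ _ hi', ha, ha, ha, cmp_a_gt _ _ hi', cmp_a_gt _ _ hi',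
    (pr_cmp_succ hα hγ h3).1, (pr_cmp_succ hβ hδ h4).2, eP, eQ]
  simp only [GG]
  rw [Z.s_cmp c2, Z.t_cmp c1, q2, q3, distR hm2 d1 x1 z1, distL hm2 d2 x2 z2,
    Z.xchg hm1 (OCat.Cp.xchg_out hm2 x1 (d1.cp_self le_rfl) z1)
      (OCat.Cp.xchg_out hm2 (d2.cp_self le_rfl) x2 z2) y1, y2, y3, Z.d_cmp _ hm2 w1,
    Z.d_cmp _ hm2 w2, c1, c2]

theorem xchg {m n : ℕ} (hm : m < n) (hα : α.Valid) (hβ : β.Valid) (hγ : γ.Valid) (hδ : δ.Valid)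
    (h1 : Cp n α β) (h2 : Cp n γ δ) (h3 : Cp m α γ) :
    cmp m (cmp n α β) (cmp n γ δ) = cmp n (cmp m α γ) (cmp m β δ) := by
  rcases (Nat.succ_le_of_lt hm).lt_or_eq with h | rfl
  · exact xchg_far h hα hβ hγ hδ h1 h2 h3
  · exact xchg_near hα hβ hγ hδ h1 h2 h3

end Cyl

end Vale.Agent.P213
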