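import Vale.Agent.P213.OBasic

/-! P213: lax cylinders in an omega-category, definitions. -/

open CategoryTheory

noncomputable section

namespace Vale.Agent.P213

open OCat

/-- The data of a lax cylinder from `p` to `q`. -/
@[ext]
structure Cyl (Z : OCat) : Type where
  p : Z.C
  q : Z.C
  a : ℕ → Bool → Z.C

namespace Cyl

variable {Y Z : OCat}

/-- The iterated sources and targets of the components. -/
def pr (γ : Cyl Z) : ℕ → Z.C × Z.C
  | 0 => (γ.p, γ.q)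
  | k + 1 => (Z.cmp k (γ.a k false) (pr γ k).2, Z.cmp k (pr γ k).1 (γ.a k true))

/-- The first component of `pr`. -/
def P (γ : Cyl Z) (k : ℕ) : Z.C := (γ.pr k).1

/-- The second component of `pr`. -/
def Q (γ : Cyl Z) (k : ℕ) : Z.C := (γ.pr k).2

theorem P_zero (γ : Cyl Z) : γ.P 0 = γ.p := rfl

theorem Q_zero (γ : Cyl Z) : γ.Q 0 = γ.q := rfl

theorem P_succ (γ : Cyl Z) (k : ℕ) : γ.P (k + 1) = Z.cmp k (γ.a k false) (γ.Q k) := rfl

theorem Q_succ (γ : Cyl Z) (k : ℕ) : γ.Q (k + 1) = Z.cmp k (γ.P k) (γ.a k true) := rfl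

/-- The boundary conditions on the components of index `k`. -/
structure ValidAt (γ : Cyl Z) (k : ℕ) : Prop where
  s : ∀ e, Z.d false k (γ.a k e) = Z.d e k (γ.P k)
  t : ∀ e, Z.d true k (γ.a k e) = Z.d e k (γ.Q k)
  dim : ∀ e, Z.Dim (k + 1) (γ.a k e)

/-- The boundary conditions. -/
def Valid (γ : Cyl Z) : Prop := ∀ k, γ.ValidAt k

/-- The cylinder one dimension up. -/
def tail (γ : Cyl Z) : Cyl Z.up := ⟨γ.P 1, γ.Q 1, fun k => γ.a (k + 1)⟩

/-- Sources and targets of cylinders. -/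
def d (e : Bool) (k : ℕ) (γ : Cyl Z) : Cyl Z :=
  ⟨Z.d e k γ.p, Z.d e k γ.q, fun i e' => if i < k then γ.a i e' else γ.a k e⟩

/-- The basic pasting of two cells. -/
def GG (k : ℕ) (e e' : Bool) (p q φ φ' : Z.C) : Z.C :=
  Z.cmp (k + 1) (Z.cmp k φ (Z.d e (k + 1) q)) (Z.cmp k (Z.d e' (k + 1) p) φ')

/-- Composition of cylinders. -/
def cmp (k : ℕ) (α β : Cyl Z) : Cyl Z :=
  ⟨Z.cmp k α.p β.p, Z.cmp k α.q β.q, fun i e =>
    if i < k then α.a i e else if i = k then (bif e then β.a k true else α.a k false)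
    else if i = k + 1 then GG k e e (α.P k) (β.Q k) (α.a i e) (β.a i e)
    else GG k false true (α.P k) (β.Q k) (α.a i e) (β.a i e)⟩

/-- Composability of cylinders. -/
abbrev Cp (k : ℕ) (α β : Cyl Z) : Prop := d true k α = d false k β

/-- The image of a cylinder. -/
def map (f : Y.C → Z.C) (γ : Cyl Y) : Cyl Z := ⟨f γ.p, f γ.q, fun i e => f (γ.a i e)⟩

/-- All the cells of the cylinder are in `S`. -/
structure In (S : Set Z.C) (γ : Cyl Z) : Prop where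
  p : γ.p ∈ S
  q : γ.q ∈ S
  a : ∀ i e, γ.a i e ∈ S

/-- A pair of cylinders. -/
def pair (α : Cyl Y) (β : Cyl Z) : Cyl (Y.prod Z) :=
  ⟨(α.p, β.p), (α.q, β.q), fun i e => (α.a i e, β.a i e)⟩

/-- The constant cylinder. -/
def const (y : Z.C) : Cyl Z := ⟨y, y, fun i e => Z.d e i y⟩

/-- A cell as a cylinder between objects. -/
def cyl (ξ : Z.C) : Cyl Z := ⟨Z.d false 0 ξ, Z.d true 0 ξ, fun i e => Z.d e (i + 1) ξ⟩

/-- Left whiskering of the tail. -/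
def whL (u : Z.C) (γ : Cyl Z.up) : Cyl Z.up := γ.map (Y := Z.up) (Z := Z.up) (Z.cmp 0 u)

/-- Right whiskering of the tail. -/
def whR (γ : Cyl Z.up) (u : Z.C) : Cyl Z.up :=
  γ.map (Y := Z.up) (Z := Z.up) fun x => Z.cmp 0 x u

/-- The components of the vertical composite. -/
def Va : ℕ → ∀ Z : OCat, Cyl Z → Cyl Z → Bool → Z.C
  | 0, Z, α, β, e => Z.cmp 0 (α.a 0 e) (β.a 0 e)
  | k + 1, Z, α, β, e => Va k Z.up (whL (α.a 0 false) β.tail) (whR α.tail (β.a 0 true)) e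

/-- The vertical composite. -/
def V (α β : Cyl Z) : Cyl Z := ⟨α.p, β.q, fun k e => Va k Z α β e⟩

theorem V_a_zero (α β : Cyl Z) (e : Bool) : (V α β).a 0 e = Z.cmp 0 (α.a 0 e) (β.a 0 e) := rfl

theorem V_a_succ (α β : Cyl Z) (k : ℕ) (e : Bool) : (V α β).a (k + 1) e =
    (V (whL (α.a 0 false) β.tail) (whR α.tail (β.a 0 true))).a k e := rfl

theorem d_a (e : Bool) (k : ℕ) (γ : Cyl Z) (i : ℕ) (e' : Bool) :
    (d e k γ).a i e' = if i < k then γ.a i e' else γ.a k e := rfl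

theorem cmp_a_lt {k i : ℕ} (α β : Cyl Z) (h : i < k) (e : Bool) :
    (cmp k α β).a i e = α.a i e := if_pos h

theorem cmp_a_false (k : ℕ) (α β : Cyl Z) : (cmp k α β).a k false = α.a k false :=
  (if_neg (lt_irrefl k)).trans (if_pos rfl)

theorem cmp_a_true (k : ℕ) (α β : Cyl Z) : (cmp k α β).a k true = β.a k true :=
  (if_neg (lt_irrefl k)).trans (if_pos rfl)

theorem cmp_a_succ (k : ℕ) (α β : Cyl Z) (e : Bool) : (cmp k α β).a (k + 1) e =
    GG k e e (α.P k) (β.Q k) (α.a (k + 1) e) (β.a (k + 1) e) :=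
  (if_neg (by omega)).trans ((if_neg (by omega)).trans (if_pos rfl))

theorem cmp_a_gt {k i : ℕ} (α β : Cyl Z) (h : k + 1 < i) (e : Bool) : (cmp k α β).a i e =
    GG k false true (α.P k) (β.Q k) (α.a i e) (β.a i e) :=
  (if_neg (by omega)).trans ((if_neg (by omega)).trans (if_neg (by omega)))

theorem pr_tail (γ : Cyl Z) (k : ℕ) : γ.tail.pr k = γ.pr (k + 1) := by
  induction k with
  | zero => rfl
  | succ k ih => rw [pr, ih]; rfl

theorem P_tail (γ : Cyl Z) (k : ℕ) : γ.tail.P k = γ.P (k + 1) := congrArg Prod.fst (γ.pr_tail k)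

theorem Q_tail (γ : Cyl Z) (k : ℕ) : γ.tail.Q k = γ.Q (k + 1) := congrArg Prod.snd (γ.pr_tail k)

theorem validAt_tail (γ : Cyl Z) (k : ℕ) : γ.tail.ValidAt k ↔ γ.ValidAt (k + 1) :=
  ⟨fun h => ⟨fun e => γ.P_tail k ▸ h.s e, fun e => γ.Q_tail k ▸ h.t e, h.dim⟩,
    fun h => ⟨fun e => (γ.P_tail k).symm ▸ h.s e, fun e => (γ.Q_tail k).symm ▸ h.t e, h.dim⟩⟩

theorem Valid.tail {γ : Cyl Z} (h : γ.Valid) : γ.tail.Valid := fun k =>
  (γ.validAt_tail k).2 (h (k + 1))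

theorem d_d_lt (e e' : Bool) {m n : ℕ} (γ : Cyl Z) (h : m < n) : d e m (d e' n γ) = d e m γ := by
  refine Cyl.ext (Z.d_d_lt _ _ _ h) (Z.d_d_lt _ _ _ h) (funext fun i => funext fun e'' => ?_)
  simp only [d_a]
  split_ifs <;> first | rfl | omega

theorem d_d_ge (e e' : Bool) {m n : ℕ} (γ : Cyl Z) (h : n ≤ m) : d e m (d e' n γ) = d e' n γ := by
  refine Cyl.ext (Z.d_d_ge _ _ _ h) (Z.d_d_ge _ _ _ h) (funext fun i => funext fun e'' => ?_)
  simp only [d_a]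
  split_ifs <;> first | rfl | omega

theorem Cp.p {k : ℕ} {α β : Cyl Z} (h : Cp k α β) : Z.Cp k α.p β.p := congrArg Cyl.p h

theorem Cp.q {k : ℕ} {α β : Cyl Z} (h : Cp k α β) : Z.Cp k α.q β.q := congrArg Cyl.q h

theorem Cp.a_lt {k i : ℕ} {α β : Cyl Z} (h : Cp k α β) (hi : i < k) (e : Bool) :
    α.a i e = β.a i e := by
  have := congrArg (fun γ : Cyl Z => γ.a i e) h
  simpa only [d_a, if_pos hi] using this

theorem Cp.a_top {k : ℕ} {α β : Cyl Z} (h : Cp k α β) : α.a k true = β.a k false := by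
  have := congrArg (fun γ : Cyl Z => γ.a k true) h
  simpa only [d_a, if_neg (lt_irrefl k)] using this

theorem s_cmp {k : ℕ} {α β : Cyl Z} (h : Cp k α β) : d false k (cmp k α β) = d false k α := by
  refine Cyl.ext (Z.s_cmp h.p) (Z.s_cmp h.q) (funext fun i => funext fun e => ?_)
  simp only [d_a, cmp_a_false]
  split_ifs with hi
  · exact cmp_a_lt _ _ hi _
  · rfl

theorem t_cmp {k : ℕ} {α β : Cyl Z} (h : Cp k α β) : d true k (cmp k α β) = d true k β := by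
  refine Cyl.ext (Z.t_cmp h.p) (Z.t_cmp h.q) (funext fun i => funext fun e => ?_)
  simp only [d_a, cmp_a_true]
  split_ifs with hi
  · exact (cmp_a_lt _ _ hi _).trans (h.a_lt hi e)
  · rfl

section

variable {γ : Cyl Z} (h : γ.Valid)
include h

theorem Valid.cpP (k : ℕ) : Z.Cp k (γ.a k false) (γ.Q k) := (h k).t false

theorem Valid.cpQ (k : ℕ) : Z.Cp k (γ.P k) (γ.a k true) := ((h k).s true).symm

theorem Valid.bd_aux {k j : ℕ} (hj : k < j) (e : Bool) :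
    Z.d e k (γ.P j) = Z.d e k (γ.P (k + 1)) ∧ Z.d e k (γ.Q j) = Z.d e k (γ.P (k + 1)) := by
  induction j, hj using Nat.le_induction with
  | base =>
    refine ⟨rfl, ?_⟩
    cases e
    · rw [P_succ, Q_succ, Z.s_cmp (h.cpQ k), Z.s_cmp (h.cpP k), (h k).s]
    · rw [P_succ, Q_succ, Z.t_cmp (h.cpQ k), Z.t_cmp (h.cpP k), (h k).t]
  | succ j hj ih =>
    exact ⟨(cmp_lt' e hj (h.cpP j)).trans ih.2, (cmp_lt e hj (h.cpQ j)).trans ih.1⟩

theorem Valid.s_P {k j : ℕ} (hj : k ≤ j) : Z.d false k (γ.P j) = Z.d false k (γ.P k) := by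
  rcases hj.lt_or_eq with hj | rfl
  · rw [(h.bd_aux hj false).1, P_succ, Z.s_cmp (h.cpP k), (h k).s]
  · rfl

theorem Valid.s_Q {k j : ℕ} (hj : k < j) : Z.d false k (γ.Q j) = Z.d false k (γ.P k) := by
  rw [(h.bd_aux hj false).2, h.s_P k.le_succ]

theorem Valid.t_P {k j : ℕ} (hj : k < j) : Z.d true k (γ.P j) = Z.d true k (γ.Q k) := by
  rw [(h.bd_aux hj true).1, P_succ, Z.t_cmp (h.cpP k)]

theorem Valid.t_Q {k j : ℕ} (hj : k ≤ j) : Z.d true k (γ.Q j) = Z.d true k (γ.Q k) := by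
  rcases hj.lt_or_eq with hj | rfl
  · rw [(h.bd_aux hj true).2, h.t_P k.lt_succ_self]
  · rfl

theorem Valid.s_a {k i : ℕ} (hi : k < i) (e : Bool) :
    Z.d false k (γ.a i e) = Z.d false k (γ.P k) := by
  rw [← Z.d_d_lt false false _ hi, (h i).s, Z.d_d_lt _ _ _ hi, h.s_P hi.le]

theorem Valid.t_a {k i : ℕ} (hi : k < i) (e : Bool) :
    Z.d true k (γ.a i e) = Z.d true k (γ.Q k) := by
  rw [← Z.d_d_lt true true _ hi, (h i).t, Z.d_d_lt _ _ _ hi, h.t_Q hi.le]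

theorem Valid.pr_d (e : Bool) {k j : ℕ} (hj : j ≤ k) :
    (d e k γ).P j = Z.d e k (γ.P j) ∧ (d e k γ).Q j = Z.d e k (γ.Q j) := by
  induction j with
  | zero => exact ⟨rfl, rfl⟩
  | succ j ih =>
    obtain ⟨h1, h2⟩ := ih (by omega)
    rw [P_succ, Q_succ, P_succ, Q_succ, h1, h2, d_a, d_a, if_pos (show j < k by omega),
      if_pos (show j < k by omega), Z.d_cmp e hj (h.cpP j), Z.d_cmp e hj (h.cpQ j),
      ((h j).dim false).d e hj, ((h j).dim true).d e hj]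
    exact ⟨rfl, rfl⟩

theorem Valid.pr_d_gt (e : Bool) {k j : ℕ} (hj : k < j) :
    (d e k γ).P j = γ.a k e ∧ (d e k γ).Q j = γ.a k e := by
  induction j, hj using Nat.le_induction with
  | base =>
    rw [P_succ, Q_succ, (h.pr_d e le_rfl).1, (h.pr_d e le_rfl).2, d_a, d_a, if_neg (lt_irrefl k),
      if_neg (lt_irrefl k)]
    exact ⟨cmp_id' ((h k).t e), id_cmp' ((h k).s e)⟩
  | succ j hj ih =>
    rw [P_succ, Q_succ, ih.1, ih.2, d_a, d_a, if_neg (show ¬ j < k by omega),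
      if_neg (show ¬ j < k by omega)]
    exact ⟨((h k).dim e).cmp_self hj, ((h k).dim e).cmp_self hj⟩

theorem Valid.d (e : Bool) (k : ℕ) : (d e k γ).Valid := fun i => by
  rcases lt_trichotomy i k with hi | rfl | hi
  · refine ⟨fun e' => ?_, fun e' => ?_, fun e' => ?_⟩
    · rw [(h.pr_d e hi.le).1, d_a, if_pos hi, Z.d_d_lt _ _ _ hi, (h i).s]
    · rw [(h.pr_d e hi.le).2, d_a, if_pos hi, Z.d_d_lt _ _ _ hi, (h i).t]
    · rw [d_a, if_pos hi]
      exact (h i).dim e'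
  · refine ⟨fun e' => ?_, fun e' => ?_, fun e' => ?_⟩
    · rw [(h.pr_d e le_rfl).1, d_a, if_neg (lt_irrefl i), d_d, (h i).s]
    · rw [(h.pr_d e le_rfl).2, d_a, if_neg (lt_irrefl i), d_d, (h i).t]
    · rw [d_a, if_neg (lt_irrefl i)]
      exact (h i).dim e
  · refine ⟨fun e' => ?_, fun e' => ?_, fun e' => ?_⟩
    · rw [(h.pr_d_gt e hi).1, d_a, if_neg hi.not_gt, ((h k).dim e).d _ hi, ((h k).dim e).d _ hi]
    · rw [(h.pr_d_gt e hi).2, d_a, if_neg hi.not_gt, ((h k).dim e).d _ hi, ((h k).dim e).d _ hi]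
    · rw [d_a, if_neg hi.not_gt]
      exact ((h k).dim e).mono (by omega)

theorem Valid.tail_d (e : Bool) (k : ℕ) : (Cyl.d e (k + 1) γ).tail = Cyl.d e k γ.tail :=
  Cyl.ext (h.pr_d e (by omega)).1 (h.pr_d e (by omega)).2
    (funext fun i => funext fun e' => by simp only [Cyl.tail, d_a, Nat.add_lt_add_iff_right])

end

theorem Cp.cpP {k j : ℕ} {α β : Cyl Z} (h : Cp k α β) (hα : α.Valid) (hβ : β.Valid)
    (hj : j ≤ k) : Z.Cp k (α.P j) (β.P j) := by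
  rw [OCat.Cp, ← (hα.pr_d true hj).1, ← (hβ.pr_d false hj).1, h]

theorem Cp.cpQ {k j : ℕ} {α β : Cyl Z} (h : Cp k α β) (hα : α.Valid) (hβ : β.Valid)
    (hj : j ≤ k) : Z.Cp k (α.Q j) (β.Q j) := by
  rw [OCat.Cp, ← (hα.pr_d true hj).2, ← (hβ.pr_d false hj).2, h]

theorem Cp.tail {k : ℕ} {α β : Cyl Z} (h : Cp (k + 1) α β) (hα : α.Valid) (hβ : β.Valid) :
    Cp k α.tail β.tail := by
  rw [Cp, ← hα.tail_d, ← hβ.tail_d, h]

section

variable {S : Set Y.C} {f : Y.C → Z.C} (hf : PF Y Z S f) {γ : Cyl Y} (h : γ.Valid) (hS : γ.In S)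
include hf h hS

theorem pr_mem (k : ℕ) : γ.P k ∈ S ∧ γ.Q k ∈ S := by
  induction k with
  | zero => exact ⟨hS.p, hS.q⟩
  | succ k ih =>
    exact ⟨hf.closed.cmp (h.cpP k) (hS.a _ _) ih.2, hf.closed.cmp (h.cpQ k) ih.1 (hS.a _ _)⟩

theorem pr_map (k : ℕ) : (γ.map f).P k = f (γ.P k) ∧ (γ.map f).Q k = f (γ.Q k) := by
  induction k with
  | zero => exact ⟨rfl, rfl⟩
  | succ k ih =>
    rw [P_succ, Q_succ, P_succ, Q_succ, ih.1, ih.2,
      hf.map_cmp (h.cpP k) (hS.a _ _) (pr_mem hf h hS k).2,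
      hf.map_cmp (h.cpQ k) (pr_mem hf h hS k).1 (hS.a _ _)]
    exact ⟨rfl, rfl⟩

theorem valid_map : (γ.map f).Valid := fun k =>
  ⟨fun e => by
    rw [(pr_map hf h hS k).1, ← hf.map_d _ _ (pr_mem hf h hS k).1, ← (h k).s,
      hf.map_d _ _ (hS.a _ _)]
    rfl, fun e => by
    rw [(pr_map hf h hS k).2, ← hf.map_d _ _ (pr_mem hf h hS k).2, ← (h k).t,
      hf.map_d _ _ (hS.a _ _)]
    rfl, fun e => (hf.map_d _ _ (hS.a _ _)).symm.trans (congrArg f ((h k).dim e))⟩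

theorem in_tail : γ.tail.In (Z := Y.up) S :=
  ⟨(pr_mem hf h hS 1).1, (pr_mem hf h hS 1).2, fun i e => hS.a (i + 1) e⟩

theorem tail_map : (γ.map f).tail = γ.tail.map (Y := Y.up) (Z := Z.up) f :=
  Cyl.ext (pr_map hf h hS 1).1 (pr_map hf h hS 1).2 rfl

end

theorem In.d {S : Set Z.C} (hc : Z.Closed S) {γ : Cyl Z} (hS : γ.In S) (e : Bool) (k : ℕ) :
    (d e k γ).In S :=
  ⟨hc.d _ _ hS.p, hc.d _ _ hS.q, fun i e' => by
    rw [d_a]
    split_ifs <;> exact hS.a _ _⟩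

theorem map_d {S : Set Y.C} {f : Y.C → Z.C} (hf : PF Y Z S f) {γ : Cyl Y} (hS : γ.In S) (e : Bool)
    (k : ℕ) : (d e k γ).map f = d e k (γ.map f) :=
  Cyl.ext (hf.map_d _ _ hS.p) (hf.map_d _ _ hS.q)
    (funext fun i => funext fun e' => by simp only [map, d_a]; split_ifs <;> rfl)

theorem in_univ (γ : Cyl Z) : γ.In Set.univ := ⟨trivial, trivial, fun _ _ => trivial⟩

theorem pr_pair (α : Cyl Y) (β : Cyl Z) (k : ℕ) :
    (pair α β).P k = (α.P k, β.P k) ∧ (pair α β).Q k = (α.Q k, β.Q k) := by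
  induction k with
  | zero => exact ⟨rfl, rfl⟩
  | succ k ih =>
    rw [P_succ, Q_succ, ih.1, ih.2]
    exact ⟨rfl, rfl⟩

theorem Valid.pair {α : Cyl Y} {β : Cyl Z} (hα : α.Valid) (hβ : β.Valid) : (pair α β).Valid :=
  fun k => ⟨fun e => by
    rw [(pr_pair α β k).1]
    exact Prod.ext ((hα k).s e) ((hβ k).s e), fun e => by
    rw [(pr_pair α β k).2]
    exact Prod.ext ((hα k).t e) ((hβ k).t e), fun e => Prod.ext ((hα k).dim e) ((hβ k).dim e)⟩

/-- All cells of the tail start at the source object of `p` and end at the target object of `q`. -/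
theorem Valid.tail_in {γ : Cyl Z} (h : γ.Valid) : γ.tail.In (Z := Z.up)
    {x | Z.d false 0 x = Z.d false 0 γ.p ∧ Z.d true 0 x = Z.d true 0 γ.q} :=
  ⟨⟨h.s_P (Nat.zero_le 1), h.t_P Nat.one_pos⟩, ⟨h.s_Q Nat.one_pos, h.t_Q (Nat.zero_le 1)⟩,
    fun i e => ⟨h.s_a i.succ_pos e, h.t_a i.succ_pos e⟩⟩

theorem In.mono {S S' : Set Z.C} {γ : Cyl Z} (h : γ.In S) (hS : S ⊆ S') : γ.In S' :=
  ⟨hS h.p, hS h.q, fun i e => hS (h.a i e)⟩

end Cyl

end Vale.Agent.P213
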