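import Vale.Agent.P213.CylB

/-! P213: constant cylinders and cells as cylinders. -/

open CategoryTheory

noncomputable section

namespace Vale.Agent.P213

open OCat

namespace Cyl

variable {Y Z : OCat}

theorem pr_const (y : Z.C) (k : ℕ) : (const y).P k = y ∧ (const y).Q k = y := by
  induction k with
  | zero => exact ⟨rfl, rfl⟩
  | succ k ih =>
    rw [P_succ, Q_succ, ih.1, ih.2]
    exact ⟨Z.id_cmp k y, Z.cmp_id k y⟩

theorem valid_const (y : Z.C) : (const y).Valid := by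
  intro k
  refine ⟨fun e => ?_, fun e => ?_, fun e => dim_d e y k.le_succ⟩
  · rw [(pr_const y k).1]
    exact d_d _ _ _ _
  · rw [(pr_const y k).2]
    exact d_d _ _ _ _

theorem const_d (e : Bool) (n : ℕ) (y : Z.C) : const (Z.d e n y) = d e n (const y) := by
  refine Cyl.ext rfl rfl (funext fun i => funext fun e' => ?_)
  rw [d_a]
  split_ifs with hi
  · exact Z.d_d_lt _ _ _ hi
  · exact Z.d_d_ge _ _ _ (not_lt.mp hi)

theorem const_cmp {n : ℕ} {x y : Z.C} (h : Z.Cp n x y) :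
    const (Z.cmp n x y) = cmp n (const x) (const y) := by
  refine Cyl.ext rfl rfl (funext fun i => funext fun e => ?_)
  change Z.d e i (Z.cmp n x y) = _
  rcases lt_trichotomy i n with hi | rfl | hi
  · rw [cmp_a_lt _ _ hi]
    exact cmp_lt e hi h
  · cases e
    · rw [cmp_a_false]
      exact Z.s_cmp h
    · rw [cmp_a_true]
      exact Z.t_cmp h
  · rcases (Nat.succ_le_of_lt hi).lt_or_eq with hi' | rfl
    · rw [cmp_a_gt _ _ hi', (pr_const x n).1, (pr_const y n).2, Z.d_cmp e hi h,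
        ← wh₁ n.lt_succ_self (h.d e e hi), Z.d_d_lt _ _ _ hi', Z.d_d_lt _ _ _ hi']
      rfl
    · rw [cmp_a_succ, (pr_const x n).1, (pr_const y n).2,
        ← (dim_d e (Z.cmp n x y) le_rfl).cmp_self le_rfl, Z.d_cmp e hi h]
      rfl

theorem pr_cyl (ξ : Z.C) (k : ℕ) :
    (cyl ξ).P k = Z.d false k ξ ∧ (cyl ξ).Q k = Z.d true k ξ := by
  induction k with
  | zero => exact ⟨rfl, rfl⟩
  | succ k ih =>
    rw [P_succ, Q_succ, ih.1, ih.2]
    exact ⟨cmp_id' (Z.d_d_lt _ _ _ k.lt_succ_self), id_cmp' (Z.d_d_lt _ _ _ k.lt_succ_self)⟩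

theorem valid_cyl (ξ : Z.C) : (cyl ξ).Valid := by
  intro k
  refine ⟨fun e => ?_, fun e => ?_, fun e => dim_d e ξ le_rfl⟩
  · rw [(pr_cyl ξ k).1, d_d]
    exact Z.d_d_lt _ _ _ k.lt_succ_self
  · rw [(pr_cyl ξ k).2, d_d]
    exact Z.d_d_lt _ _ _ k.lt_succ_self

theorem tail_cyl (ξ : Z.C) : (cyl ξ).tail = cyl (Z := Z.up) ξ := by
  exact Cyl.ext (pr_cyl ξ 1).1 (pr_cyl ξ 1).2 rfl

theorem cyl_d (e : Bool) (n : ℕ) (ξ : Z.C) : cyl (Z.d e (n + 1) ξ) = d e n (cyl ξ) := by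
  refine Cyl.ext ((Z.d_d_lt _ _ _ n.succ_pos).trans (Z.d_d_ge _ _ _ n.zero_le).symm)
    ((Z.d_d_lt _ _ _ n.succ_pos).trans (Z.d_d_ge _ _ _ n.zero_le).symm)
    (funext fun i => funext fun e' => ?_)
  rw [d_a]
  split_ifs with hi
  · exact Z.d_d_lt _ _ _ (Nat.succ_lt_succ hi)
  · exact Z.d_d_ge _ _ _ (Nat.succ_le_succ (not_lt.mp hi))

theorem cyl_cmp {n : ℕ} {ξ η : Z.C} (h : Z.Cp (n + 1) ξ η) :
    cyl (Z.cmp (n + 1) ξ η) = cmp n (cyl ξ) (cyl η) := by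
  have h0 : ∀ e, Z.d e 0 (Z.cmp (n + 1) ξ η) = Z.cmp n (Z.d e 0 ξ) (Z.d e 0 η) := fun e => by
    rw [cmp_lt e n.succ_pos h, ← h.lt e n.succ_pos, (dim_d e ξ le_rfl).cmp_self n.zero_le]
  have h1 : ∀ (e e1 e2 : Bool) (i : ℕ), n < i → Z.d e (i + 1) (Z.cmp (n + 1) ξ η) =
      GG n e1 e2 ((cyl ξ).P n) ((cyl η).Q n) (Z.d e (i + 1) ξ) (Z.d e (i + 1) η) := by
    intro e e1 e2 i hi
    have hi' : n < i + 1 := by omega
    rw [(pr_cyl ξ n).1, (pr_cyl η n).2, GG, Z.d_d_ge _ _ _ n.le_succ, Z.d_d_ge _ _ _ n.le_succ,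
      cmp_id' ((Z.d_d_lt true e ξ hi').trans (h.lt true n.lt_succ_self)),
      id_cmp' ((Z.d_d_lt false e η hi').trans (h.lt false n.lt_succ_self).symm),
      Z.d_cmp e (Nat.succ_lt_succ hi) h]
  refine Cyl.ext (h0 false) (h0 true) (funext fun i => funext fun e => ?_)
  change Z.d e (i + 1) (Z.cmp (n + 1) ξ η) = _
  rcases lt_trichotomy i n with hi | rfl | hi
  · rw [cmp_a_lt _ _ hi]
    exact cmp_lt e (Nat.succ_lt_succ hi) h
  · cases e
    · rw [cmp_a_false]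
      exact Z.s_cmp h
    · rw [cmp_a_true]
      exact Z.t_cmp h
  · rcases (Nat.succ_le_of_lt hi).lt_or_eq with hi' | rfl
    · rw [cmp_a_gt _ _ hi']
      exact h1 e _ _ i hi
    · rw [cmp_a_succ]
      exact h1 e _ _ _ hi

theorem cyl_inj {ξ η : Z.C} (h : cyl ξ = cyl η) : ξ = η := by
  obtain ⟨a, ha⟩ := Z.fin ξ
  obtain ⟨b, hb⟩ := Z.fin η
  have h1 : Z.d false (a + b + 1) ξ = Z.d false (a + b + 1) η :=
    congrArg (fun γ : Cyl Z => γ.a (a + b) false) h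
  rwa [Dim.d ha false (by omega), Dim.d hb false (by omega)] at h1

theorem map_cyl {S : Set Y.C} {f : Y.C → Z.C} (hf : PF Y Z S f) {ξ : Y.C} (hξ : ξ ∈ S) :
    (cyl ξ).map f = cyl (f ξ) := by
  exact Cyl.ext (hf.map_d _ _ hξ) (hf.map_d _ _ hξ)
    (funext fun i => funext fun e => hf.map_d _ _ hξ)

/-- Here `P (i + 1) = a i false` and `Q (i + 1) = a i true`; take `ξ = a N false`. -/
theorem exists_ev {γ : Cyl Z} (h : γ.Valid) (hp : Z.Dim 0 γ.p) (hq : Z.Dim 0 γ.q) {N : ℕ}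
    (hN : d false N γ = γ) : ∃ ξ, cyl ξ = γ := by
  have h1 : ∀ k, Z.Dim k (γ.P k) ∧ Z.Dim k (γ.Q k) := by
    intro k
    induction k with
    | zero => exact ⟨hp, hq⟩
    | succ k ih =>
      rw [P_succ, Q_succ, ih.2.cmp_right (h.cpP k), ih.1.cmp_left (h.cpQ k)]
      exact ⟨(h k).dim false, (h k).dim true⟩
  have h2 : ∀ k, k ≤ N → Z.d false k (γ.a N false) = γ.P k ∧ Z.d true k (γ.a N false) = γ.Q k := by
    intro k hk
    rcases hk.lt_or_eq with hk | rfl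
    · exact ⟨(h.s_a hk false).trans (h1 k).1, (h.t_a hk false).trans ((h1 k).2.d true le_rfl)⟩
    · exact ⟨((h k).s false).trans (h1 k).1, ((h k).t false).trans (h1 k).2⟩
  refine ⟨γ.a N false, Cyl.ext (h2 0 N.zero_le).1 (h2 0 N.zero_le).2
    (funext fun i => funext fun e => ?_)⟩
  change Z.d e (i + 1) (γ.a N false) = γ.a i e
  by_cases hi : i < N
  · cases e
    · rw [(h2 (i + 1) hi).1, P_succ, (h1 i).2.cmp_right (h.cpP i)]
    · rw [(h2 (i + 1) hi).2, Q_succ, (h1 i).1.cmp_left (h.cpQ i)]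
  · have h3 := congrArg (fun δ : Cyl Z => δ.a i e) hN
    rw [((h N).dim false).d e (by omega)]
    simpa only [d_a, if_neg hi] using h3

/-- A cylinder in an `N`-category has dimension at most `N`: the components `a N e` both equal
`P N`, and so on. -/
theorem d_eq_of_dim {γ : Cyl Z} (h : γ.Valid) {N : ℕ} (hN : ∀ x, Z.Dim N x) :
    d false N γ = γ := by
  have h1 : ∀ i e, N ≤ i → γ.a i e = γ.P N := fun i e hi => by
    rw [← (hN (γ.a i e)).d false hi, (h i).s, (hN (γ.P i)).d e hi, ← hN (γ.P i), h.s_P hi, hN]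
  refine Cyl.ext (hN _) (hN _) (funext fun i => funext fun e => ?_)
  rw [d_a]
  split_ifs with hi
  · rfl
  · rw [h1 N false le_rfl, h1 i e (not_lt.mp hi)]

end Cyl

end Vale.Agent.P213
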