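import Mathlib

/-! P213: strict higher categories, orientals, the Street nerve, and the classes of maps. -/

open CategoryTheory Simplicial MonoidalCategory

noncomputable section

namespace Vale.Agent.P213

/-! ### Strict omega-categories -/

/-- A strict globular omega-category in the one-sorted form: `C` is the set of all cells (a cell is
identified with its identities), `d false n` and `d true n` are the `n`-source and the `n`-target,
and `cmp n x y` is the composite of `x` followed by `y` along an `n`-cell. The value of `cmp n x y`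
is only constrained when `d true n x = d false n y`. -/
structure OCat : Type 1 where
  C : Type
  d : Bool → ℕ → C → C
  cmp : ℕ → C → C → C
  d_d_lt : ∀ (e e' : Bool) {m n : ℕ} (x : C), m < n → d e m (d e' n x) = d e m x
  d_d_ge : ∀ (e e' : Bool) {m n : ℕ} (x : C), n ≤ m → d e m (d e' n x) = d e' n x
  s_cmp : ∀ {n : ℕ} {x y : C}, d true n x = d false n y → d false n (cmp n x y) = d false n x
  t_cmp : ∀ {n : ℕ} {x y : C}, d true n x = d false n y → d true n (cmp n x y) = d true n y
  d_cmp : ∀ (e : Bool) {m n : ℕ} {x y : C}, n < m → d true n x = d false n y →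
    d e m (cmp n x y) = cmp n (d e m x) (d e m y)
  id_cmp : ∀ (n : ℕ) (x : C), cmp n (d false n x) x = x
  cmp_id : ∀ (n : ℕ) (x : C), cmp n x (d true n x) = x
  assoc : ∀ {n : ℕ} {x y z : C}, d true n x = d false n y → d true n y = d false n z →
    cmp n (cmp n x y) z = cmp n x (cmp n y z)
  xchg : ∀ {m n : ℕ} {x y z w : C}, m < n → d true n x = d false n y →
    d true n z = d false n w → d true m x = d false m z →
    cmp m (cmp n x y) (cmp n z w) = cmp n (cmp m x z) (cmp m y w)
  fin : ∀ x : C, ∃ n, d false n x = x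

/-- Strict functors: they preserve sources, targets and composites of composable cells. -/
@[ext]
structure OHom (X Y : OCat) : Type where
  f : X.C → Y.C
  map_d : ∀ (e : Bool) (n : ℕ) (x : X.C), f (X.d e n x) = Y.d e n (f x)
  map_cmp : ∀ {n : ℕ} {x y : X.C}, X.d true n x = X.d false n y →
    f (X.cmp n x y) = Y.cmp n (f x) (f y)

instance : Category.{0} OCat where
  Hom := OHom
  id X := ⟨id, fun _ _ _ => rfl, fun _ => rfl⟩
  comp F G := ⟨G.f ∘ F.f, fun e n x => by simp [F.map_d, G.map_d], fun h => by
    simp only [Function.comp]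
    rw [F.map_cmp h, G.map_cmp (by rw [← F.map_d, ← F.map_d, h])]⟩

/-- All cells above dimension `n` are identities (no condition for `n = ⊤`). -/
def IsN (n : ℕ∞) : ObjectProperty OCat :=
  fun X => ∀ x : X.C, ∃ k : ℕ, (k : ℕ∞) ≤ n ∧ X.d false k x = x

/-- Strict `n`-categories, `n ≤ ω`. -/
abbrev NCat (n : ℕ∞) : Type 1 := (IsN n).FullSubcategory

/-! ### The omega-category of an augmented directed complex (Steiner) -/

/-- An augmented directed complex: all degrees, including the degree `-1` of the augmentation, are
put in one group `K`; `P i` are the positive chains of degree `i`, and `pt` is the generator in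
degree `-1`. -/
structure ADC : Type 1 where
  K : Type
  [grp : AddCommGroup K]
  P : ℕ → AddSubmonoid K
  bd : K →ₗ[ℤ] K
  pt : K

attribute [instance] ADC.grp

/-- Steiner tables. -/
@[ext]
structure Tab (A : ADC) : Type where
  x : ℕ → Bool → A.K
  pos : ∀ i e, x i e ∈ A.P i
  bd0 : ∀ e, A.bd (x 0 e) = A.pt
  bdS : ∀ i e, A.bd (x (i + 1) e) = x i true - x i false
  fin : ∃ N, ∀ i, N ≤ i → ∀ e, x i e = 0

namespace Tab

variable {A : ADC}

/-- Sources and targets of tables. -/
def d (e : Bool) (n : ℕ) (a : Tab A) : Tab A where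
  x i e' := if i < n then a.x i e' else if i = n then a.x n e else 0
  pos i e' := by
    split_ifs with h1 h2
    · exact a.pos _ _
    · exact h2 ▸ a.pos _ _
    · exact zero_mem _
  bd0 e' := by
    split_ifs with h1 h2
    · exact a.bd0 _
    · exact h2 ▸ a.bd0 _
    · omega
  bdS i e' := by
    rcases lt_trichotomy (i + 1) n with h | h | h
    · simp only [if_pos h, if_pos (Nat.lt_of_succ_lt h), a.bdS]
    · subst h
      simp [a.bdS]
    · simp only [if_neg (show ¬ i + 1 < n by omega), if_neg (show ¬ i + 1 = n by omega),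
        if_neg (show ¬ i < n by omega), map_zero, sub_self]
  fin := ⟨n + 1, fun i hi _ => by rw [if_neg (by omega), if_neg (by omega)]⟩

theorem d_x (e : Bool) (n : ℕ) (a : Tab A) (i : ℕ) (e' : Bool) :
    (d e n a).x i e' = if i < n then a.x i e' else if i = n then a.x n e else 0 := rfl

theorem eq_lt {n : ℕ} {a b : Tab A} (h : d true n a = d false n b) {i : ℕ} (hi : i < n)
    (e : Bool) : a.x i e = b.x i e := by
  have := congrArg (fun t : Tab A => t.x i e) h
  simpa only [d_x, if_pos hi] using this

theorem eq_top {n : ℕ} {a b : Tab A} (h : d true n a = d false n b) :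
    a.x n true = b.x n false := by
  have := congrArg (fun t : Tab A => t.x n true) h
  simpa [d_x] using this

/-- The composite of two composable tables. -/
def cmpT (n : ℕ) (a b : Tab A) (h : d true n a = d false n b) : Tab A where
  x i e := if i < n then a.x i e else if i = n then (bif e then b.x n true else a.x n false)
    else a.x i e + b.x i e
  pos i e := by
    split_ifs with h1 h2
    · exact a.pos _ _
    · subst h2
      cases e
      · exact a.pos _ _
      · exact b.pos _ _
    · exact add_mem (a.pos _ _) (b.pos _ _)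
  bd0 e := by
    split_ifs with h1 h2
    · exact a.bd0 _
    · subst h2
      cases e
      · exact a.bd0 _
      · exact b.bd0 _
    · omega
  bdS i e := by
    rcases lt_trichotomy (i + 1) n with h1 | h1 | h1
    · simp only [if_pos h1, if_pos (Nat.lt_of_succ_lt h1), a.bdS]
    · subst h1
      cases e <;> simp [a.bdS, b.bdS, eq_lt h (Nat.lt_succ_self i)]
    · rw [if_neg (by omega), if_neg (by omega), map_add, a.bdS, b.bdS]
      by_cases h2 : i = n
      · subst h2
        simp [eq_top h]
      · simp only [if_neg (show ¬ i < n by omega), if_neg h2]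
        abel
  fin := by
    obtain ⟨N, hN⟩ := a.fin
    obtain ⟨M, hM⟩ := b.fin
    exact ⟨N + M + n + 1, fun i hi e => by
      rw [if_neg (by omega), if_neg (by omega), hN i (by omega), hM i (by omega), add_zero]⟩

open Classical in
/-- Composition of tables. -/
def cmp (n : ℕ) (a b : Tab A) : Tab A := if h : d true n a = d false n b then cmpT n a b h else a

theorem cmp_x {n : ℕ} {a b : Tab A} (h : d true n a = d false n b) (i : ℕ) (e : Bool) :
    (cmp n a b).x i e = if i < n then a.x i e else if i = n then
      (bif e then b.x n true else a.x n false) else a.x i e + b.x i e := by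
  rw [cmp, dif_pos h]
  rfl

theorem d_d_lt (e e' : Bool) {m n : ℕ} (a : Tab A) (h : m < n) : d e m (d e' n a) = d e m a := by
  ext i e''
  simp only [d_x]
  split_ifs <;> first | rfl | omega

theorem d_d_ge (e e' : Bool) {m n : ℕ} (a : Tab A) (h : n ≤ m) : d e m (d e' n a) = d e' n a := by
  ext i e''
  simp only [d_x]
  split_ifs <;> first | rfl | omega

theorem s_cmp {n : ℕ} {a b : Tab A} (h : d true n a = d false n b) :
    d false n (cmp n a b) = d false n a := by
  ext i e
  simp only [d_x, cmp_x h]
  split_ifs <;> rfl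

theorem t_cmp {n : ℕ} {a b : Tab A} (h : d true n a = d false n b) :
    d true n (cmp n a b) = d true n b := by
  ext i e
  simp only [d_x, cmp_x h]
  split_ifs with h1
  all_goals first | (exact eq_lt h h1 e) | rfl | omega

theorem d_cmp (e : Bool) {m n : ℕ} {a b : Tab A} (hm : n < m) (h : d true n a = d false n b) :
    d e m (cmp n a b) = cmp n (d e m a) (d e m b) := by
  have h' : d true n (d e m a) = d false n (d e m b) := by rw [d_d_lt _ _ _ hm, d_d_lt _ _ _ hm, h]
  ext i e'
  simp only [d_x, cmp_x h, cmp_x h']
  split_ifs <;> first | rfl | omega | simp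

theorem cmp_lt (e : Bool) {m n : ℕ} {a b : Tab A} (hm : m < n) (h : d true n a = d false n b) :
    d e m (cmp n a b) = d e m a := by
  rw [← d_d_lt e false _ hm, s_cmp h, d_d_lt _ _ _ hm]

end Tab

open Tab in
/-- The omega-category of tables of an augmented directed complex. -/
abbrev nu (A : ADC) : OCat where
  C := Tab A
  d := Tab.d
  cmp := Tab.cmp
  d_d_lt := d_d_lt
  d_d_ge := d_d_ge
  s_cmp := s_cmp
  t_cmp := t_cmp
  d_cmp := d_cmp
  id_cmp n a := by
    ext i e
    simp only [cmp_x (d_d_ge true false a le_rfl), d_x]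
    split_ifs with h1 h2 <;> first | rfl | omega | simp | skip
    subst h2
    cases e <;> simp
  cmp_id n a := by
    ext i e
    simp only [cmp_x (d_d_ge false true a le_rfl).symm, d_x]
    split_ifs with h1 h2 <;> first | rfl | omega | simp | skip
    subst h2
    cases e <;> simp
  assoc {n a b c} h1 h2 := by
    ext i e
    simp only [cmp_x h1, cmp_x h2, cmp_x ((t_cmp h1).trans h2), cmp_x (h1.trans (s_cmp h2).symm)]
    split_ifs <;> first | rfl | omega | (exact add_assoc _ _ _)
  xchg {m n a b c f} hm h1 h2 h3 := by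
    have h4 : d true m b = d false m f := by
      rw [← d_d_lt true false b hm, ← h1, d_d_lt _ _ _ hm, h3, ← d_d_lt false true c hm, h2,
        d_d_lt _ _ _ hm]
    have h5 : d true m (cmp n a b) = d false m (cmp n c f) := by
      rw [cmp_lt _ hm h1, cmp_lt _ hm h2, h3]
    have h6 : d true n (cmp m a c) = d false n (cmp m b f) := by
      rw [d_cmp _ hm h3, d_cmp _ hm h4, h1, h2]
    ext i e
    simp only [cmp_x h1, cmp_x h2, cmp_x h3, cmp_x h4, cmp_x h5, cmp_x h6]
    split_ifs <;> first | rfl | omega | (exact add_add_add_comm _ _ _ _) | (cases e <;> rfl)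
  fin a := by
    obtain ⟨N, hN⟩ := a.fin
    refine ⟨N, ?_⟩
    ext i e
    simp only [d_x]
    split_ifs with h1 h2
    · rfl
    · rw [hN N le_rfl, hN i (by omega)]
    · rw [hN i (by omega)]

/-- Morphisms of augmented directed complexes. -/
structure ADCHom (A B : ADC) : Type where
  f : A.K →ₗ[ℤ] B.K
  pos : ∀ i, ∀ x ∈ A.P i, f x ∈ B.P i
  bd : ∀ x, f (A.bd x) = B.bd (f x)
  pt : f A.pt = B.pt

/-- The image of a table. -/
def ADCHom.tab {A B : ADC} (F : ADCHom A B) (a : Tab A) : Tab B where
  x i e := F.f (a.x i e)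
  pos i e := F.pos i _ (a.pos i e)
  bd0 e := by rw [← F.bd, a.bd0, F.pt]
  bdS i e := by rw [← F.bd, a.bdS, map_sub]
  fin := by
    obtain ⟨N, hN⟩ := a.fin
    exact ⟨N, fun i hi e => by rw [hN i hi, map_zero]⟩

theorem ADCHom.tab_d {A B : ADC} (F : ADCHom A B) (e : Bool) (n : ℕ) (a : Tab A) :
    F.tab (Tab.d e n a) = Tab.d e n (F.tab a) := by
  ext i e'
  simp only [ADCHom.tab, Tab.d_x]
  split_ifs <;> simp

/-- The functor induced by a morphism of augmented directed complexes. -/
def nuMap {A B : ADC} (F : ADCHom A B) : nu A ⟶ nu B where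
  f := F.tab
  map_d := F.tab_d
  map_cmp {n a b} h := by
    have h' : Tab.d true n (F.tab a) = Tab.d false n (F.tab b) := by
      rw [← F.tab_d, ← F.tab_d]
      exact congrArg F.tab h
    refine Tab.ext (funext fun i => funext fun e => ?_)
    change F.f ((Tab.cmp n a b).x i e) = (Tab.cmp n (F.tab a) (F.tab b)).x i e
    rw [Tab.cmp_x h, Tab.cmp_x h']
    simp only [ADCHom.tab]
    split_ifs
    · rfl
    · cases e <;> rfl
    · exact map_add _ _ _

/-! ### Chains on a simplex and the orientals -/

/-- Normalised augmented chains on the simplex with vertex set `L`: the basis is the set of faces,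
the empty face has degree `-1`. -/
abbrev Chn (L : Type) : Type := Finset L →₀ ℤ

variable {L L' L'' : Type} [LinearOrder L] [LinearOrder L'] [LinearOrder L'']

/-- The simplicial boundary, the alternating sum of the faces. -/
def bd (L : Type) [LinearOrder L] : Chn L →ₗ[ℤ] Chn L :=
  Finsupp.linearCombination ℤ fun σ =>
    ∑ v ∈ σ, (-1 : ℤ) ^ (σ.filter (· < v)).card • Finsupp.single (σ.erase v) (1 : ℤ)

/-- The chain map induced by a monotone map; degenerate images are sent to zero. -/
def push (f : L →o L') : Chn L →ₗ[ℤ] Chn L' :=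
  Finsupp.linearCombination ℤ fun σ =>
    if (σ.image f).card = σ.card then Finsupp.single (σ.image f) (1 : ℤ) else 0

/-- Nonnegative combinations of faces of dimension `i`. -/
def posChn (L : Type) (i : ℕ) : AddSubmonoid (Chn L) where
  carrier := {c | ∀ σ, 0 ≤ c σ ∧ (σ.card ≠ i + 1 → c σ = 0)}
  zero_mem' _ := ⟨le_rfl, fun _ => rfl⟩
  add_mem' ha hb σ := ⟨add_nonneg (ha σ).1 (hb σ).1, fun h => by
    rw [Finsupp.add_apply, (ha σ).2 h, (hb σ).2 h, add_zero]⟩

/-- The augmented directed complex of the simplex with vertex set `L`. -/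
abbrev spx (L : Type) [LinearOrder L] : ADC where
  K := Chn L
  P := posChn L
  bd := bd L
  pt := Finsupp.single ∅ 1

/-- Joining with a vertex. -/
def jn (w : L) : Chn L →ₗ[ℤ] Chn L :=
  Finsupp.linearCombination ℤ fun σ => if w ∈ σ then 0 else Finsupp.single (insert w σ) (1 : ℤ)

theorem bd_single (σ : Finset L) : bd L (Finsupp.single σ 1) =
    ∑ v ∈ σ, (-1 : ℤ) ^ (σ.filter (· < v)).card • Finsupp.single (σ.erase v) (1 : ℤ) := by
  rw [bd, Finsupp.linearCombination_single, one_smul]

theorem push_single (f : L →o L') (σ : Finset L) : push f (Finsupp.single σ 1) =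
    if (σ.image f).card = σ.card then Finsupp.single (σ.image f) (1 : ℤ) else 0 := by
  rw [push, Finsupp.linearCombination_single, one_smul]

theorem jn_single (w : L) (σ : Finset L) : jn w (Finsupp.single σ 1) =
    if w ∈ σ then 0 else Finsupp.single (insert w σ) (1 : ℤ) := by
  rw [jn, Finsupp.linearCombination_single, one_smul]

omit [LinearOrder L] in
theorem chn_ext {M : Type} [AddCommGroup M] {f g : Chn L →ₗ[ℤ] M}
    (h : ∀ σ, f (Finsupp.single σ 1) = g (Finsupp.single σ 1)) : f = g :=
  Finsupp.lhom_ext' fun σ => LinearMap.ext_ring (h σ)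

theorem jn_jn (w : L) (c : Chn L) : jn w (jn w c) = 0 := by
  refine LinearMap.congr_fun (chn_ext (f := jn w ∘ₗ jn w) (g := 0) fun σ => ?_) c
  simp only [LinearMap.comp_apply, jn_single]
  split_ifs <;> simp [jn_single]

theorem bd_insert {w : L} {σ : Finset L} (h : ∀ v ∈ σ, v < w) :
    bd L (Finsupp.single (insert w σ) 1) =
      jn w (bd L (Finsupp.single σ 1)) + (-1 : ℤ) ^ σ.card • Finsupp.single σ (1 : ℤ) := by
  have hw : w ∉ σ := fun hw => lt_irrefl _ (h w hw)
  rw [bd_single, bd_single, Finset.sum_insert hw, add_comm, map_sum, Finset.erase_insert hw,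
    Finset.filter_insert, if_neg (lt_irrefl w), Finset.filter_true_of_mem h]
  congr 1
  refine Finset.sum_congr rfl fun v hv => ?_
  rw [map_smul, jn_single, if_neg (fun h' => hw (Finset.mem_of_mem_erase h')),
    Finset.filter_insert, if_neg (h v hv).not_gt, Finset.erase_insert_of_ne (h v hv).ne']

theorem bd_jn {w : L} {σ : Finset L} (h : ∀ v ∈ σ, v ≤ w) :
    bd L (jn w (Finsupp.single σ 1)) =
      jn w (bd L (Finsupp.single σ 1)) + (-1 : ℤ) ^ σ.card • Finsupp.single σ (1 : ℤ) := by
  rw [jn_single]
  split_ifs with hw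
  · have h' : ∀ v ∈ σ.erase w, v < w := fun v hv =>
      lt_of_le_of_ne (h v (Finset.mem_of_mem_erase hv)) (Finset.ne_of_mem_erase hv)
    have e := bd_insert h'
    rw [Finset.insert_erase hw] at e
    rw [e, map_add, jn_jn, map_smul, jn_single, if_neg (Finset.notMem_erase w σ),
      Finset.insert_erase hw, ← Finset.card_erase_add_one hw, pow_succ]
    simp
  · exact bd_insert fun v hv => lt_of_le_of_ne (h v hv) fun e => hw (e ▸ hv)

theorem push_jn (f : L →o L') (w : L) (c : Chn L) : push f (jn w c) = jn (f w) (push f c) := by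
  refine LinearMap.congr_fun (chn_ext (f := push f ∘ₗ jn w) (g := jn (f w) ∘ₗ push f)
    fun σ => ?_) c
  have h0 := Finset.card_image_le (s := σ) (f := f)
  simp only [LinearMap.comp_apply, jn_single, push_single]
  by_cases hw : w ∈ σ
  · rw [if_pos hw, map_zero]
    split_ifs
    · rw [jn_single, if_pos (Finset.mem_image_of_mem f hw)]
    · rw [map_zero]
  · rw [if_neg hw, push_single, Finset.image_insert, Finset.card_insert_of_notMem hw]
    by_cases h1 : f w ∈ σ.image f
    · rw [Finset.insert_eq_of_mem h1, if_neg (by omega)]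
      split_ifs
      · rw [jn_single, if_pos h1]
      · rw [map_zero]
    · rw [Finset.card_insert_of_notMem h1]
      by_cases h2 : (σ.image f).card = σ.card
      · rw [if_pos (by omega), if_pos h2, jn_single, if_neg h1]
      · rw [if_neg (by omega), if_neg h2, map_zero]

theorem push_bd (f : L →o L') (c : Chn L) : push f (bd L c) = bd L' (push f c) := by
  refine LinearMap.congr_fun (chn_ext (f := push f ∘ₗ bd L) (g := bd L' ∘ₗ push f) fun σ => ?_) c
  simp only [LinearMap.comp_apply]
  induction σ using Finset.induction_on_max with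
  | empty => simp [bd_single, push_single]
  | insert w σ h ih =>
    have hw : w ∉ σ := fun hw => lt_irrefl _ (h w hw)
    have e : Finsupp.single (insert w σ) (1 : ℤ) = jn w (Finsupp.single σ 1) := by
      rw [jn_single, if_neg hw]
    rw [bd_insert h, map_add, push_jn, ih, e, push_jn, map_smul, push_single]
    split_ifs with h1
    · rw [bd_jn, h1]
      intro v hv
      obtain ⟨u, hu, rfl⟩ := Finset.mem_image.1 hv
      exact f.monotone (h u hu).le
    · simp

omit [LinearOrder L] in
theorem posChn_induction {i : ℕ} {Q : Chn L → Prop} (h0 : Q 0)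
    (h1 : ∀ σ : Finset L, σ.card = i + 1 → Q (Finsupp.single σ 1))
    (hadd : ∀ a b, Q a → Q b → Q (a + b)) {c : Chn L} (hc : c ∈ posChn L i) : Q c := by
  rw [← Finsupp.sum_single c, Finsupp.sum]
  refine Finset.sum_induction _ Q hadd h0 fun σ hσ => ?_
  have h2 : σ.card = i + 1 := by
    by_contra h
    exact Finsupp.mem_support_iff.1 hσ ((hc σ).2 h)
  obtain ⟨k, hk⟩ := Int.eq_ofNat_of_zero_le (hc σ).1
  rw [hk]
  clear hk
  induction k with
  | zero => simpa using h0
  | succ k ih =>
    rw [Nat.cast_succ, Finsupp.single_add]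
    exact hadd _ _ ih (h1 σ h2)

theorem single_mem_posChn {i : ℕ} {σ : Finset L} (h : σ.card = i + 1) :
    Finsupp.single σ (1 : ℤ) ∈ posChn L i := fun τ => by
  rw [Finsupp.single_apply]
  split_ifs with h1
  · exact ⟨zero_le_one, fun h2 => absurd (h1 ▸ h) h2⟩
  · exact ⟨le_rfl, fun _ => rfl⟩

/-- The morphism of augmented directed complexes induced by a monotone map. -/
def spxMap (f : L →o L') : ADCHom (spx L) (spx L') where
  f := push f
  pos i _ hx := posChn_induction (Q := fun c => push f c ∈ posChn L' i)
    (by rw [map_zero]; exact zero_mem _)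
    (fun σ h => by
      rw [push_single]
      split_ifs with h1
      · exact single_mem_posChn (h1.trans h)
      · exact zero_mem _)
    (fun a b ha hb => by rw [map_add]; exact add_mem ha hb) hx
  bd := push_bd f
  pt := (push_single f ∅).trans (by simp)

theorem push_id (c : Chn L) : push OrderHom.id c = c :=
  LinearMap.congr_fun (chn_ext (f := push OrderHom.id) (g := LinearMap.id) fun σ => by
    simp [push_single]) c

theorem push_comp (f : L →o L') (g : L' →o L'') (c : Chn L) :
    push (g.comp f) c = push g (push f c) := by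
  refine LinearMap.congr_fun (chn_ext (f := push (g.comp f)) (g := push g ∘ₗ push f)
    fun σ => ?_) c
  have e : σ.image (g.comp f) = (σ.image f).image g := by rw [Finset.image_image]; rfl
  have h0 := Finset.card_image_le (s := σ) (f := f)
  have h1 := Finset.card_image_le (s := σ.image f) (f := g)
  simp only [LinearMap.comp_apply, push_single, e]
  by_cases h2 : (σ.image f).card = σ.card
  · rw [if_pos h2, push_single, h2]
  · rw [if_neg h2, if_neg (by omega), map_zero]

/-- The orientals as a cosimplicial omega-category. -/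
def orn : SimplexCategory ⥤ OCat where
  obj m := nu (spx (Fin (m.len + 1)))
  map f := nuMap (spxMap f.toOrderHom)
  map_id _ := OHom.ext (funext fun _ => Tab.ext (funext fun _ => funext fun _ => push_id _))
  map_comp _ _ :=
    OHom.ext (funext fun _ => Tab.ext (funext fun _ => funext fun _ => push_comp _ _ _))

/-- The Street nerve of an omega-category. -/
def NO : OCat ⥤ SSet.{0} := yoneda ⋙ (Functor.whiskeringLeft _ _ _).obj orn.op

/-- The Street nerve `N_n`. -/
def street (n : ℕ∞) : NCat n ⥤ SSet.{0} := (IsN n).ι ⋙ NO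

/-! ### The classes of maps -/

/-- Simplicial homotopy. -/
def Htp {X Y : SSet.{0}} (f g : X ⟶ Y) : Prop :=
  ∃ H : X ⊗ Δ[1] ⟶ Y, SSet.ι₀ ≫ H = f ∧ SSet.ι₁ ≫ H = g

/-- Weak homotopy equivalences: maps that induce bijections on the simplicial homotopy classes of
maps into every Kan complex. -/
def WHE : MorphismProperty SSet.{0} := fun X Y f => ∀ Z : SSet.{0}, Z.KanComplex →
  (∀ g : X ⟶ Z, ∃ h : Y ⟶ Z, Htp (f ≫ h) g) ∧
    ∀ h h' : Y ⟶ Z, Htp (f ≫ h) (f ≫ h') → Htp h h'

/-- Kan fibrations. -/
def KanFib : MorphismProperty SSet.{0} := SSet.modelCategoryQuillen.J.rlp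

/-- The weak equivalences `W_n`. -/
def Wn (n : ℕ∞) : MorphismProperty (NCat n) := WHE.inverseImage (street n)

/-- The fibrations `F_n`. -/
def Fn (n : ℕ∞) : MorphismProperty (NCat n) :=
  KanFib.inverseImage (street n ⋙ SSet.ex ⋙ SSet.ex)

/-- The cofibrations `C_n`. -/
def Cn (n : ℕ∞) : MorphismProperty (NCat n) := (Fn n ⊓ Wn n).llp

/-- Three classes of maps form a model structure. -/
def IsModel {D : Type*} [Category D] (Cof W Fib : MorphismProperty D) : Prop :=
  ∃ M : HomotopicalAlgebra.ModelCategory D,
    M.categoryWithCofibrations.cofibrations = Cof ∧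
    M.categoryWithWeakEquivalences.weakEquivalences = W ∧
    M.categoryWithFibrations.fibrations = Fib

/-- An adjunction is a Quillen equivalence: the left adjoint preserves cofibrations and trivial
cofibrations, and a map is a weak equivalence exactly when its adjoint is (stated for all objects,
not only for cofibrant sources and fibrant targets). -/
def IsQuillenEquiv {D E : Type*} [Category D] [Category E] {F : D ⥤ E} {G : E ⥤ D} (adj : F ⊣ G)
    (CofD WD : MorphismProperty D) (CofE WE : MorphismProperty E) : Prop :=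
  (∀ {X Y : D} (f : X ⟶ Y), CofD f → CofE (F.map f)) ∧
  (∀ {X Y : D} (f : X ⟶ Y), CofD f → WD f → WE (F.map f)) ∧
  ∀ (X : D) (Y : E) (φ : F.obj X ⟶ Y), WE φ ↔ WD (adj.homEquiv X Y φ)

/-- The conjecture of Ara and Maltsiniotis for one value of `n`. -/
def Thomason (n : ℕ∞) : Prop :=
  IsModel (Cn n) (Wn n) (Fn n) ∧ (street n).IsRightAdjoint ∧
    ∀ (c : SSet.{0} ⥤ NCat n) (adj : c ⊣ street n),
      IsQuillenEquiv ((SSet.sdExAdjunction.comp SSet.sdExAdjunction).comp adj)
        (MorphismProperty.monomorphisms _) WHE (Cn n) (Wn n)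

end Vale.Agent.P213
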