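import Vale.Agent.P213.NDefs

/-! P213: filtered colimits of strict higher categories. -/

open CategoryTheory Simplicial MonoidalCategory Opposite Limits CartesianMonoidalCategory

noncomputable section

namespace Vale.Agent.P213

open OCat

variable {n : ℕ∞} {J : Type} [SmallCategory J] [IsFiltered J]

/-- The set `T` is the colimit of the sets of cells. -/
structure FSys (G : J ⥤ OCat) {T : Type} (ι : ∀ j, (G.obj j).C → T) : Prop where
  w : ∀ {j k : J} (t : j ⟶ k) (y : (G.obj j).C), ι k ((G.map t).f y) = ι j y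
  surj : ∀ x, ∃ j y, ι j y = x
  eq : ∀ (j : J) (y y' : (G.obj j).C), ι j y = ι j y' →
    ∃ (k : J) (t : j ⟶ k), (G.map t).f y = (G.map t).f y'

namespace FSys

variable {G : J ⥤ OCat} {T : Type} {ι : ∀ j, (G.obj j).C → T} (h : FSys G ι)
include h

theorem lift {I : Type} [Finite I] (x : I → T) :
    ∃ (j : J) (y : I → (G.obj j).C), ∀ i, ι j (y i) = x i := by
  classical
  choose j y hy using fun i => h.surj (x i)
  have := Fintype.ofFinite I
  obtain ⟨k, hk⟩ := IsFiltered.sup_objs_exists (Finset.univ.image j)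
  exact ⟨k, fun i => (G.map (hk (Finset.mem_image_of_mem j (Finset.mem_univ i))).some).f (y i),
    fun i => (h.w _ _).trans (hy i)⟩

omit [IsFiltered J] in
theorem eqs {E : Type} [Finite E] {j : J} (a b : E → (G.obj j).C)
    (hab : ∀ e, ι j (a e) = ι j (b e)) :
    ∃ (k : J) (t : j ⟶ k), ∀ e, (G.map t).f (a e) = (G.map t).f (b e) := by
  classical
  have := Fintype.ofFinite E
  suffices H : ∀ s : Finset E, ∃ (k : J) (t : j ⟶ k), ∀ e ∈ s,
      (G.map t).f (a e) = (G.map t).f (b e) from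
    (H Finset.univ).imp fun _ h => h.imp fun _ h e => h e (Finset.mem_univ e)
  intro s
  induction s using Finset.induction_on with
  | empty => exact ⟨j, 𝟙 j, by simp⟩
  | insert e s _ ih =>
    obtain ⟨k, t, ht⟩ := ih
    obtain ⟨k', t', ht'⟩ := h.eq k ((G.map t).f (a e)) ((G.map t).f (b e))
      (by rw [h.w, h.w, hab])
    refine ⟨k', t ≫ t', fun e' he' => ?_⟩
    rw [G.map_comp, comp_f, comp_f]
    rcases Finset.mem_insert.1 he' with rfl | he'
    · exact ht'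
    · rw [ht e' he']

theorem eqs' {E : Type} [Finite E] {j j' : J} (a : E → (G.obj j).C) (b : E → (G.obj j').C)
    (hab : ∀ e, ι j (a e) = ι j' (b e)) : ∃ (k : J) (t : j ⟶ k) (t' : j' ⟶ k),
      ∀ e, (G.map t).f (a e) = (G.map t').f (b e) := by
  obtain ⟨k, t, ht⟩ := h.eqs (fun e => (G.map (IsFiltered.leftToMax j j')).f (a e))
    (fun e => (G.map (IsFiltered.rightToMax j j')).f (b e)) fun e => by rw [h.w, h.w, hab]
  exact ⟨k, IsFiltered.leftToMax j j' ≫ t, IsFiltered.rightToMax j j' ≫ t, fun e => by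
    rw [G.map_comp, G.map_comp]
    exact ht e⟩

/-- Sources and targets in the colimit. -/
def d (e : Bool) (k : ℕ) (x : T) : T := ι _ ((G.obj _).d e k (h.surj x).choose_spec.choose)

theorem d_ι (e : Bool) (k : ℕ) {j : J} (y : (G.obj j).C) :
    h.d e k (ι j y) = ι j ((G.obj j).d e k y) := by
  obtain ⟨l, t, t', ht⟩ := h.eqs' (fun _ : Unit => (h.surj (ι j y)).choose_spec.choose)
    (fun _ => y) fun _ => (h.surj (ι j y)).choose_spec.choose_spec
  rw [d, ← h.w t, ← h.w t' ((G.obj j).d e k y), OHom.map_d, OHom.map_d, ht ()]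

open Classical in
/-- Composition in the colimit. -/
def cmp (_ : FSys G ι) (k : ℕ) (x x' : T) : T :=
  if hx : ∃ z : Σ j, (G.obj j).C × (G.obj j).C, (G.obj z.1).Cp k z.2.1 z.2.2 ∧ ι _ z.2.1 = x ∧
    ι _ z.2.2 = x' then ι _ ((G.obj _).cmp k hx.choose.2.1 hx.choose.2.2) else x

theorem cmp_ι {k : ℕ} {j : J} {y y' : (G.obj j).C} (hc : (G.obj j).Cp k y y') :
    h.cmp k (ι j y) (ι j y') = ι j ((G.obj j).cmp k y y') := by
  have hx : ∃ z : Σ j, (G.obj j).C × (G.obj j).C, (G.obj z.1).Cp k z.2.1 z.2.2 ∧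
      ι _ z.2.1 = ι j y ∧ ι _ z.2.2 = ι j y' := ⟨⟨j, y, y'⟩, hc, rfl, rfl⟩
  obtain ⟨h1, h2, h3⟩ := hx.choose_spec
  obtain ⟨l, t, t', ht⟩ := h.eqs' (fun b : Bool => bif b then hx.choose.2.1 else hx.choose.2.2)
    (fun b => bif b then y else y') (by rintro (_ | _); exacts [h3, h2])
  rw [cmp, dif_pos hx, ← h.w t, ← h.w t' ((G.obj j).cmp k y y'), OHom.map_cmp _ h1,
    OHom.map_cmp _ hc]
  exact congrArg _ (congrArg₂ _ (ht true) (ht false))

theorem stage {I E : Type} [Finite I] [Finite E] (x : I → T) (l r : E → I) (k : E → ℕ)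
    (hx : ∀ e, h.d true (k e) (x (l e)) = h.d false (k e) (x (r e))) :
    ∃ (j : J) (y : I → (G.obj j).C), (∀ i, ι j (y i) = x i) ∧
      ∀ e, (G.obj j).Cp (k e) (y (l e)) (y (r e)) := by
  obtain ⟨j, y, hy⟩ := h.lift x
  obtain ⟨j', t, ht⟩ := h.eqs (fun e => (G.obj j).d true (k e) (y (l e)))
    (fun e => (G.obj j).d false (k e) (y (r e))) fun e => by rw [← h.d_ι, ← h.d_ι, hy, hy, hx]
  exact ⟨j', fun i => (G.map t).f (y i), fun i => (h.w _ _).trans (hy i), fun e => by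
    rw [Cp, ← OHom.map_d, ← OHom.map_d, ht]⟩

theorem stage₂ {k : ℕ} {x x' : T} (hx : h.d true k x = h.d false k x') :
    ∃ (j : J) (y y' : (G.obj j).C), ι j y = x ∧ ι j y' = x' ∧ (G.obj j).Cp k y y' := by
  obtain ⟨j, y, h1, h2⟩ := h.stage ![x, x'] (fun _ : Unit => 0) (fun _ => 1) (fun _ => k)
    fun _ => hx
  exact ⟨j, y 0, y 1, h1 0, h1 1, h2 ()⟩

/-- The colimit. -/
abbrev ocat : OCat where
  C := T
  d := h.d
  cmp := h.cmp
  d_d_lt e e' m k x hm := by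
    obtain ⟨j, y, rfl⟩ := h.surj x
    rw [h.d_ι, h.d_ι, h.d_ι, (G.obj j).d_d_lt _ _ _ hm]
  d_d_ge e e' m k x hm := by
    obtain ⟨j, y, rfl⟩ := h.surj x
    rw [h.d_ι, h.d_ι, (G.obj j).d_d_ge _ _ _ hm]
  s_cmp hx := by
    obtain ⟨j, y, y', rfl, rfl, hc⟩ := h.stage₂ hx
    rw [h.cmp_ι hc, h.d_ι, h.d_ι, (G.obj j).s_cmp hc]
  t_cmp hx := by
    obtain ⟨j, y, y', rfl, rfl, hc⟩ := h.stage₂ hx
    rw [h.cmp_ι hc, h.d_ι, h.d_ι, (G.obj j).t_cmp hc]
  d_cmp e m k x x' hm hx := by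
    obtain ⟨j, y, y', rfl, rfl, hc⟩ := h.stage₂ hx
    rw [h.cmp_ι hc, h.d_ι, h.d_ι, h.d_ι, h.cmp_ι (hc.d e e hm), (G.obj j).d_cmp e hm hc]
  id_cmp k x := by
    obtain ⟨j, y, rfl⟩ := h.surj x
    rw [h.d_ι, h.cmp_ι (d_d true false k y), (G.obj j).id_cmp]
  cmp_id k x := by
    obtain ⟨j, y, rfl⟩ := h.surj x
    rw [h.d_ι, h.cmp_ι (d_d false true k y).symm, (G.obj j).cmp_id]
  assoc {k x x' x''} h1 h2 := by
    obtain ⟨j, y, e, c⟩ := h.stage ![x, x', x''] ![0, 1] ![1, 2] (fun _ => k)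
      (Fin.forall_fin_two.2 ⟨h1, h2⟩)
    have c0 : (G.obj j).Cp k (y 0) (y 1) := c 0
    have c1 : (G.obj j).Cp k (y 1) (y 2) := c 1
    rw [show x = ι j (y 0) from (e 0).symm, show x' = ι j (y 1) from (e 1).symm,
      show x'' = ι j (y 2) from (e 2).symm, h.cmp_ι c0, h.cmp_ι c1, h.cmp_ι (c0.cmp_left c1),
      h.cmp_ι (c0.cmp_right c1), (G.obj j).assoc c0 c1]
  xchg {m k x x' z z'} hm h1 h2 h3 := by
    obtain ⟨j, y, e, c⟩ := h.stage ![x, x', z, z'] ![0, 2, 0] ![1, 3, 2] ![k, k, m]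
      (Fin.forall_fin_succ.2 ⟨h1, Fin.forall_fin_two.2 ⟨h2, h3⟩⟩)
    have c0 : (G.obj j).Cp k (y 0) (y 1) := c 0
    have c1 : (G.obj j).Cp k (y 2) (y 3) := c 1
    have c2 : (G.obj j).Cp m (y 0) (y 2) := c 2
    rw [show x = ι j (y 0) from (e 0).symm, show x' = ι j (y 1) from (e 1).symm,
      show z = ι j (y 2) from (e 2).symm, show z' = ι j (y 3) from (e 3).symm, h.cmp_ι c0,
      h.cmp_ι c1, h.cmp_ι c2, h.cmp_ι (Cp.xchg_aux hm c0 c1 c2), h.cmp_ι (Cp.xchg_in hm c0 c1 c2),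
      h.cmp_ι (Cp.xchg_out hm c0 c1 c2), (G.obj j).xchg hm c0 c1 c2]
  fin x := by
    obtain ⟨j, y, rfl⟩ := h.surj x
    exact ((G.obj j).fin y).imp fun k hk => by rw [h.d_ι, hk]

/-- The structure maps. -/
def inc (j : J) : G.obj j ⟶ h.ocat where
  f := ι j
  map_d e k y := (h.d_ι e k y).symm
  map_cmp hc := (h.cmp_ι hc).symm

theorem exists_desc {W : OCat} (s : ∀ j, G.obj j ⟶ W)
    (hs : ∀ {j k : J} (t : j ⟶ k), G.map t ≫ s k = s j) :
    ∃ φ : h.ocat ⟶ W, ∀ j y, φ.f (ι j y) = (s j).f y := by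
  have key : ∀ j y, (s _).f (h.surj (ι j y)).choose_spec.choose = (s j).f y := fun j y => by
    obtain ⟨l, t, t', ht⟩ := h.eqs' (fun _ : Unit => (h.surj (ι j y)).choose_spec.choose)
      (fun _ => y) fun _ => (h.surj (ι j y)).choose_spec.choose_spec
    rw [← hs t, ← hs t', comp_f, comp_f, ht ()]
  refine ⟨⟨fun x => (s _).f (h.surj x).choose_spec.choose, fun e k x => ?_, fun hx => ?_⟩, key⟩
  · obtain ⟨j, y, rfl⟩ := h.surj x
    change (s _).f (h.surj (h.d e k (ι j y))).choose_spec.choose = _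
    rw [h.d_ι, key, key, OHom.map_d]
  · obtain ⟨j, y, y', rfl, rfl, hc⟩ := h.stage₂ hx
    change (s _).f (h.surj (h.cmp _ (ι j y) (ι j y'))).choose_spec.choose = _
    rw [h.cmp_ι hc, key, key, key, OHom.map_cmp _ hc]

end FSys

omit [IsFiltered J] in
/-- The functor of cells. -/
def cellF (G : J ⥤ OCat) : J ⥤ Type where
  obj j := (G.obj j).C
  map t := TypeCat.ofHom (G.map t).f
  map_id j := by
    rw [G.map_id]
    rfl
  map_comp _ _ := by
    rw [G.map_comp]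
    rfl

theorem exists_filt_cocone (F : J ⥤ NCat n) : ∃ (c : Cocone F) (_ : IsColimit c),
    (∀ x : c.pt.obj.C, ∃ j y, (c.ι.app j).hom.f y = x) ∧
    ∀ (j : J) (y y' : (F.obj j).obj.C), (c.ι.app j).hom.f y = (c.ι.app j).hom.f y' →
      ∃ (k : J) (t : j ⟶ k), (F.map t).hom.f y = (F.map t).hom.f y' := by
  let G := F ⋙ (IsN n).ι
  have h : FSys G fun j => colimit.ι (cellF G) j :=
    ⟨fun t y => colimit.w_apply (cellF G) t y,
      fun x => Types.jointly_surjective_of_isColimit (colimit.isColimit (cellF G)) x,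
      fun j y y' e =>
        (Types.FilteredColimit.isColimit_eq_iff' (colimit.isColimit (cellF G)) y y').1 e⟩
  have hN : IsN n h.ocat := fun x => by
    obtain ⟨j, y, rfl⟩ := h.surj x
    exact ((F.obj j).property y).imp fun k hk => ⟨hk.1, (h.d_ι _ _ _).trans (congrArg _ hk.2)⟩
  let c : Cocone F := ⟨⟨h.ocat, hN⟩, fun j => ObjectProperty.homMk (h.inc j), fun j k t =>
    ObjectProperty.hom_ext _ (ohom_ext fun y => h.w t y)⟩
  have hd := fun s : Cocone F => h.exists_desc (W := s.pt.obj) (fun j => (s.ι.app j).hom) fun t =>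
    congrArg (fun H => H.hom) (s.w t)
  refine ⟨c, ⟨fun s => ObjectProperty.homMk (hd s).choose, fun s j => ?_, fun s m hm => ?_⟩,
    h.surj, h.eq⟩
  · exact ObjectProperty.hom_ext _ (ohom_ext fun y => (hd s).choose_spec j y)
  · refine ObjectProperty.hom_ext _ (ohom_ext fun x => ?_)
    obtain ⟨j, y, rfl⟩ := h.surj x
    exact (congrArg (fun H => H.hom.f y) (hm j)).trans ((hd s).choose_spec j y).symm

theorem filt_surj {F : J ⥤ NCat n} {c : Cocone F} (hc : IsColimit c) (x : c.pt.obj.C) :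
    ∃ j y, (c.ι.app j).hom.f y = x := by
  obtain ⟨c', hc', h1, -⟩ := exists_filt_cocone F
  obtain ⟨j, y, hy⟩ := h1 ((hc.desc c').hom.f x)
  refine ⟨j, y, ?_⟩
  have e : hc.desc c' ≫ hc'.desc c = 𝟙 _ := hc.hom_ext fun j => by simp
  have e' := congrArg (fun H => H.hom.f x) e
  exact (congrArg (fun H => H.hom.f y) (hc'.fac c j)).symm.trans
    ((congrArg (hc'.desc c).hom.f hy).trans e')

theorem filt_eq {F : J ⥤ NCat n} {c : Cocone F} (hc : IsColimit c) {j : J}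
    {y y' : (F.obj j).obj.C} (h : (c.ι.app j).hom.f y = (c.ι.app j).hom.f y') :
    ∃ (k : J) (t : j ⟶ k), (F.map t).hom.f y = (F.map t).hom.f y' := by
  obtain ⟨c', -, -, h2⟩ := exists_filt_cocone F
  exact h2 j y y' ((congrArg (fun H => H.hom.f y) (hc.fac c' j)).symm.trans
    ((congrArg (hc.desc c').hom.f h).trans (congrArg (fun H => H.hom.f y') (hc.fac c' j))))

theorem ofilt_lift {G : J ⥤ OCat} {W : OCat} {ι : ∀ j, G.obj j ⟶ W} (h : FSys G fun j => (ι j).f)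
    {O : OCat} [Finite O.C] (σ : O ⟶ W) : ∃ (j : J) (τ : O ⟶ G.obj j), τ ≫ ι j = σ := by
  obtain ⟨N, hN⟩ : ∃ N, ∀ x, O.Dim N x := by
    choose k hk using O.fin
    obtain ⟨N, hN⟩ := (Set.finite_range k).bddAbove
    exact ⟨N, fun x => Dim.mono (hk x) (hN ⟨x, rfl⟩)⟩
  obtain ⟨j, y, hy⟩ := h.lift σ.f
  obtain ⟨j₁, t₁, h₁⟩ := h.eqs (E := Bool × Fin (N + 1) × O.C) (fun z => y (O.d z.1 z.2.1 z.2.2))
    (fun z => (G.obj j).d z.1 z.2.1 (y z.2.2)) fun z => by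
      rw [hy, OHom.map_d, OHom.map_d, hy]
  let y₁ : O.C → (G.obj j₁).C := fun x => (G.map t₁).f (y x)
  have d₀ : ∀ e k, k ≤ N → ∀ x, y₁ (O.d e k x) = (G.obj j₁).d e k (y₁ x) := fun e k hk x =>
    (h₁ (e, ⟨k, Nat.lt_succ_of_le hk⟩, x)).trans (OHom.map_d _ _ _ _)
  have dm : ∀ x, (G.obj j₁).Dim N (y₁ x) := fun x => by rw [Dim, ← d₀ _ _ le_rfl, hN]
  have d₁ : ∀ e k x, y₁ (O.d e k x) = (G.obj j₁).d e k (y₁ x) := fun e k x => by
    rcases le_total k N with hk | hk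
    · exact d₀ e k hk x
    · rw [(hN x).d e hk, (dm x).d e hk]
  have c₁ : ∀ {k x x'}, O.Cp k x x' → (G.obj j₁).Cp k (y₁ x) (y₁ x') := fun hc => by
    rw [Cp, ← d₁, ← d₁, hc]
  have hy₁ : ∀ x, (ι j₁).f (y₁ x) = σ.f x := fun x => (h.w _ _).trans (hy x)
  obtain ⟨j₂, t₂, h₂⟩ := h.eqs (E := {z : Fin N × O.C × O.C // O.Cp z.1 z.2.1 z.2.2})
    (fun z => y₁ (O.cmp z.1.1 z.1.2.1 z.1.2.2))
    (fun z => (G.obj j₁).cmp z.1.1 (y₁ z.1.2.1) (y₁ z.1.2.2)) fun z => by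
      rw [hy₁, OHom.map_cmp _ z.2, OHom.map_cmp _ (c₁ z.2), hy₁, hy₁]
  refine ⟨j₂, ⟨fun x => (G.map t₂).f (y₁ x), fun e k x => by rw [d₁, OHom.map_d],
    fun {k x x'} hc => ?_⟩, ohom_ext fun x => (h.w _ _).trans (hy₁ x)⟩
  rw [← OHom.map_cmp _ (c₁ hc)]
  rcases lt_or_ge k N with hk | hk
  · exact h₂ ⟨(⟨k, hk⟩, x, x'), hc⟩
  · rw [((hN x).mono hk).cmp_left hc, ((dm x).mono hk).cmp_left (c₁ hc)]

theorem street_filtered (n : ℕ∞) : PreservesFilteredColimitsOfSize.{0, 0} (street n) := by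
  refine ⟨fun J _ _ => ⟨fun {F} => ⟨fun {c} hc => ⟨evaluationJointlyReflectsColimits _ fun m => ?_⟩⟩⟩⟩
  have h : FSys (F ⋙ (IsN n).ι) (T := c.pt.obj.C) fun j => (c.ι.app j).hom.f :=
    ⟨fun t y => congrArg (fun H => H.hom.f y) (c.w t), filt_surj hc, fun _ _ _ e => filt_eq hc e⟩
  have : Finite (nu (spx (Fin (m.unop.len + 1)))).C := finite_tab
  refine Types.FilteredColimit.isColimitOf' _ _ (fun σ => ?_) fun j σ σ' e => ?_
  · obtain ⟨j, τ, hτ⟩ := ofilt_lift (G := F ⋙ (IsN n).ι) (W := c.pt.obj)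
      (ι := fun j => (c.ι.app j).hom) h (NO.fn (X := c.pt.obj) σ)
    exact ⟨j, τ, hτ.symm⟩
  · obtain ⟨k, t, ht⟩ := h.eqs (NO.fn (X := (F.obj j).obj) σ).f (NO.fn (X := (F.obj j).obj) σ').f
      fun x => congrArg (fun H => (NO.fn (X := c.pt.obj) H).f x) e
    exact ⟨k, t, ohom_ext ht⟩

end Vale.Agent.P213
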