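import Vale.Agent.P213.SEx

/-! P213: the subdivision of a simplicial complex is the nerve of its face poset. -/

open CategoryTheory Simplicial MonoidalCategory Opposite Limits CartesianMonoidalCategory

noncomputable section

namespace Vale.Agent.P213

variable {P : Type} [PartialOrder P]

namespace SSdX

theorem exists_enum (S : Ch P) : ∃ (n : ℕ) (e : Fin (n + 1) →o P), Function.Injective e ∧
    chOf e = S := by
  classical
  let _ : LinearOrder S.finset :=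
    { (inferInstance : PartialOrder S.finset) with
      le_total := S.comparable
      toDecidableLE := Classical.decRel _ }
  obtain ⟨n, hn⟩ : ∃ n, Fintype.card S.finset = n + 1 := Nat.exists_eq_succ_of_ne_zero (by
    rw [Fintype.card_coe]
    exact S.nonempty.card_ne_zero)
  let f := monoEquivOfFin S.finset hn
  refine ⟨n, ⟨fun i => (f i).1, fun i j h => f.monotone h⟩,
    fun i j h => f.injective (Subtype.ext h), ?_⟩
  ext y
  rw [mem_chOf]
  exact ⟨fun ⟨i, h⟩ => h ▸ (f i).2, fun h => ⟨f.symm ⟨y, h⟩, congrArg Subtype.val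
    (f.apply_symm_apply _)⟩⟩

theorem exists_fac {n m : ℕ} {e : Fin (n + 1) →o P} (he : Function.Injective e)
    (σ : Fin (m + 1) →o P) (h : chOf σ ≤ chOf e) : ∃ f : Fin (m + 1) →o Fin (n + 1),
      e.comp f = σ := by
  choose f hf using fun i => (mem_chOf e (σ i)).1 (h ((mem_chOf σ _).2 ⟨i, rfl⟩))
  refine ⟨⟨f, fun i j hij => ?_⟩, OrderHom.ext _ _ (funext hf)⟩
  rw [← (e.monotone.strictMono_of_injective he).le_iff_le, hf, hf]
  exact σ.monotone hij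

theorem chMap_inj {n : ℕ} {e : Fin (n + 1) →o P} (he : Function.Injective e) :
    Function.Injective (chMap e) := fun S T h => by
  have key : ∀ S T : Ch (Fin (n + 1)), chMap e S = chMap e T → ∀ x ∈ S.finset, x ∈ T.finset :=
    fun S T h x hx => by
      obtain ⟨y, hy, e1⟩ := (mem_chMap e T _).1 (h ▸ (mem_chMap e S _).2 ⟨x, hx, rfl⟩)
      exact he e1 ▸ hy
  ext x
  exact ⟨key S T h x, key T S h.symm x⟩

theorem chMap_le {n : ℕ} (σ : Fin (n + 1) →o P) (S : Ch (Fin (n + 1))) : chMap σ S ≤ chOf σ :=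
  (chMap σ).monotone (Finset.subset_univ _)

theorem exists_rep {m : ℕ} (τ : Fin (m + 1) →o Ch P) : ∃ (n : ℕ) (e : Fin (n + 1) →o P)
    (τ' : Fin (m + 1) →o Ch (Fin (n + 1))), chOf e = τ (Fin.last m) ∧ (chMap e).comp τ' = τ := by
  classical
  obtain ⟨n, e, -, h⟩ := exists_enum (τ (Fin.last m))
  have h1 : ∀ i, ∀ y ∈ (τ i).finset, ∃ j, e j = y := fun i y hy =>
    (mem_chOf e y).1 (h ▸ τ.monotone (Fin.le_last i) hy)
  refine ⟨n, e, ⟨fun i => chMk (Finset.univ.filter fun j => e j ∈ (τ i).finset) ?_,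
    fun i i' hi j hj => ?_⟩, h, ?_⟩
  · obtain ⟨y, hy⟩ := (τ i).nonempty
    obtain ⟨j, rfl⟩ := h1 i y hy
    exact ⟨j, Finset.mem_filter.2 ⟨Finset.mem_univ _, hy⟩⟩
  · exact Finset.mem_filter.2 ⟨Finset.mem_univ _, τ.monotone hi (Finset.mem_filter.1 hj).2⟩
  · ext i y
    refine (mem_chMap e _ y).trans ⟨?_, fun hy => ?_⟩
    · rintro ⟨j, hj, rfl⟩
      exact (Finset.mem_filter.1 hj).2
    · obtain ⟨j, rfl⟩ := h1 i y hy
      exact ⟨j, Finset.mem_filter.2 ⟨Finset.mem_univ _, hy⟩, rfl⟩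

variable {K : LowerSet (Ch P)} {Y : SSet.{0}} (a : (CX K : SSet.{0}) ⟶ Ex.obj Y)

/-- The value of `a` on a simplex and a simplex of its subdivision. -/
def val {n : ℕ} (σ : Fin (n + 1) →o P) (h : chOf σ ∈ K) {m : SimplexCategoryᵒᵖ}
    (τ : Fin (m.unop.len + 1) →o Ch (Fin (n + 1))) : Y.obj m :=
  (Ex.fn (a.app (op ⦋n⦌) ⟨σ, h⟩)).app m τ

theorem val_comp {n n' : ℕ} (e : Fin (n + 1) →o P) (h : chOf e ∈ K)
    (f : Fin (n' + 1) →o Fin (n + 1)) (h' : chOf (e.comp f) ∈ K) {m : SimplexCategoryᵒᵖ}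
    (τ : Fin (m.unop.len + 1) →o Ch (Fin (n' + 1))) :
    val a (e.comp f) h' τ = val a e h ((chMap f).comp τ) := by
  let x : (CX K : SSet.{0}).obj (op ⦋n⦌) := ⟨e, h⟩
  have h1 := a.naturality_apply (mkH (a := ⦋n'⦌) (b := ⦋n⦌) f).op x
  exact congrArg (fun x : (Ex.obj Y).obj (op ⦋n'⦌) => (Ex.fn x).app m τ) h1

theorem val_le {n n' : ℕ} {σ : Fin (n + 1) →o P} (h : chOf σ ∈ K) {σ' : Fin (n' + 1) →o P}
    (h' : chOf σ' ∈ K) (hle : chOf σ' ≤ chOf σ) {m : SimplexCategoryᵒᵖ}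
    {τ : Fin (m.unop.len + 1) →o Ch (Fin (n + 1))} {τ' : Fin (m.unop.len + 1) →o Ch (Fin (n' + 1))}
    (e : (chMap σ).comp τ = (chMap σ').comp τ') : val a σ h τ = val a σ' h' τ' := by
  obtain ⟨l, e₁, h1, h2⟩ := exists_enum (chOf σ)
  have h3 : chOf e₁ ∈ K := h2 ▸ h
  obtain ⟨g, rfl⟩ := exists_fac h1 σ' (h2 ▸ hle)
  obtain ⟨f, rfl⟩ := exists_fac h1 σ h2.ge
  rw [val_comp a e₁ h3, val_comp a e₁ h3]
  refine congrArg _ (OrderHom.ext _ _ (funext fun i => chMap_inj h1 ?_))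
  rw [chMap_comp, chMap_comp] at e
  exact congrArg (fun t => t i) e

theorem val_eq {n n' : ℕ} {σ : Fin (n + 1) →o P} (h : chOf σ ∈ K) {σ' : Fin (n' + 1) →o P}
    (h' : chOf σ' ∈ K) {m : SimplexCategoryᵒᵖ}
    {τ : Fin (m.unop.len + 1) →o Ch (Fin (n + 1))} {τ' : Fin (m.unop.len + 1) →o Ch (Fin (n' + 1))}
    (e : (chMap σ).comp τ = (chMap σ').comp τ') : val a σ h τ = val a σ' h' τ' := by
  obtain ⟨l, e₁, ρ, h1, h2⟩ := exists_rep ((chMap σ).comp τ)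
  have h3 : chOf e₁ ≤ chOf σ := h1 ▸ chMap_le σ _
  have h4 : chOf e₁ ≤ chOf σ' := (h1.trans (congrArg (fun t => t (Fin.last _)) e)) ▸ chMap_le σ' _
  exact (val_le a h (K.lower h3 h) h3 h2.symm).trans
    (val_le a h' (K.lower h3 h) h4 (e.symm.trans h2.symm)).symm

end SSdX

open SSdX in
/-- For a simplex `τ = (S₀ ⊆ … ⊆ Sₖ)` of `NS K` write `τ = chMap σ ∘ τ'` with `σ` the increasing
enumeration of `Sₖ`, and put `a' τ = a σ τ'`. Any `σ` in `CX K` with `τ = chMap σ ∘ τ'` gives the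
same value, because `σ` and the enumeration of `Sₖ` both factor through the enumeration of
`chOf σ`, and `chMap` of an injective map is injective. -/
theorem cxU_univ (K : LowerSet (Ch P)) {Y : SSet.{0}} (a : (CX K : SSet.{0}) ⟶ Ex.obj Y) :
    ∃! a' : (NS (K : Set (Ch P)) : SSet.{0}) ⟶ Y, cxU K ≫ Ex.map a' = a := by
  choose n e ρ h1 h2 using fun (m : SimplexCategoryᵒᵖ) (τ : (NS (K : Set (Ch P)) : SSet.{0}).obj m) =>
    exists_rep (NP.fn τ.1)
  have h3 : ∀ m τ, chOf (e m τ) ∈ K := fun m τ => h1 m τ ▸ τ.2 _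
  refine ⟨{ app := fun m => TypeCat.ofHom fun τ => val a (e m τ) (h3 m τ) (ρ m τ)
            naturality := fun m m' α => ?_ }, ?_, fun b hb => ?_⟩
  · ext τ
    refine (val_eq a _ (h3 m τ) (τ' := (ρ m τ).comp α.unop.toOrderHom) ?_).trans
      ((Ex.fn (a.app (op ⦋n m τ⦌) ⟨e m τ, h3 m τ⟩)).naturality_apply α (ρ m τ))
    rw [h2, ← OrderHom.comp_assoc, h2]
    rfl
  · ext l σ
    change (_ : NP _ ⟶ Y) = _
    ext m τ
    exact val_eq a (h3 m _) σ.2 (h2 m _)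
  · ext m τ
    subst hb
    exact congrArg (b.app m) (Subtype.ext (h2 m τ).symm)

theorem cxU_nat {K K' : LowerSet (Ch P)} (h : (K : Set (Ch P)) ⊆ K') (h' : CX K ≤ CX K') :
    SSet.Subcomplex.homOfLE h' ≫ cxU K' = cxU K ≫ Ex.map (NSi h) := by
  ext n σ
  change (_ : NP _ ⟶ (NS (K' : Set (Ch P)) : SSet.{0})) = _
  exact (cancel_mono (SSet.Subcomplex.ι _)).1 rfl

theorem SSdX.sd_iso (K : LowerSet (Ch P)) :
    IsIso ((adjSd.homEquiv _ _).symm (cxU K)) := by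
  obtain ⟨v, hv, -⟩ := cxU_univ K (adjSd.unit.app (CX K))
  refine ⟨v, (adjSd.homEquiv _ _).injective ?_, (cxU_univ K (cxU K)).unique ?_ ?_⟩
  · rw [adjSd.homEquiv_naturality_right, Equiv.apply_symm_apply, hv, adjSd.homEquiv_id]
  · rw [Ex.map_comp, ← Category.assoc, hv]
    exact (adjSd.homEquiv_unit _ _ _).symm.trans (Equiv.apply_symm_apply _ _)
  · rw [Ex.map_id, Category.comp_id]

/-- Both sides corepresent the same functor (`adjSd`, `cxU_univ`). -/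
theorem sd_arrow {K K' : LowerSet (Ch P)} (h : (K : Set (Ch P)) ⊆ K') (h' : CX K ≤ CX K') :
    Nonempty (Arrow.mk (SSet.sd.map (SSet.Subcomplex.homOfLE h')) ≅ Arrow.mk (NSi h)) := by
  refine ⟨Arrow.isoMk (@asIso _ _ _ _ _ (SSdX.sd_iso K)) (@asIso _ _ _ _ _ (SSdX.sd_iso K')) ?_⟩
  exact (adjSd.homEquiv_naturality_right_symm _ _).symm.trans
    ((congrArg _ (cxU_nat h h').symm).trans (adjSd.homEquiv_naturality_left_symm _ _))

theorem SSdX.sd_of_iso (K : LowerSet (Ch P)) {X Y : SSet.{0}} (f : X ⟶ Y)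
    (e : (CX K : SSet.{0}) ≅ X) (e' : NP P ≅ Y) (h : e.hom ≫ f = (CX K).ι ≫ e'.hom) :
    Nonempty (Arrow.mk (SSet.sd.map f) ≅ Arrow.mk (NSi (Set.subset_univ (K : Set (Ch P))))) := by
  obtain ⟨i⟩ := sd_arrow (K := K) (K' := ⊤) (Set.subset_univ _) (CX_mono le_top)
  have h1 : CX (⊤ : LowerSet (Ch P)) = ⊤ := top_le_iff.1 fun _ _ _ => trivial
  have i2 : Arrow.mk (SSet.Subcomplex.homOfLE (CX_mono (le_top : K ≤ ⊤))) ≅ Arrow.mk f :=
    Arrow.isoMk e (SSet.Subcomplex.eqToIso h1 ≪≫ SSet.Subcomplex.topIso _ ≪≫ e') h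
  exact ⟨(SSet.sd.mapArrow.mapIso i2).symm ≪≫ i⟩

/-- The inclusion of the whole simplex: `CX ⊤` is the top subcomplex. -/
theorem sd_horn {n : ℕ} (k : Fin (n + 1)) : Nonempty (Arrow.mk (SSet.sd.map Λ[n, k].ι) ≅
    Arrow.mk (NSi (Set.subset_univ (hornK k : Set (Ch (Fin (n + 1))))))) := by
  obtain ⟨e, he⟩ := exists_hornIso k
  exact SSdX.sd_of_iso _ _ e (npIso ⦋n⦌).symm he

theorem sd_bd (n : ℕ) : Nonempty (Arrow.mk (SSet.sd.map ∂Δ[n].ι) ≅
    Arrow.mk (NSi (Set.subset_univ (bdK n : Set (Ch (Fin (n + 1))))))) := by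
  obtain ⟨e, he⟩ := exists_bdIso n
  exact SSdX.sd_of_iso _ _ e (npIso ⦋n⦌).symm he

/-- The chains contained in a lower set `A`: `NS A = CX K₂` for the lower set `K₂` of all chains
contained in `A`, and `K₂` satisfies `Dw` (intersect a chain with `A`). -/
theorem sd_NS (A : Set P) (hA : IsLowerSet A) : ∃ A₂ : Set (Ch P), Dw A₂ ∧
    Nonempty (Arrow.mk (SSet.sd.map (NSi (Set.subset_univ A))) ≅
      Arrow.mk (NSi (Set.subset_univ A₂))) := by
  classical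
  let K : LowerSet (Ch P) := ⟨{S | ∀ x ∈ S.finset, x ∈ A}, fun _ _ h h' x hx => h' x (h hx)⟩
  have h1 : CX K = NS A := le_antisymm (fun _ σ h i => h _ ((mem_chOf _ _).2 ⟨i, rfl⟩))
    fun _ σ h x hx => by
      obtain ⟨i, rfl⟩ := (mem_chOf _ _).1 hx
      exact h i
  have h2 : NS (Set.univ : Set P) = ⊤ := top_le_iff.1 fun _ _ _ _ => trivial
  refine ⟨K, ⟨K.lower, fun v hv => ?_⟩, SSdX.sd_of_iso K _ (SSet.Subcomplex.eqToIso h1)
    (SSet.Subcomplex.eqToIso h2 ≪≫ SSet.Subcomplex.topIso _).symm rfl⟩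
  rcases (v.finset.filter (· ∈ A)).eq_empty_or_nonempty with h | h
  · refine .inl fun b hb hlt => ?_
    obtain ⟨x, hx⟩ := b.nonempty
    exact Finset.filter_eq_empty_iff.1 h (hlt.le hx) (hb x hx)
  · let t : Ch P := ⟨v.finset.filter (· ∈ A), h, fun x y =>
      v.comparable ⟨x, (Finset.mem_filter.1 x.2).1⟩ ⟨y, (Finset.mem_filter.1 y.2).1⟩⟩
    have ht : t ∈ (K : Set (Ch P)) := fun x hx => (Finset.mem_filter.1 hx).2
    exact .inr ⟨t, ht, lt_of_le_of_ne (Finset.filter_subset _ _) fun e => hv (e ▸ ht),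
      fun b hb hlt x hx => Finset.mem_filter.2 ⟨hlt.le hx, hb x hx⟩⟩

theorem finite_Ch [Finite P] : Finite (Ch P) := by
  exact Finite.of_injective (fun S : Ch P => S.finset) fun _ _ =>
    PartialOrder.NonemptyFiniteChains.ext

theorem sd2_horn {n : ℕ} (k : Fin (n + 1)) :
    ∃ (Q : Type) (_ : PartialOrder Q) (_ : Finite Q) (A : Set Q), Dw A ∧
      Nonempty (Arrow.mk (SSet.sd.map (SSet.sd.map Λ[n, k].ι)) ≅
        Arrow.mk (NSi (Set.subset_univ A))) := by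
  obtain ⟨i⟩ := sd_horn k
  obtain ⟨A, hA, ⟨j⟩⟩ := sd_NS _ (hornK k).lower
  have := finite_Ch (P := Fin (n + 1))
  exact ⟨_, _, finite_Ch, A, hA, ⟨SSet.sd.mapArrow.mapIso i ≪≫ j⟩⟩

theorem sd2_bd (n : ℕ) : ∃ (Q : Type) (_ : PartialOrder Q) (_ : Finite Q) (A : Set Q), Dw A ∧
    Nonempty (Arrow.mk (SSet.sd.map (SSet.sd.map ∂Δ[n].ι)) ≅
      Arrow.mk (NSi (Set.subset_univ A))) := by
  obtain ⟨i⟩ := sd_bd n
  obtain ⟨A, hA, ⟨j⟩⟩ := sd_NS _ (bdK n).lower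
  have := finite_Ch (P := Fin (n + 1))
  exact ⟨_, _, finite_Ch, A, hA, ⟨SSet.sd.mapArrow.mapIso i ≪≫ j⟩⟩

end Vale.Agent.P213
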