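import Vale.Agent.P213.SKQ

/-! P213: saturation and transfer of the model structure. -/

open CategoryTheory Simplicial MonoidalCategory Opposite Limits CartesianMonoidalCategory

noncomputable section

namespace Vale.Agent.P213

open MorphismProperty

section

variable {D : Type 1} [Category.{0} D] {ι : Type} {A B : ι → D} {X : D}

/-- The universal property of attaching the cells with index in `S`. -/
structure STransAtt (i : ∀ j, A j ⟶ B j) (a : ∀ j, A j ⟶ X) (S : Set ι) {Y : D} (q : X ⟶ Y)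
    (g : ∀ j, j ∈ S → (B j ⟶ Y)) : Prop where
  w : ∀ j hj, a j ≫ q = i j ≫ g j hj
  ex : ∀ (Z : D) (u : X ⟶ Z) (v : ∀ j, j ∈ S → (B j ⟶ Z)), (∀ j hj, a j ≫ u = i j ≫ v j hj) →
    ∃ w : Y ⟶ Z, q ≫ w = u ∧ ∀ j hj, g j hj ≫ w = v j hj
  uq : ∀ (Z : D) (w w' : Y ⟶ Z), q ≫ w = q ≫ w' → (∀ j hj, g j hj ≫ w = g j hj ≫ w') → w = w'

theorem strans_fin [HasPushouts D] (R : MorphismProperty D) [R.IsMultiplicative]
    (i : ∀ j, A j ⟶ B j) (a : ∀ j, A j ⟶ X) (hi : ∀ j, Univ R (i j)) (S : Finset ι) :
    ∃ (Y : D) (q : X ⟶ Y) (g : ∀ j, j ∈ (S : Set ι) → (B j ⟶ Y)), STransAtt i a S q g ∧ R q := by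
  classical
  induction S using Finset.induction_on with
  | empty =>
    refine ⟨X, 𝟙 X, fun j hj => (by simp at hj), ⟨fun j hj => (by simp at hj),
      fun Z u v _ => ⟨u, Category.id_comp _, fun j hj => (by simp at hj)⟩,
      fun Z w w' h _ => (by simpa using h)⟩, R.id_mem _⟩
  | insert k S hk ih =>
    obtain ⟨Y, q, g, h, hq⟩ := ih
    have sq := IsPushout.of_hasPushout (a k ≫ q) (i k)
    generalize pushout.inl (a k ≫ q) (i k) = s at sq
    generalize pushout.inr (a k ≫ q) (i k) = b at sq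
    have hm : ∀ j, j ∈ ((insert k S : Finset ι) : Set ι) → j ∉ (S : Set ι) → j = k :=
      fun j hj hj' => (Finset.mem_insert.1 hj).resolve_right hj'
    have hS : ∀ j, j ∈ (S : Set ι) → j ∈ ((insert k S : Finset ι) : Set ι) :=
      fun j hj => Finset.mem_insert_of_mem hj
    have hk' : k ∈ ((insert k S : Finset ι) : Set ι) := Finset.mem_insert_self _ _
    obtain ⟨g', e1, e2⟩ : ∃ g' : ∀ j, j ∈ ((insert k S : Finset ι) : Set ι) → (B j ⟶ _),
        (∀ j hj, g' j (hS j hj) = g j hj ≫ s) ∧ g' k hk' = b :=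
      ⟨fun j hj => if hj' : j ∈ (S : Set ι) then g j hj' ≫ s
        else eqToHom (congrArg B (hm j hj hj')) ≫ b, fun j hj => dif_pos hj,
        (dif_neg hk).trans (Category.id_comp _)⟩
    refine ⟨_, q ≫ s, g', ⟨fun j hj => ?_, fun Z u v hv => ?_, fun Z w w' h1 h2 => ?_⟩,
      R.comp_mem _ _ hq (hi k _ _ _ _ _ sq)⟩
    · by_cases hj' : j ∈ (S : Set ι)
      · rw [e1 j hj', ← Category.assoc, h.w j hj', Category.assoc]
      · obtain rfl := hm j hj hj'
        rw [e2, ← Category.assoc, sq.w]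
    · obtain ⟨w, hw, hw'⟩ := h.ex Z u (fun j hj => v j (hS j hj)) fun j hj => hv j _
      have e : (a k ≫ q) ≫ w = i k ≫ v k hk' := by rw [Category.assoc, hw, hv k hk']
      refine ⟨sq.desc w (v k hk') e, by rw [Category.assoc, sq.inl_desc, hw], fun j hj => ?_⟩
      by_cases hj' : j ∈ (S : Set ι)
      · rw [e1 j hj', Category.assoc, sq.inl_desc, hw']
      · obtain rfl := hm j hj hj'
        rw [e2, sq.inr_desc]
    · refine sq.hom_ext (h.uq Z _ _ (by simpa only [Category.assoc] using h1) fun j hj => ?_) ?_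
      · have := h2 j (hS j hj)
        rwa [e1 j hj, Category.assoc, Category.assoc] at this
      · have := h2 k hk'
        rwa [e2] at this

theorem strans_att [HasPushouts D] (R : MorphismProperty D) [R.IsMultiplicative]
    (hF : ∀ (J : Type) [SmallCategory J] [IsFiltered J] (F : J ⥤ D) (c : Cocone F)
      (_ : IsColimit c) (X : D) (α : (Functor.const J).obj X ⟶ F) (φ : X ⟶ c.pt),
      (∀ j, R (α.app j)) → (∀ j, α.app j ≫ c.ι.app j = φ) → R φ)
    (i : ∀ j, A j ⟶ B j) (a : ∀ j, A j ⟶ X) (hi : ∀ j, Univ R (i j)) {Y : D} {t : X ⟶ Y}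
    {b : ∀ j, j ∈ (Set.univ : Set ι) → (B j ⟶ Y)} (h : STransAtt i a Set.univ t b) : R t := by
  classical
  choose P q g hP hq using strans_fin R i a hi
  choose m hm hm' using fun (S T : Finset ι) (hST : S ≤ T) =>
    (hP S).ex (P T) (q T) (fun j hj => g T j (hST hj)) fun j hj => (hP T).w j _
  choose l hl hl' using fun S : Finset ι =>
    (hP S).ex Y t (fun j _ => b j (Set.mem_univ j)) fun j _ => h.w j _
  let F : Finset ι ⥤ D :=
    { obj := P
      map := fun {S T} φ => m S T (leOfHom φ)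
      map_id := fun S => (hP S).uq _ _ _ (by rw [hm, Category.comp_id]) fun j hj => by
        rw [hm', Category.comp_id]
      map_comp := fun {S T U} φ ψ => (hP S).uq _ _ _ (by rw [hm, ← Category.assoc, hm, hm])
        fun j hj => by rw [hm', ← Category.assoc, hm', hm'] }
  let c : Cocone F :=
    { pt := Y
      ι := { app := l
             naturality := fun S T φ => (hP S).uq _ _ _
               (by
                 change q S ≫ m S T _ ≫ l T = q S ≫ l S ≫ 𝟙 Y
                 rw [← Category.assoc, hm, hl, Category.comp_id, hl])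
               fun j hj => by
                 change g S j hj ≫ m S T _ ≫ l T = g S j hj ≫ l S ≫ 𝟙 Y
                 rw [← Category.assoc, hm', hl', Category.comp_id, hl'] } }
  have key : ∀ s : Cocone F, ∃ w : Y ⟶ s.pt, ∀ S, l S ≫ w = s.ι.app S := fun s => by
    have hs : ∀ S T (hST : S ≤ T), m S T hST ≫ s.ι.app T = s.ι.app S :=
      fun S T hST => s.w (homOfLE hST)
    have hs1 : ∀ S, q S ≫ s.ι.app S = q ∅ ≫ s.ι.app ∅ := fun S => by
      rw [← hs ∅ S (Finset.empty_subset S), ← Category.assoc, hm]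
    obtain ⟨w, hw, hw'⟩ := h.ex s.pt (q ∅ ≫ s.ι.app ∅)
      (fun j _ => g {j} j (Finset.mem_singleton_self j) ≫ s.ι.app {j}) fun j _ => by
        rw [← hs1 {j}, ← Category.assoc, (hP {j}).w j (Finset.mem_singleton_self j),
          Category.assoc]
    refine ⟨w, fun S => (hP S).uq _ _ _ ?_ fun j hj => ?_⟩
    · rw [← Category.assoc, hl, hw, hs1 S]
    · rw [← Category.assoc, hl', hw', ← hs {j} S (Finset.singleton_subset_iff.2 hj),
        ← Category.assoc, hm']
  choose d hd using key
  have hc : IsColimit c :=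
    { desc := d
      fac := hd
      uniq := fun s w hw => h.uq _ _ _
        (by
          have e : l ∅ ≫ w = s.ι.app ∅ := hw ∅
          rw [← hl ∅, Category.assoc, Category.assoc, hd, e])
        fun j _ => by
          have e : l {j} ≫ w = s.ι.app {j} := hw {j}
          rw [← hl' {j} j (Finset.mem_singleton_self j), Category.assoc, Category.assoc, hd, e] }
  exact hF (Finset ι) F c hc X
    { app := q
      naturality := fun S T φ => (Category.id_comp _).trans (hm S T _).symm } t hq hl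

end

/-- A pushout of a coproduct of maps is the filtered colimit, over finite subsets of the index
set, of finite compositions of pushouts; a composition of shape `ℕ` is a filtered colimit. -/
theorem sat {D : Type 1} [Category.{0} D] [HasColimitsOfSize.{0, 0} D] (I R : MorphismProperty D)
    [R.IsMultiplicative] [R.RespectsIso] (hI : I ≤ Univ R)
    (hF : ∀ (J : Type) [SmallCategory J] [IsFiltered J] (F : J ⥤ D) (c : Cocone F)
      (_ : IsColimit c) (X : D) (α : (Functor.const J).obj X ⟶ F) (φ : X ⟶ c.pt),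
      (∀ j, R (α.app j)) → (∀ j, α.app j ≫ c.ι.app j = φ) → R φ) :
    transfiniteCompositionsOfShape (coproducts.{0} I).pushouts ℕ ≤ R := by
  have h1 : (coproducts.{0} I).pushouts ≤ R := by
    rintro X Y t ⟨_, _, p, a, b, hp, sq⟩
    obtain ⟨J, hp⟩ := (coproducts_iff _ _).1 hp
    obtain ⟨X₁, X₂, c₁, c₂, h₁, h₂, f, hf⟩ := hp
    have e : ∀ j, c₁.ι.app j ≫ h₁.desc (Cocone.mk _ (f ≫ c₂.ι)) = f.app j ≫ c₂.ι.app j :=
      fun j => h₁.fac _ j
    generalize h₁.desc (Cocone.mk _ (f ≫ c₂.ι)) = p at sq e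
    refine strans_att R hF (fun j : J => f.app ⟨j⟩) (fun j => c₁.ι.app ⟨j⟩ ≫ a)
      (fun j => hI _ (hf ⟨j⟩)) (b := fun j _ => c₂.ι.app ⟨j⟩ ≫ b)
      ⟨fun j _ => ?_, fun Z u v hv => ?_, fun Z w w' e1 e2 => ?_⟩
    · rw [Category.assoc, sq.w, ← Category.assoc, e, Category.assoc]
    · have e' : ∀ j, c₂.ι.app j ≫ h₂.desc (Cocone.mk Z (Discrete.natTrans fun j => v j.as trivial))
          = v j.as trivial := fun j => h₂.fac _ j
      generalize h₂.desc (Cocone.mk Z (Discrete.natTrans fun j => v j.as trivial)) = r at e'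
      have e3 : a ≫ u = p ≫ r := h₁.hom_ext fun j => by
        rw [← Category.assoc, ← Category.assoc, e, Category.assoc (f.app j), e']
        exact hv j.as trivial
      exact ⟨sq.desc u r e3, sq.inl_desc _ _ _, fun j _ => by
        rw [Category.assoc, sq.inr_desc, e']⟩
    · exact sq.hom_ext e1 (h₂.hom_ext fun j => by
        simpa only [Category.assoc] using e2 j.as trivial)
  rintro X Y f ⟨h⟩
  have h2 : ∀ n : ℕ, R (h.F.map (homOfLE bot_le : ⊥ ⟶ n)) := fun n => by
    induction n with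
    | zero =>
      have : h.F.map (homOfLE bot_le : (⊥ : ℕ) ⟶ 0) = 𝟙 _ := h.F.map_id _
      rw [this]
      exact R.id_mem _
    | succ n ih =>
      have : h.F.map (homOfLE bot_le : (⊥ : ℕ) ⟶ n + 1) = h.F.map (homOfLE bot_le : ⊥ ⟶ n) ≫
          h.F.map (homOfLE (Order.le_succ n)) := h.F.map_comp _ (homOfLE (Order.le_succ n))
      rw [this]
      exact R.comp_mem _ _ ih (h1 _ (h.map_mem n (not_isMax n)))
  refine hF ℕ h.F (Cocone.mk Y h.incl) h.isColimit X
    { app := fun n => h.isoBot.inv ≫ h.F.map (homOfLE bot_le)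
      naturality := fun n m φ => ?_ } f (fun n => ?_) fun n => ?_
  · refine (Category.id_comp _).trans ?_
    rw [Category.assoc, ← h.F.map_comp]
    rfl
  · exact RespectsIso.precomp _ _ _ (h2 n)
  · refine (Category.assoc _ _ _).trans (Eq.trans ?_ h.fac)
    exact congrArg (h.isoBot.inv ≫ ·) ((Cocone.mk Y h.incl).w (homOfLE bot_le))

/-- Apply `sat` to `R f := WHE (η.app source) → WHE (η.app target)`, with `whe_filtered` and
`SSet.relativeCellComplexOfMono` (see the proof of `SSet.rlp_monomorphisms`). -/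
theorem whe_of_cells {L L' : SSet.{0} ⥤ SSet.{0}} [PreservesFilteredColimitsOfSize.{0, 0} L]
    [PreservesFilteredColimitsOfSize.{0, 0} L'] (η : L ⟶ L') (h0 : WHE (η.app (⊥_ _)))
    (hI : ∀ (n : ℕ) (K K' : SSet.{0}) (f : (∂Δ[n] : SSet.{0}) ⟶ K) (k : K ⟶ K') (g : Δ[n] ⟶ K'),
      IsPushout f ∂Δ[n].ι k g → WHE (η.app K) → WHE (η.app K')) (K : SSet.{0}) :
    WHE (η.app K) := by
  let R : MorphismProperty SSet.{0} := fun X Y _ => WHE (η.app X) → WHE (η.app Y)
  have hiso : ∀ {X Y : SSet.{0}} (e : X ≅ Y), WHE (η.app X) → WHE (η.app Y) := fun e h =>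
    WHE.of_pre (whe_of_isIso (L.map e.hom))
      (by rw [η.naturality]; exact h.comp (whe_of_isIso _))
  have : R.IsMultiplicative :=
    { id_mem := fun _ h => h
      comp_mem := fun _ _ h h' => h' ∘ h }
  have : R.RespectsIso := RespectsIso.mk _ (fun e _ h => h ∘ hiso e) fun e _ h => hiso e ∘ h
  have := whe_filtered
  refine sat II R ?_ ?_ (initial.to K) ⟨(SSet.relativeCellComplexOfMono
    (initial.to K)).transfiniteCompositionOfShape' fun _ => ⟨_⟩⟩ h0
  · rintro _ _ _ ⟨n⟩ X Y f k g sq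
    exact hI n X Y f k g sq
  · intro J _ _ F c hc X α φ h _ hX
    exact IsStableUnderColimitsOfShape.condition (W := WHE) (F ⋙ L) (F ⋙ L') _ _
      (isColimitOfPreserves L hc) (isColimitOfPreserves L' hc) (Functor.whiskerLeft F η)
      (fun j => h j hX) _ fun j => η.naturality _

variable {D : Type 1} [Category.{0} D] {F : SSet.{0} ⥤ D} {G : D ⥤ SSet.{0}}

attribute [local instance] Cardinal.fact_isRegular_aleph0 Cardinal.orderBotAleph0OrdToType

theorem strans_small [HasColimitsOfSize.{0, 0} D] (adj : F ⊣ G)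
    [PreservesFilteredColimitsOfSize.{0, 0} G] {ι : Type} {A B : ι → SSet.{0}}
    (f : ∀ j, A j ⟶ B j) [∀ j, (A j).Finite] :
    (ofHoms fun j => F.map (f j)).IsCardinalForSmallObjectArgument Cardinal.aleph0.{0} where
  preservesColimit {_ _ X Y} i hi g hg := by
    obtain ⟨j⟩ := hi
    have : PreservesColimit hg.F (G ⋙ coyoneda.obj (op (A j))) := inferInstance
    exact preservesColimit_of_natIso (F := G ⋙ coyoneda.obj (op (A j))) _
      ((adj.compCoyonedaIso).app (op (A j))).symm

theorem strans_rlp (adj : F ⊣ G) {ι : Type} {A B : ι → SSet.{0}} (f : ∀ j, A j ⟶ B j) :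
    (ofHoms fun j => F.map (f j)).rlp = (ofHoms f).rlp.inverseImage G := by
  ext X Y p
  constructor
  · rintro h _ _ _ ⟨j⟩
    exact (adj.hasLiftingProperty_iff _ _).1 (h _ ⟨j⟩)
  · rintro h _ _ _ ⟨j⟩
    exact (adj.hasLiftingProperty_iff _ _).2 (h _ ⟨j⟩)

theorem strans_J : JJ = ofHoms fun x : Σ n : ℕ, Fin (n + 2) => Λ[x.1 + 1, x.2].ι := by
  ext X Y p
  simp only [SSet.modelCategoryQuillen.J, iSup_iff]
  constructor
  · rintro ⟨n, ⟨k⟩⟩
    exact ofHoms.mk (⟨n, k⟩ : Σ n : ℕ, Fin (n + 2))
  · rintro ⟨n, k⟩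
    exact ⟨n, ⟨k⟩⟩

/-- The images `FI`, `FJ` of the generators permit the small object argument with `ℵ₀` (sources
are finitely presentable since `G` preserves filtered colimits), `FJ.rlp` and `FI.rlp` are the
fibrations and trivial fibrations (`triv_iff`), and `FJ.rlp.llp` consists of weak equivalences
by `SmallObject.llp_rlp_of_isCardinalForSmallObjectArgument_aleph0`, `sat`, `whe_filtered`. -/
theorem transfer [HasFiniteLimits D] [HasColimitsOfSize.{0, 0} D] (adj : F ⊣ G)
    [PreservesFilteredColimitsOfSize.{0, 0} G]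
    (hJ : ∀ (n : ℕ) (k : Fin (n + 2)), Univ (WHE.inverseImage G) (F.map Λ[n + 1, k].ι)) :
    IsModel (KanFib.inverseImage G ⊓ WHE.inverseImage G).llp (WHE.inverseImage G)
      (KanFib.inverseImage G) := by
  have sI := strans_small adj fun n : ℕ => ∂Δ[n].ι
  have sJ := strans_small adj fun x : Σ n : ℕ, Fin (n + 2) => Λ[x.1 + 1, x.2].ι
  have rI : (ofHoms fun n : ℕ => F.map ∂Δ[n].ι).rlp =
      KanFib.inverseImage G ⊓ WHE.inverseImage G := by
    rw [strans_rlp adj]
    ext X Y p
    exact triv_iff (G.map p)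
  have rJ : (ofHoms fun x : Σ n : ℕ, Fin (n + 2) => F.map Λ[x.1 + 1, x.2].ι).rlp =
      KanFib.inverseImage G := by
    rw [strans_rlp adj, ← strans_J]
    rfl
  have fI := SmallObject.hasFunctorialFactorization (ofHoms fun n : ℕ => F.map ∂Δ[n].ι)
    Cardinal.aleph0.{0}
  have fJ := SmallObject.hasFunctorialFactorization
    (ofHoms fun x : Σ n : ℕ, Fin (n + 2) => F.map Λ[x.1 + 1, x.2].ι) Cardinal.aleph0.{0}
  have hW : (KanFib.inverseImage G).llp ≤ WHE.inverseImage G := by
    rw [← rJ, SmallObject.llp_rlp_of_isCardinalForSmallObjectArgument_aleph0, retracts_le_iff]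
    refine sat _ _ ?_ ?_
    · rintro _ _ _ ⟨n, k⟩
      exact hJ n k
    · intro J _ _ K c hc X α φ h h'
      have := whe_filtered
      have := IsFiltered.isConnected J
      refine IsStableUnderColimitsOfShape.condition (W := WHE) _ (K ⋙ G) _ _
        (isColimitConstCocone J (G.obj X)) (isColimitOfPreserves G hc)
        ((Functor.constComp J X G).inv ≫ Functor.whiskerRight α G) (fun j => ?_) _ fun j => ?_
      · exact (whe_id _).comp (h j)
      · refine (Category.id_comp _).trans (Eq.trans ?_ (Category.assoc _ _ _).symm)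
        refine Eq.trans ?_ (Category.id_comp _).symm
        rw [← h' j]
        exact G.map_comp _ _
  rw [rI] at fI
  rw [rJ] at fJ
  have e1 : (KanFib.inverseImage G ⊓ WHE.inverseImage G).llp ⊓ WHE.inverseImage G =
      (KanFib.inverseImage G).llp := by
    refine le_antisymm (fun X Y f hf => ?_) (le_inf (antitone_llp inf_le_left) hW)
    have h := factorizationData (KanFib.inverseImage G).llp (KanFib.inverseImage G) f
    have := hf.1 h.p ⟨h.hp, WHE.of_pre (hW _ h.hi) (by rw [← G.map_comp, h.fac]; exact hf.2)⟩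
    exact of_retract (RetractArrow.ofLeftLiftingProperty h.fac) h.hi
  let : HomotopicalAlgebra.CategoryWithFibrations D := ⟨KanFib.inverseImage G⟩
  let : HomotopicalAlgebra.CategoryWithCofibrations D :=
    ⟨(KanFib.inverseImage G ⊓ WHE.inverseImage G).llp⟩
  let : HomotopicalAlgebra.CategoryWithWeakEquivalences D := ⟨WHE.inverseImage G⟩
  have : HasFiniteColimits D := hasFiniteColimits_of_hasColimitsOfSize D
  have : (HomotopicalAlgebra.weakEquivalences D).HasTwoOutOfThreeProperty :=
    inferInstanceAs (WHE.inverseImage G).HasTwoOutOfThreeProperty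
  have : IsWeakFactorizationSystem (HomotopicalAlgebra.cofibrations D)
      (HomotopicalAlgebra.trivialFibrations D) := by
    change IsWeakFactorizationSystem (KanFib.inverseImage G ⊓ WHE.inverseImage G).llp
      (KanFib.inverseImage G ⊓ WHE.inverseImage G)
    exact ⟨by rw [← rI, rlp_llp_rlp], rfl, inferInstance⟩
  have : IsWeakFactorizationSystem (HomotopicalAlgebra.trivialCofibrations D)
      (HomotopicalAlgebra.fibrations D) := by
    change IsWeakFactorizationSystem ((KanFib.inverseImage G ⊓ WHE.inverseImage G).llp ⊓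
      WHE.inverseImage G) (KanFib.inverseImage G)
    rw [e1]
    exact ⟨by rw [← rJ, rlp_llp_rlp], rfl, inferInstance⟩
  exact ⟨HomotopicalAlgebra.ModelCategory.mk' D, rfl, rfl, rfl⟩

theorem quillenEquiv (adj : F ⊣ G) (hη : ∀ X, WHE (adj.unit.app X)) :
    IsQuillenEquiv adj (monomorphisms _) WHE (KanFib.inverseImage G ⊓ WHE.inverseImage G).llp
      (WHE.inverseImage G) := by
  refine ⟨fun f hf X Y p hp => ?_, fun {X Y} f _ hf => ?_, fun X Y φ => ?_⟩
  · have : Mono f := hf
    exact (adj.hasLiftingProperty_iff _ _).2 (triv_lift ((triv_iff _).2 hp))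
  · refine WHE.of_pre (hη X) ?_
    have e : adj.unit.app X ≫ G.map (F.map f) = f ≫ adj.unit.app Y := (adj.unit.naturality f).symm
    rw [e]
    exact hf.comp (hη Y)
  · rw [adj.homEquiv_unit]
    exact ⟨fun h => (hη X).comp h, fun h => (hη X).of_pre h⟩

end Vale.Agent.P213
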