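import Vale.Agent.P213.Key
import Vale.Agent.P213.OFilt
import Vale.Agent.P213.STrans
import Vale.Agent.P213.SSd

/-! P213: the final assembly. -/

open CategoryTheory Simplicial MonoidalCategory Opposite Limits CartesianMonoidalCategory

noncomputable section

namespace Vale.Agent.P213

variable {n : ℕ∞} {c : SSet.{0} ⥤ NCat n}

theorem key_pushout (hn : 1 ≤ n) (adj : c ⊣ street n) {A' U' : SSet.{0}} {a : A' ⟶ U'}
    (ha : ∃ (Q : Type) (_ : PartialOrder Q) (_ : Finite Q) (A : Set Q), Dw A ∧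
      Nonempty (Arrow.mk a ≅ Arrow.mk (NSi (Set.subset_univ A)))) {X Y : NCat n}
    {f : c.obj A' ⟶ X} {i : X ⟶ Y} {g : c.obj U' ⟶ Y} (sq : IsPushout f (c.map a) i g) :
    HPO a (adj.homEquiv _ _ f) (adj.homEquiv _ _ g) ((street n).map i) := by
  obtain ⟨Q, _, _, A, hA, ⟨e⟩⟩ := ha
  let e₁ : A' ≅ (NS A : SSet.{0}) := Arrow.leftFunc.mapIso e
  let e₂ : U' ≅ (NS (Set.univ : Set Q) : SSet.{0}) := Arrow.rightFunc.mapIso e
  have w : e₁.hom ≫ NSi (Set.subset_univ A) = a ≫ e₂.hom := e.hom.w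
  have sq' : IsPushout (c.map e₁.inv ≫ f) (c.map (NSi (Set.subset_univ A))) i
      (c.map e₂.inv ≫ g) :=
    sq.of_iso (c.mapIso e₁) (Iso.refl _) (c.mapIso e₂) (Iso.refl _)
      (by simp [← c.map_comp_assoc])
      (by rw [c.mapIso_hom, c.mapIso_hom, ← c.map_comp, ← c.map_comp, w]) (by simp)
      (by simp [← c.map_comp_assoc])
  have h := hpo_of_iso e (key hn hA isLowerSet_univ _ (att_of_isPushout adj _ sq'))
  have h1 : e₁.hom ≫ adj.homEquiv _ _ (c.map e₁.inv ≫ f) = adj.homEquiv _ _ f := by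
    rw [adj.homEquiv_naturality_left, e₁.hom_inv_id_assoc]
  have h2 : e₂.hom ≫ adj.homEquiv _ _ (c.map e₂.inv ≫ g) = adj.homEquiv _ _ g := by
    rw [adj.homEquiv_naturality_left, e₂.hom_inv_id_assoc]
  rw [← h1, ← h2]
  exact h

theorem univ_horn (hn : 1 ≤ n) (adj : c ⊣ street n) (m : ℕ) (k : Fin (m + 2)) :
    Univ (WHE.inverseImage (street n ⋙ SSet.ex ⋙ SSet.ex))
      (((SSet.sd ⋙ SSet.sd) ⋙ c).map Λ[m + 1, k].ι) := fun X Y f i g sq => by
  have ha : Ano (SSet.sd.map (SSet.sd.map Λ[m + 1, k].ι)) :=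
    ano_sd (ano_sd (SSet.anodyneExtensions.horn_ι k))
  have := mono_of_ano ha
  refine (whe_ex_iff _).2 ((whe_ex_iff _).2 (whe_of_hpo (whe_of_ano ha) ?_
    (key_pushout hn adj (sd2_horn k) sq)))
  rw [← adj.homEquiv_naturality_right, ← adj.homEquiv_naturality_left]
  exact congrArg _ sq.w

theorem final_mono_sd2 (m : ℕ) : Mono (SSet.sd.map (SSet.sd.map ∂Δ[m].ι) : _ ⟶ (_ : SSet.{0})) := by
  obtain ⟨Q, _, _, A, -, ⟨e⟩⟩ := sd2_bd m
  exact (MorphismProperty.arrow_mk_iso_iff (MorphismProperty.monomorphisms _) e).2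
    (MorphismProperty.monomorphisms.infer_property _)

theorem whe_unit_sd2 (hn : 1 ≤ n) (adj : c ⊣ street n) (K : SSet.{0}) :
    WHE (adj.unit.app (SSet.sd.obj (SSet.sd.obj K))) := by
  have := street_filtered n
  have := adj.leftAdjoint_preservesColimits.{0, 0}
  have : PreservesColimitsOfSize.{0, 0} SSet.sd.{0} :=
    SSet.sdExAdjunction.leftAdjoint_preservesColimits
  have : PreservesFilteredColimitsOfSize.{0, 0} ((SSet.sd.{0} ⋙ SSet.sd) ⋙ 𝟭 _) :=
    ⟨fun _ _ _ => inferInstance⟩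
  have : PreservesFilteredColimitsOfSize.{0, 0} ((SSet.sd.{0} ⋙ SSet.sd) ⋙ c ⋙ street n) :=
    ⟨fun _ _ _ => inferInstance⟩
  refine whe_of_cells (Functor.whiskerLeft (SSet.sd.{0} ⋙ SSet.sd) adj.unit) ?_
    (fun m K K' f k g sq h => ?_) K
  · have h1 : IsInitial ((SSet.sd.{0} ⋙ SSet.sd).obj (⊥_ _)) :=
      IsInitial.isInitialObj _ _ initialIsInitial
    have h2 : IsInitial (c.obj ((SSet.sd.{0} ⋙ SSet.sd).obj (⊥_ _))) :=
      IsInitial.isInitialObj _ _ h1
    have hS : (c.obj ((SSet.sd.{0} ⋙ SSet.sd).obj (⊥_ _))).obj.Closed ∅ :=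
      ⟨fun _ _ _ h => h, fun _ h _ => h⟩
    have h3 : IsInitial ((street n).obj (c.obj ((SSet.sd.{0} ⋙ SSet.sd).obj (⊥_ _)))) := by
      have he : ∀ m, IsEmpty (((street n).obj (c.obj ((SSet.sd.{0} ⋙ SSet.sd).obj (⊥_ _)))).obj m) :=
        fun m => ⟨fun σ => ((h2.to ⟨OCat.sub hS, IsN.sub hS (ObjectProperty.FullSubcategory.property _)⟩).hom.f
          ((NO.fn (X := (c.obj ((SSet.sd.{0} ⋙ SSet.sd).obj (⊥_ _))).obj) σ).f (vx 0))).2⟩
      exact IsInitial.ofUniqueHom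
        (fun Z => ⟨fun m => TypeCat.ofHom fun σ => (he m).elim σ, fun m _ _ => by
          ext σ
          exact (he m).elim σ⟩) fun Z φ => by
        ext m σ
        exact (he m).elim σ
    exact @whe_of_isIso _ _ _ (isIso_of_isInitial h1 h3 (adj.unit.app _))
  · have := final_mono_sd2 m
    have sq₁ := sq.map (SSet.sd.{0} ⋙ SSet.sd)
    have h₁ := key_pushout hn adj (sd2_bd m) (sq₁.map c)
    rw [adj.homEquiv_unit, adj.homEquiv_unit] at h₁
    exact whe_of_hpo_pushout (a := SSet.sd.map (SSet.sd.map ∂Δ[m].ι)) sq₁ (adj.unit.app _) h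
      ((adj.unit.naturality (SSet.sd.map (SSet.sd.map f))).symm ▸ h₁) _
      (adj.unit.naturality _) (adj.unit.naturality _)

theorem whe_unit_comp (hn : 1 ≤ n) (adj : c ⊣ street n) (K : SSet.{0}) :
    WHE (((SSet.sdExAdjunction.comp SSet.sdExAdjunction).comp adj).unit.app K) := by
  rw [Adjunction.comp_unit_app, Adjunction.comp_unit_app]
  exact ((whe_unit K).comp ((whe_ex_iff _).2 (whe_unit _))).comp
    ((whe_ex_iff _).2 ((whe_ex_iff _).2 (whe_unit_sd2 hn adj K)))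

theorem wn_eq (n : ℕ∞) : Wn n = WHE.inverseImage (street n ⋙ SSet.ex ⋙ SSet.ex) := by
  ext X Y f
  exact ((whe_ex_iff _).trans (whe_ex_iff _)).symm

theorem thomason (hn : 1 ≤ n) : Thomason n := by
  have := street_isRightAdjoint n
  have := hasLimits_NCat n
  have := hasColimits_NCat n
  have := street_filtered n
  have := ex_filtered
  have : PreservesFilteredColimitsOfSize.{0, 0} (street n ⋙ SSet.ex ⋙ SSet.ex) :=
    ⟨fun _ _ _ => inferInstance⟩
  refine ⟨?_, inferInstance, fun c adj => ?_⟩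
  · rw [Cn, wn_eq]
    exact transfer ((SSet.sdExAdjunction.comp SSet.sdExAdjunction).comp
      (Adjunction.ofIsRightAdjoint (street n))) (univ_horn hn (Adjunction.ofIsRightAdjoint _))
  · rw [Cn, wn_eq]
    exact quillenEquiv _ (whe_unit_comp hn adj)

end Vale.Agent.P213
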