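import Vale.Agent.P213.CylD
import Vale.Agent.P213.CylE

/-! P213: the omega-category of cylinders. -/

open CategoryTheory

noncomputable section

namespace Vale.Agent.P213

open OCat

variable {X Y Z : OCat}

/-- The cells of the omega-category of cylinders. -/
abbrev GamC (Z : OCat) : Type := {γ : Cyl Z // γ.Valid ∧ ∃ N, Cyl.d false N γ = γ}

theorem gam_fin {n : ℕ} {α β : GamC Z} (h : Cyl.Cp n α.1 β.1) :
    ∃ N, Cyl.d false N (Cyl.cmp n α.1 β.1) = Cyl.cmp n α.1 β.1 := by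
  obtain ⟨a, ha⟩ := α.2.2
  obtain ⟨b, hb⟩ := β.2.2
  refine ⟨a + b + n + 1, ?_⟩
  rw [Cyl.d_cmp α.2.1 β.2.1 h _ (by omega), ← ha, ← hb, Cyl.d_d_ge _ _ _ (by omega),
    Cyl.d_d_ge _ _ _ (by omega)]

open Classical in
/-- Composition of valid cylinders. -/
def gamCmp (n : ℕ) (α β : GamC Z) : GamC Z :=
  if h : Cyl.Cp n α.1 β.1 then ⟨Cyl.cmp n α.1 β.1, Cyl.valid_cmp α.2.1 β.2.1 h, gam_fin h⟩ else α

theorem gamCmp_val {n : ℕ} {α β : GamC Z} (h : Cyl.Cp n α.1 β.1) :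
    (gamCmp n α β).1 = Cyl.cmp n α.1 β.1 := by
  rw [gamCmp, dif_pos h]

/-- Sources and targets of valid cylinders. -/
def gamD (e : Bool) (n : ℕ) (γ : GamC Z) : GamC Z :=
  ⟨Cyl.d e n γ.1, γ.2.1.d e n, n, Cyl.d_d_ge _ _ _ le_rfl⟩

theorem gamD_val (e : Bool) (n : ℕ) (γ : GamC Z) : (gamD e n γ).1 = Cyl.d e n γ.1 := rfl

theorem cyl_cp_aux {m n : ℕ} {α β γ δ : Cyl Z} (hm : m < n) (h1 : Cyl.Cp n α β)
    (h2 : Cyl.Cp n γ δ) (h3 : Cyl.Cp m α γ) : Cyl.Cp m β δ := by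
  rw [Cyl.Cp, ← Cyl.d_d_lt true false β hm, ← h1, Cyl.d_d_lt _ _ _ hm, h3,
    ← Cyl.d_d_lt false true γ hm, h2, Cyl.d_d_lt _ _ _ hm]

/-- The omega-category of cylinders. -/
abbrev Gam (Z : OCat) : OCat where
  C := GamC Z
  d := gamD
  cmp := gamCmp
  d_d_lt e e' _ _ x h := Subtype.ext (Cyl.d_d_lt e e' _ h)
  d_d_ge e e' _ _ x h := Subtype.ext (Cyl.d_d_ge e e' _ h)
  s_cmp h := by
    have h' := congrArg Subtype.val h
    exact Subtype.ext (by rw [gamD_val, gamCmp_val h', Cyl.s_cmp h', gamD_val])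
  t_cmp h := by
    have h' := congrArg Subtype.val h
    exact Subtype.ext (by rw [gamD_val, gamCmp_val h', Cyl.t_cmp h', gamD_val])
  d_cmp e m n x y hm h := by
    have h' : Cyl.Cp n x.1 y.1 := congrArg Subtype.val h
    refine Subtype.ext ?_
    rw [gamD_val, gamCmp_val h', Cyl.d_cmp x.2.1 y.2.1 h' e hm, gamCmp_val, gamD_val, gamD_val]
    rw [Cyl.Cp, gamD_val, gamD_val, Cyl.d_d_lt _ _ _ hm, Cyl.d_d_lt _ _ _ hm, h']
  id_cmp n x := Subtype.ext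
    ((gamCmp_val (Cyl.d_d_ge true false x.1 le_rfl)).trans (Cyl.id_cmp x.2.1 n))
  cmp_id n x := Subtype.ext
    ((gamCmp_val (Cyl.d_d_ge false true x.1 le_rfl).symm).trans (Cyl.cmp_id x.2.1 n))
  assoc {n x y z} h1 h2 := by
    have h1' : Cyl.Cp n x.1 y.1 := congrArg Subtype.val h1
    have h2' : Cyl.Cp n y.1 z.1 := congrArg Subtype.val h2
    refine Subtype.ext ?_
    rw [gamCmp_val, gamCmp_val (β := gamCmp _ _ _), gamCmp_val h1', gamCmp_val h2',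
      Cyl.cmp_assoc x.2.1 y.2.1 z.2.1 h1' h2']
    · rw [gamCmp_val h2', Cyl.Cp, Cyl.s_cmp h2', h1']
    · rw [gamCmp_val h1', Cyl.Cp, Cyl.t_cmp h1', h2']
  xchg {m n x y z w} hm h1 h2 h3 := by
    have h1' : Cyl.Cp n x.1 y.1 := congrArg Subtype.val h1
    have h2' : Cyl.Cp n z.1 w.1 := congrArg Subtype.val h2
    have h3' : Cyl.Cp m x.1 z.1 := congrArg Subtype.val h3
    have h4' := cyl_cp_aux hm h1' h2' h3'
    refine Subtype.ext ?_
    rw [gamCmp_val, gamCmp_val (α := gamCmp _ _ _) (β := gamCmp _ _ _), gamCmp_val h1',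
      gamCmp_val h2', gamCmp_val h3', gamCmp_val h4', Cyl.xchg hm x.2.1 y.2.1 z.2.1 w.2.1 h1' h2' h3']
    · rw [gamCmp_val h3', gamCmp_val h4', Cyl.Cp, Cyl.d_cmp x.2.1 z.2.1 h3' _ hm,
        Cyl.d_cmp y.2.1 w.2.1 h4' _ hm, h1', h2']
    · rw [gamCmp_val h1', gamCmp_val h2', Cyl.Cp, ← Cyl.d_d_lt true false _ hm, Cyl.s_cmp h1',
        Cyl.d_d_lt _ _ _ hm, h3', ← Cyl.d_d_lt false false (Cyl.cmp n z.1 w.1) hm, Cyl.s_cmp h2',
        Cyl.d_d_lt _ _ _ hm]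
  fin x := x.2.2.imp fun _ h => Subtype.ext h

theorem gam_cp {n : ℕ} {α β : (Gam Z).C} (h : (Gam Z).Cp n α β) : Cyl.Cp n α.1 β.1 :=
  congrArg Subtype.val h

/-- The source of a cylinder. -/
def p0 (Z : OCat) : Gam Z ⟶ Z where
  f γ := γ.1.p
  map_d _ _ _ := rfl
  map_cmp h := congrArg Cyl.p (gamCmp_val (gam_cp h))

/-- The target of a cylinder. -/
def p1 (Z : OCat) : Gam Z ⟶ Z where
  f γ := γ.1.q
  map_d _ _ _ := rfl
  map_cmp h := congrArg Cyl.q (gamCmp_val (gam_cp h))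

/-- Constant cylinders. -/
def gconst (Z : OCat) : Z ⟶ Gam Z where
  f y := ⟨Cyl.const y, Cyl.valid_const y, (Z.fin y).imp fun N h => by rw [← Cyl.const_d, h]⟩
  map_d e n y := Subtype.ext (Cyl.const_d e n y)
  map_cmp {n x y} h := Subtype.ext (by
    refine Eq.trans ?_ (gamCmp_val ?_).symm
    · exact Cyl.const_cmp h
    · rw [Cyl.Cp, ← Cyl.const_d, ← Cyl.const_d, h])

/-- Functoriality of cylinders. -/
def gmap (F : Y ⟶ Z) : Gam Y ⟶ Gam Z where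
  f γ := ⟨γ.1.map F.f, Cyl.valid_map F.pf γ.2.1 γ.1.in_univ, γ.2.2.imp fun N h => by
    rw [← Cyl.map_d F.pf γ.1.in_univ, h]⟩
  map_d e n γ := Subtype.ext (Cyl.map_d F.pf γ.1.in_univ e n)
  map_cmp {n α β} h := Subtype.ext (by
    have h' := gam_cp h
    refine Eq.trans ?_ (gamCmp_val ?_).symm
    · change (gamCmp n α β).1.map F.f = _
      rw [gamCmp_val h', Cyl.map_cmp α.2.1 β.2.1 h' F.pf α.1.in_univ β.1.in_univ]
    · rw [Cyl.Cp, ← Cyl.map_d F.pf α.1.in_univ, ← Cyl.map_d F.pf β.1.in_univ, h'])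

theorem gconst_p0 (Z : OCat) : gconst Z ≫ p0 Z = 𝟙 Z := rfl

theorem gconst_p1 (Z : OCat) : gconst Z ≫ p1 Z = 𝟙 Z := rfl

theorem gmap_p0 (F : Y ⟶ Z) : gmap F ≫ p0 Z = p0 Y ≫ F := rfl

theorem gmap_p1 (F : Y ⟶ Z) : gmap F ≫ p1 Z = p1 Y ≫ F := rfl

theorem gmap_comp (F : X ⟶ Y) (G : Y ⟶ Z) : gmap (F ≫ G) = gmap F ≫ gmap G := rfl

theorem gconst_gmap (F : Y ⟶ Z) : gconst Y ≫ gmap F = F ≫ gconst Z :=
  ohom_ext fun y => Subtype.ext
    (Cyl.ext rfl rfl (funext fun i => funext fun e => F.map_d e i y))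

theorem IsN.gam {n : ℕ∞} (h : IsN n Z) : IsN n (Gam Z) := by
  induction n using ENat.recTopCoe with
  | top => exact isN_top _
  | coe n => exact isN_coe.2 fun γ => Subtype.ext (Cyl.d_eq_of_dim γ.2.1 (isN_coe.1 h))

end Vale.Agent.P213
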