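import Vale.Agent.P213.Base

/-! P213: the key lemma. -/

open CategoryTheory Simplicial MonoidalCategory Opposite Limits CartesianMonoidalCategory

noncomputable section

namespace Vale.Agent.P213

open OCat

theorem key_NO_inj {X Y : OCat} {F : X ⟶ Y} (hF : Function.Injective F.f)
    (m : SimplexCategoryᵒᵖ) : Function.Injective ((NO.map F).app m) :=
  fun x y h => cancel_inj (F := NO.fn x) (G := NO.fn y) hF h

theorem key_NO_mono {X Y : OCat} {F : X ⟶ Y} (hF : Function.Injective F.f) : Mono (NO.map F) :=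
  (NatTrans.mono_iff_mono_app _).2 fun m => (mono_iff_injective _).2 (key_NO_inj hF m)

/-- A simplex `σ` lies in the nerve of the sieve of `L` as soon as the label of its last vertex is
in `L` (`lab_eq_vx`, `lab_vx_mono`); use `isPushout_of_levelwise`, `subLift`. -/
theorem isPushout_NO_sub {T : Type} [Preorder T] {Q : OCat} (l : Q ⟶ posCat T) {L₀ L₁ L₂ : Set T}
    (h₀ : IsLowerSet L₀) (h₁ : IsLowerSet L₁) (h₂ : IsLowerSet L₂)
    (hI : ∀ t, t ∈ L₁ → t ∈ L₂ → t ∈ L₀) (hU : ∀ z, lab l z ∈ L₁ ∨ lab l z ∈ L₂)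
    (c₁ : sub (closed_lab l h₀) ⟶ sub (closed_lab l h₁))
    (c₂ : sub (closed_lab l h₀) ⟶ sub (closed_lab l h₂)) (e₁ : c₁ ≫ subι _ = subι _)
    (e₂ : c₂ ≫ subι _ = subι _) :
    IsPushout (NO.map c₁) (NO.map c₂) (NO.map (subι _)) (NO.map (subι _)) := by
  refine isPushout_of_levelwise _ _ _ _ (by rw [← NO.map_comp, ← NO.map_comp, e₁, e₂])
    (key_NO_inj (subι_inj _)) (key_NO_inj (subι_inj _)) (fun m σ => ?_) fun m x y h => ?_
  · have key : ∀ x, lab l ((NO.fn σ).f x) ≤ lab l ((NO.fn σ).f (vx (Fin.last _))) := fun x =>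
      (lab_eq_vx (NO.fn σ ≫ l) x).trans_le (lab_vx_mono (NO.fn σ ≫ l) (Fin.le_last _))
    rcases hU ((NO.fn σ).f (vx (Fin.last _))) with h | h
    · exact Or.inl ⟨subLift (closed_lab l h₁) (NO.fn σ) fun x => h₁ (key x) h, rfl⟩
    · exact Or.inr ⟨subLift (closed_lab l h₂) (NO.fn σ) fun x => h₂ (key x) h, rfl⟩
  · have e : NO.fn x ≫ subι _ = NO.fn y ≫ subι _ := h
    have e' : ∀ t, ((NO.fn x).f t).1 = ((NO.fn y).f t).1 := fun t =>
      congrArg (fun F => OHom.f F t) e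
    obtain ⟨z, hz⟩ : ∃ z : nu (spx (Fin (m.unop.len + 1))) ⟶ sub (closed_lab l h₀),
        z ≫ subι _ = NO.fn x ≫ subι _ := ⟨subLift (closed_lab l h₀) (NO.fn x ≫ subι _) fun t =>
      hI _ ((NO.fn x).f t).2 ((congrArg (fun z => lab l z ∈ L₂) (e' t)).mpr ((NO.fn y).f t).2), rfl⟩
    exact ⟨z, cancel_inj (F := z ≫ c₁) (G := NO.fn x) (subι_inj _) (by rw [Category.assoc, e₁, hz]),
      cancel_inj (F := z ≫ c₂) (G := NO.fn y) (subι_inj _) (by rw [Category.assoc, e₂, hz, e])⟩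

variable {P : Type} [PartialOrder P] {n : ℕ∞} {A : Set P} {X : OCat}
  {fs : (NS A : SSet.{0}) ⟶ NO.obj X}

/-- The Mayer-Vietoris step: `Att.restrict` three times, `isPushout_NS`, `isPushout_NO_sub`,
`hpo_mv`. -/
theorem hpo_union (hn : 1 ≤ n) (hA : IsLowerSet A) {B₁ B₂ : Set P} (hB₁ : IsLowerSet B₁)
    (hB₂ : IsLowerSet B₂) (h₀ : A ⊆ B₁ ∩ B₂) (h₁ : A ⊆ B₁) (h₂ : A ⊆ B₂) (h : A ⊆ B₁ ∪ B₂)
    (ih₀ : ∀ (Q : OCat) (i : X ⟶ Q) g, Att n h₀ fs i g → HPO (NSi h₀) fs g (NO.map i))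
    (ih₁ : ∀ (Q : OCat) (i : X ⟶ Q) g, Att n h₁ fs i g → HPO (NSi h₁) fs g (NO.map i))
    (ih₂ : ∀ (Q : OCat) (i : X ⟶ Q) g, Att n h₂ fs i g → HPO (NSi h₂) fs g (NO.map i))
    {Q : OCat} {i : X ⟶ Q} {g : (NS (B₁ ∪ B₂) : SSet.{0}) ⟶ NO.obj Q} (att : Att n h fs i g) :
    HPO (NSi h) fs g (NO.map i) := by
  obtain ⟨l, hl⟩ := att.exists_lab hn hA
  have hB₀ := hB₁.inter hB₂
  obtain ⟨i₀, g₀, a₀, b₀, t₀⟩ := att.restrict hn hl hB₀ h₀
    (Set.inter_subset_left.trans Set.subset_union_left)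
  obtain ⟨i₁, g₁, a₁, b₁, t₁⟩ := att.restrict hn hl hB₁ h₁ Set.subset_union_left
  obtain ⟨i₂, g₂, a₂, b₂, t₂⟩ := att.restrict hn hl hB₂ h₂ Set.subset_union_right
  obtain ⟨c₁, e₁⟩ : ∃ c : sub (closed_lab l (isLowerSet_lowL hB₀)) ⟶
      sub (closed_lab l (isLowerSet_lowL hB₁)), c ≫ subι _ = subι _ :=
    ⟨subLift _ (subι _) fun z b e => (z.2 b e).1, rfl⟩
  obtain ⟨c₂, e₂⟩ : ∃ c : sub (closed_lab l (isLowerSet_lowL hB₀)) ⟶
      sub (closed_lab l (isLowerSet_lowL hB₂)), c ≫ subι _ = subι _ :=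
    ⟨subLift _ (subι _) fun z b e => (z.2 b e).2, rfl⟩
  have hU : ∀ z, lab l z ∈ lowL B₁ ∨ lab l z ∈ lowL B₂ := fun z => by
    have h3 : lab l z ∈ lowL (B₁ ∪ B₂) :=
      att.gen (closed_lab l (isLowerSet_lowL (hB₁.union hB₂)))
        (fun x => by
          change lab l _ ∈ lowL (B₁ ∪ B₂)
          rw [hl.hi]
          exact bot_mem_lowL _)
        (fun m σ x => by
          change lab l _ ∈ lowL (B₁ ∪ B₂)
          rw [hl.hg, lb_mem_lowL h]
          exact σ.2 _) z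
    generalize lab l z = t at h3
    induction t using WithBot.recBotCoe with
    | bot => exact Or.inl (bot_mem_lowL _)
    | coe b => exact (coe_mem_lowL.1 h3).imp coe_mem_lowL.2 coe_mem_lowL.2
  have sT := isPushout_NO_sub l (isLowerSet_lowL hB₀) (isLowerSet_lowL hB₁) (isLowerSet_lowL hB₂)
    (fun t k1 k2 b e => ⟨k1 b e, k2 b e⟩) hU c₁ c₂ e₁ e₂
  have m₁ := key_NO_mono (subι_inj (closed_lab l (isLowerSet_lowL hB₁)))
  have m₂ := key_NO_mono (subι_inj (closed_lab l (isLowerSet_lowL hB₂)))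
  have m₃ : Mono (NO.map c₂) := key_NO_mono (Function.Injective.of_comp (f := (subι _).f)
    (show Function.Injective (c₂ ≫ subι _).f from e₂ ▸ subι_inj _))
  have d₁ : i₀ ≫ c₁ = i₁ := cancel_inj (subι_inj _) (by rw [Category.assoc, e₁, a₀, a₁])
  have d₂ : i₀ ≫ c₂ = i₂ := cancel_inj (subι_inj _) (by rw [Category.assoc, e₂, a₀, a₂])
  have H := hpo_mv (a₀ := NSi h₀) (f := fs) (g := g) (i₀ := NO.map i₀) (g₀ := g₀) (g₁ := g₁)
    (g₂ := g₂) (isPushout_NS hB₁ hB₂) sT t₀.w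
    ((cancel_mono (NO.map (subι _))).1 (by
      rw [Category.assoc, Category.assoc, ← NO.map_comp, e₁, b₀, b₁]
      rfl))
    ((cancel_mono (NO.map (subι _))).1 (by
      rw [Category.assoc, Category.assoc, ← NO.map_comp, e₂, b₀, b₂]
      rfl))
    b₁ b₂ (ih₀ _ _ _ t₀) (by rw [← NO.map_comp, d₁]; exact ih₁ _ _ _ t₁)
    (by rw [← NO.map_comp, d₂]; exact ih₂ _ _ _ t₂)
  rw [← NO.map_comp, ← NO.map_comp, e₁, a₀] at H
  exact H

/-- Strong induction on the number of elements of `B`. If `B ⊆ A` use `hpo_base_eq`. Otherwise take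
`v` maximal in `B \ A` (then maximal in `B`). If all elements of `B \ A` are `≤ v` use
`hpo_base_top`. Otherwise there is another maximal element `v'` of `B \ A`, and
`B = (B \ {v}) ∪ (B \ {v'})`. -/
theorem key [Finite P] (hn : 1 ≤ n) (hA : Dw A) {B : Set P} (hB : IsLowerSet B) (h : A ⊆ B)
    {Q : OCat} {i : X ⟶ Q} {g : (NS B : SSet.{0}) ⟶ NO.obj Q} (att : Att n h fs i g) :
    HPO (NSi h) fs g (NO.map i) := by
  induction hk : B.ncard using Nat.strong_induction_on generalizing B Q with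
  | _ k ih =>
  by_cases h1 : B ⊆ A
  · exact hpo_base_eq att h1
  obtain ⟨b, hb⟩ := Set.not_subset.1 h1
  obtain ⟨v, -, hv⟩ := (Set.toFinite (B \ A)).exists_le_maximal (show b ∈ B \ A from hb)
  by_cases h2 : ∀ b ∈ B, b ∉ A → b ≤ v
  · exact hpo_base_top hn hA hv.1.1 hv.1.2 h2 att
  push Not at h2
  obtain ⟨b', hb1, hb2, hb3⟩ := h2
  obtain ⟨v', h3, hv'⟩ := (Set.toFinite (B \ A)).exists_le_maximal
    (show b' ∈ B \ A from ⟨hb1, hb2⟩)
  have hne : v ≠ v' := fun e => hb3 (e ▸ h3)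
  have low : ∀ u, Maximal (· ∈ B \ A) u → IsLowerSet (B \ {u}) := fun u hu x y hxy hx => by
    refine ⟨hB hxy hx.1, ?_⟩
    rintro rfl
    exact hx.2 (le_antisymm (hu.2 ⟨hx.1, fun ha => hu.1.2 (hA.lower hxy ha)⟩ hxy) hxy)
  have sub : ∀ u, Maximal (· ∈ B \ A) u → A ⊆ B \ {u} := fun u hu x hx =>
    ⟨h hx, by rintro rfl; exact hu.1.2 hx⟩
  have lt : ∀ u, Maximal (· ∈ B \ A) u → ∀ C, C ⊆ B \ {u} → C.ncard < k := fun u hu C hC =>
    hk ▸ Set.ncard_lt_ncard ⟨hC.trans Set.sdiff_subset, fun h4 => (hC (h4 hu.1.1)).2 rfl⟩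
  have e : B = (B \ {v}) ∪ (B \ {v'}) := by
    refine Set.Subset.antisymm (fun x hx => ?_)
      (Set.union_subset Set.sdiff_subset Set.sdiff_subset)
    by_cases h4 : x = v
    · exact Or.inr ⟨hx, fun h5 => hne (h4.symm.trans h5)⟩
    · exact Or.inl ⟨hx, h4⟩
  have l1 := low v hv
  have l2 := low v' hv'
  have s1 := sub v hv
  have s2 := sub v' hv'
  have c0 := lt v hv _ (Set.inter_subset_left (t := B \ {v'}))
  have c1 := lt v hv _ subset_rfl
  have c2 := lt v' hv' _ subset_rfl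
  generalize B \ {v} = B₁ at e l1 s1 c0 c1
  generalize B \ {v'} = B₂ at e l2 s2 c0 c2
  subst e
  exact hpo_union hn hA.lower l1 l2 (Set.subset_inter s1 s2) s1 s2 h
    (fun Q i g a => ih _ c0 (l1.inter l2) _ a rfl) (fun Q i g a => ih _ c1 l1 _ a rfl)
    (fun Q i g a => ih _ c2 l2 _ a rfl) att

end Vale.Agent.P213
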