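import Vale.Agent.P213.Defs

/-! P213: basic algebra and constructions of strict omega-categories. -/

open CategoryTheory

noncomputable section

namespace Vale.Agent.P213

namespace OCat

variable (Z : OCat)

/-- Composability along an `n`-cell. -/
abbrev Cp (n : ℕ) (x y : Z.C) : Prop := Z.d true n x = Z.d false n y

/-- The cell has dimension at most `n`. -/
abbrev Dim (n : ℕ) (x : Z.C) : Prop := Z.d false n x = x

variable {Z}

theorem d_d (e e' : Bool) (n : ℕ) (x : Z.C) : Z.d e n (Z.d e' n x) = Z.d e' n x :=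
  Z.d_d_ge e e' x le_rfl

theorem Dim.d {n m : ℕ} {x : Z.C} (h : Z.Dim n x) (e : Bool) (hm : n ≤ m) : Z.d e m x = x := by
  rw [← h, Z.d_d_ge _ _ _ hm]

theorem Dim.mono {n m : ℕ} {x : Z.C} (h : Z.Dim n x) (hm : n ≤ m) : Z.Dim m x := h.d false hm

theorem dim_d (e : Bool) {n m : ℕ} (x : Z.C) (hm : n ≤ m) : Z.Dim m (Z.d e n x) :=
  Z.d_d_ge _ _ _ hm

theorem Dim.of_d {n : ℕ} {x : Z.C} {e : Bool} (h : Z.d e n x = x) : Z.Dim n x :=
  h ▸ dim_d e x le_rfl

theorem Dim.d_dim {n : ℕ} {x : Z.C} (h : Z.Dim n x) (e : Bool) (m : ℕ) : Z.Dim n (Z.d e m x) := by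
  rcases le_total m n with hm | hm
  · exact dim_d e x hm
  · rw [h.d e hm]
    exact h

theorem Cp.lt {n m : ℕ} {x y : Z.C} (h : Z.Cp n x y) (e : Bool) (hm : m < n) :
    Z.d e m x = Z.d e m y := by
  rw [← Z.d_d_lt e true x hm, h, Z.d_d_lt _ _ _ hm]

theorem cmp_lt (e : Bool) {n m : ℕ} {x y : Z.C} (hm : m < n) (h : Z.Cp n x y) :
    Z.d e m (Z.cmp n x y) = Z.d e m x := by
  rw [← Z.d_d_lt e false _ hm, Z.s_cmp h, Z.d_d_lt _ _ _ hm]

theorem cmp_lt' (e : Bool) {n m : ℕ} {x y : Z.C} (hm : m < n) (h : Z.Cp n x y) :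
    Z.d e m (Z.cmp n x y) = Z.d e m y := (cmp_lt e hm h).trans (h.lt e hm)

theorem s_cmp_le {n m : ℕ} {x y : Z.C} (hm : m ≤ n) (h : Z.Cp n x y) :
    Z.d false m (Z.cmp n x y) = Z.d false m x := by
  rcases hm.lt_or_eq with hm | rfl
  · exact cmp_lt _ hm h
  · exact Z.s_cmp h

theorem t_cmp_le {n m : ℕ} {x y : Z.C} (hm : m ≤ n) (h : Z.Cp n x y) :
    Z.d true m (Z.cmp n x y) = Z.d true m y := by
  rcases hm.lt_or_eq with hm | rfl
  · exact cmp_lt' _ hm h
  · exact Z.t_cmp h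

theorem Cp.d {n m : ℕ} {x y : Z.C} (h : Z.Cp n x y) (e e' : Bool) (hm : n < m) :
    Z.Cp n (Z.d e m x) (Z.d e' m y) := by
  rw [Cp, Z.d_d_lt _ _ _ hm, Z.d_d_lt _ _ _ hm, h]

theorem Cp.d_left {n m : ℕ} {x y : Z.C} (h : Z.Cp n x y) (e : Bool) (hm : n < m) :
    Z.Cp n (Z.d e m x) y := by
  rw [Cp, Z.d_d_lt _ _ _ hm, h]

theorem Cp.d_right {n m : ℕ} {x y : Z.C} (h : Z.Cp n x y) (e : Bool) (hm : n < m) :
    Z.Cp n x (Z.d e m y) := by
  rw [Cp, Z.d_d_lt _ _ _ hm, h]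

theorem Cp.cmp_left {n : ℕ} {x y z : Z.C} (h : Z.Cp n x y) (h' : Z.Cp n y z) :
    Z.Cp n (Z.cmp n x y) z := (Z.t_cmp h).trans h'

theorem Cp.cmp_right {n : ℕ} {x y z : Z.C} (h : Z.Cp n x y) (h' : Z.Cp n y z) :
    Z.Cp n x (Z.cmp n y z) := h.trans (Z.s_cmp h').symm

theorem id_cmp' {n : ℕ} {u x : Z.C} (h : Z.d false n x = u) : Z.cmp n u x = x :=
  h ▸ Z.id_cmp n x

theorem cmp_id' {n : ℕ} {u x : Z.C} (h : Z.d true n x = u) : Z.cmp n x u = x :=
  h ▸ Z.cmp_id n x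

theorem Dim.cp_self {n m : ℕ} {x : Z.C} (h : Z.Dim n x) (hm : n ≤ m) : Z.Cp m x x :=
  (h.d true hm).trans (h.d false hm).symm

theorem Dim.cmp_self {n m : ℕ} {x : Z.C} (h : Z.Dim n x) (hm : n ≤ m) : Z.cmp m x x = x :=
  id_cmp' (h.d false hm)

theorem Dim.cmp_left {n : ℕ} {u x : Z.C} (hu : Z.Dim n u) (h : Z.Cp n u x) : Z.cmp n u x = x :=
  id_cmp' (h.symm.trans (hu.d true le_rfl))

theorem Dim.cmp_right {n : ℕ} {u x : Z.C} (hu : Z.Dim n u) (h : Z.Cp n x u) : Z.cmp n x u = x :=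
  cmp_id' (h.trans hu)

theorem Dim.cmp {n k : ℕ} {x y : Z.C} (hx : Z.Dim n x) (hy : Z.Dim n y) (h : Z.Cp k x y) :
    Z.Dim n (Z.cmp k x y) := by
  rcases lt_or_ge k n with hk | hk
  · rw [Dim, Z.d_cmp _ hk h, hx, hy]
  · rw [(hx.mono hk).cmp_left h]
    exact hy

/-- The fourth composability condition in the interchange law. -/
theorem Cp.xchg_aux {m n : ℕ} {x y z w : Z.C} (hm : m < n) (h1 : Z.Cp n x y) (h2 : Z.Cp n z w)
    (h3 : Z.Cp m x z) : Z.Cp m y w := by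
  rw [Cp, ← h1.lt _ hm, ← h2.lt _ hm, h3]

theorem Cp.xchg_out {m n : ℕ} {x y z w : Z.C} (hm : m < n) (h1 : Z.Cp n x y) (h2 : Z.Cp n z w)
    (h3 : Z.Cp m x z) : Z.Cp n (Z.cmp m x z) (Z.cmp m y w) := by
  rw [Cp, Z.d_cmp _ hm h3, Z.d_cmp _ hm (Cp.xchg_aux hm h1 h2 h3), h1, h2]

theorem Cp.xchg_in {m n : ℕ} {x y z w : Z.C} (hm : m < n) (h1 : Z.Cp n x y) (h2 : Z.Cp n z w)
    (h3 : Z.Cp m x z) : Z.Cp m (Z.cmp n x y) (Z.cmp n z w) := by
  rw [Cp, cmp_lt _ hm h1, cmp_lt _ hm h2, h3]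

/-- Whiskering on the left distributes. -/
theorem distL {m n : ℕ} {u x y : Z.C} (hm : m < n) (hu : Z.Dim n u) (h : Z.Cp n x y)
    (h' : Z.Cp m u x) : Z.cmp m u (Z.cmp n x y) = Z.cmp n (Z.cmp m u x) (Z.cmp m u y) := by
  rw [← Z.xchg hm (hu.cp_self le_rfl) h h', hu.cmp_self le_rfl]

/-- Whiskering on the right distributes. -/
theorem distR {m n : ℕ} {u x y : Z.C} (hm : m < n) (hu : Z.Dim n u) (h : Z.Cp n x y)
    (h' : Z.Cp m x u) : Z.cmp m (Z.cmp n x y) u = Z.cmp n (Z.cmp m x u) (Z.cmp m y u) := by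
  rw [← Z.xchg hm h (hu.cp_self le_rfl) h', hu.cmp_self le_rfl]

theorem wh₁ {m n : ℕ} {x y : Z.C} (hm : m < n) (h : Z.Cp m x y) :
    Z.cmp n (Z.cmp m x (Z.d false n y)) (Z.cmp m (Z.d true n x) y) = Z.cmp m x y := by
  rw [← Z.xchg hm (d_d false true n x).symm (d_d true false n y) (h.d_right _ hm), Z.cmp_id,
    Z.id_cmp]

theorem wh₂ {m n : ℕ} {x y : Z.C} (hm : m < n) (h : Z.Cp m x y) :
    Z.cmp n (Z.cmp m (Z.d false n x) y) (Z.cmp m x (Z.d true n y)) = Z.cmp m x y := by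
  rw [← Z.xchg hm (d_d true false n x) (d_d false true n y).symm (h.d_left _ hm), Z.cmp_id,
    Z.id_cmp]

variable (Z)

/-- The shift: all cells of dimension at most `1` become objects. -/
abbrev up : OCat where
  C := Z.C
  d e n := Z.d e (n + 1)
  cmp n := Z.cmp (n + 1)
  d_d_lt e e' _ _ x h := Z.d_d_lt e e' x (Nat.succ_lt_succ h)
  d_d_ge e e' _ _ x h := Z.d_d_ge e e' x (Nat.succ_le_succ h)
  s_cmp := Z.s_cmp
  t_cmp := Z.t_cmp
  d_cmp e _ _ _ _ h := Z.d_cmp e (Nat.succ_lt_succ h)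
  id_cmp n := Z.id_cmp (n + 1)
  cmp_id n := Z.cmp_id (n + 1)
  assoc := Z.assoc
  xchg h := Z.xchg (Nat.succ_lt_succ h)
  fin x := (Z.fin x).imp fun _ h => Dim.mono h (Nat.le_succ _)

/-- The product of a family. Cells are families of bounded dimension. -/
abbrev pi {I : Type} (Y : I → OCat) : OCat where
  C := {x : ∀ i, (Y i).C // ∃ n, ∀ i, (Y i).Dim n (x i)}
  d e n x := ⟨fun i => (Y i).d e n (x.1 i), n, fun _ => dim_d _ _ le_rfl⟩
  cmp n x y := by
    classical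
    exact if h : ∀ i, (Y i).Cp n (x.1 i) (y.1 i) then ⟨fun i => (Y i).cmp n (x.1 i) (y.1 i), by
      obtain ⟨a, ha⟩ := x.2
      obtain ⟨b, hb⟩ := y.2
      exact ⟨a + b, fun i => ((ha i).mono (by omega)).cmp ((hb i).mono (by omega)) (h i)⟩⟩ else x
  d_d_lt e e' _ _ x h := Subtype.ext (funext fun i => (Y i).d_d_lt e e' _ h)
  d_d_ge e e' _ _ x h := Subtype.ext (funext fun i => (Y i).d_d_ge e e' _ h)
  s_cmp h := by
    have h' := fun i => congrFun (congrArg Subtype.val h) i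
    rw [dif_pos h']
    exact Subtype.ext (funext fun i => (Y i).s_cmp (h' i))
  t_cmp h := by
    have h' := fun i => congrFun (congrArg Subtype.val h) i
    rw [dif_pos h']
    exact Subtype.ext (funext fun i => (Y i).t_cmp (h' i))
  d_cmp e _ _ _ _ hm h := by
    have h' := fun i => congrFun (congrArg Subtype.val h) i
    rw [dif_pos h', dif_pos fun i => Cp.d (h' i) e e hm]
    exact Subtype.ext (funext fun i => (Y i).d_cmp e hm (h' i))
  id_cmp n x := by
    rw [dif_pos fun i => d_d true false n (x.1 i)]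
    exact Subtype.ext (funext fun i => (Y i).id_cmp n _)
  cmp_id n x := by
    rw [dif_pos fun i => (d_d false true n (x.1 i)).symm]
    exact Subtype.ext (funext fun i => (Y i).cmp_id n _)
  assoc h1 h2 := by
    have h1' := fun i => congrFun (congrArg Subtype.val h1) i
    have h2' := fun i => congrFun (congrArg Subtype.val h2) i
    rw [dif_pos h1', dif_pos h2', dif_pos fun i => Cp.cmp_left (h1' i) (h2' i),
      dif_pos fun i => Cp.cmp_right (h1' i) (h2' i)]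
    exact Subtype.ext (funext fun i => (Y i).assoc (h1' i) (h2' i))
  xchg hm h1 h2 h3 := by
    have h1' := fun i => congrFun (congrArg Subtype.val h1) i
    have h2' := fun i => congrFun (congrArg Subtype.val h2) i
    have h3' := fun i => congrFun (congrArg Subtype.val h3) i
    rw [dif_pos h1', dif_pos h2', dif_pos h3',
      dif_pos fun i => Cp.xchg_aux hm (h1' i) (h2' i) (h3' i),
      dif_pos fun i => Cp.xchg_in hm (h1' i) (h2' i) (h3' i),
      dif_pos fun i => Cp.xchg_out hm (h1' i) (h2' i) (h3' i)]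
    exact Subtype.ext (funext fun i => (Y i).xchg hm (h1' i) (h2' i) (h3' i))
  fin x := x.2.imp fun _ h => Subtype.ext (funext h)

/-- The binary product. -/
abbrev prod (Y : OCat) : OCat where
  C := Z.C × Y.C
  d e n x := (Z.d e n x.1, Y.d e n x.2)
  cmp n x y := (Z.cmp n x.1 y.1, Y.cmp n x.2 y.2)
  d_d_lt e e' _ _ x h := Prod.ext (Z.d_d_lt e e' _ h) (Y.d_d_lt e e' _ h)
  d_d_ge e e' _ _ x h := Prod.ext (Z.d_d_ge e e' _ h) (Y.d_d_ge e e' _ h)
  s_cmp h := Prod.ext (Z.s_cmp (congrArg Prod.fst h)) (Y.s_cmp (congrArg Prod.snd h))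
  t_cmp h := Prod.ext (Z.t_cmp (congrArg Prod.fst h)) (Y.t_cmp (congrArg Prod.snd h))
  d_cmp e _ _ _ _ hm h :=
    Prod.ext (Z.d_cmp e hm (congrArg Prod.fst h)) (Y.d_cmp e hm (congrArg Prod.snd h))
  id_cmp n x := Prod.ext (Z.id_cmp n _) (Y.id_cmp n _)
  cmp_id n x := Prod.ext (Z.cmp_id n _) (Y.cmp_id n _)
  assoc h1 h2 := Prod.ext (Z.assoc (congrArg Prod.fst h1) (congrArg Prod.fst h2))
    (Y.assoc (congrArg Prod.snd h1) (congrArg Prod.snd h2))
  xchg hm h1 h2 h3 :=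
    Prod.ext (Z.xchg hm (congrArg Prod.fst h1) (congrArg Prod.fst h2) (congrArg Prod.fst h3))
      (Y.xchg hm (congrArg Prod.snd h1) (congrArg Prod.snd h2) (congrArg Prod.snd h3))
  fin x := by
    obtain ⟨a, ha⟩ := Z.fin x.1
    obtain ⟨b, hb⟩ := Y.fin x.2
    exact ⟨a + b, Prod.ext (Dim.mono ha (by omega)) (Dim.mono hb (by omega))⟩

/-- A set of cells closed under the operations. -/
structure Closed (S : Set Z.C) : Prop where
  d : ∀ (e : Bool) (n : ℕ) {x : Z.C}, x ∈ S → Z.d e n x ∈ S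
  cmp : ∀ {n : ℕ} {x y : Z.C}, Z.Cp n x y → x ∈ S → y ∈ S → Z.cmp n x y ∈ S

variable {Z}

open Classical in
/-- Composition in a closed set of cells. -/
def Closed.cmpS {S : Set Z.C} (hS : Z.Closed S) (n : ℕ) (x y : S) : S :=
  if h : Z.Cp n x.1 y.1 then ⟨Z.cmp n x.1 y.1, hS.cmp h x.2 y.2⟩ else x

theorem Closed.cmpS_val {S : Set Z.C} (hS : Z.Closed S) {n : ℕ} {x y : S} (h : Z.Cp n x.1 y.1) :
    (hS.cmpS n x y).1 = Z.cmp n x.1 y.1 := by
  rw [Closed.cmpS, dif_pos h]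

/-- The sub-omega-category on a closed set of cells. -/
abbrev sub {S : Set Z.C} (hS : Z.Closed S) : OCat where
  C := S
  d e n x := ⟨Z.d e n x.1, hS.d e n x.2⟩
  cmp := hS.cmpS
  d_d_lt e e' _ _ x h := Subtype.ext (Z.d_d_lt e e' _ h)
  d_d_ge e e' _ _ x h := Subtype.ext (Z.d_d_ge e e' _ h)
  s_cmp h := by
    have h' := congrArg Subtype.val h
    refine Subtype.ext ?_
    simp only [hS.cmpS_val h', Z.s_cmp h']
  t_cmp h := by
    have h' := congrArg Subtype.val h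
    refine Subtype.ext ?_
    simp only [hS.cmpS_val h', Z.t_cmp h']
  d_cmp e m n x y hm h := by
    have h' := congrArg Subtype.val h
    refine Subtype.ext ?_
    refine Eq.trans ?_ (hS.cmpS_val (x := ⟨_, hS.d e m x.2⟩) (y := ⟨_, hS.d e m y.2⟩)
      (Cp.d h' e e hm)).symm
    simp only [hS.cmpS_val h', Z.d_cmp e hm h']
  id_cmp n x := Subtype.ext ((hS.cmpS_val (d_d true false n x.1)).trans (Z.id_cmp n _))
  cmp_id n x := Subtype.ext ((hS.cmpS_val (d_d false true n x.1).symm).trans (Z.cmp_id n _))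
  assoc h1 h2 := by
    have h1' := congrArg Subtype.val h1
    have h2' := congrArg Subtype.val h2
    refine Subtype.ext ?_
    rw [hS.cmpS_val, hS.cmpS_val (x := _) (y := hS.cmpS _ _ _), hS.cmpS_val h1', hS.cmpS_val h2',
      Z.assoc h1' h2']
    · rw [hS.cmpS_val h2']
      exact Cp.cmp_right h1' h2'
    · rw [hS.cmpS_val h1']
      exact Cp.cmp_left h1' h2'
  xchg hm h1 h2 h3 := by
    have h1' := congrArg Subtype.val h1
    have h2' := congrArg Subtype.val h2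
    have h3' := congrArg Subtype.val h3
    have h4' := Cp.xchg_aux hm h1' h2' h3'
    refine Subtype.ext ?_
    rw [hS.cmpS_val, hS.cmpS_val (x := hS.cmpS _ _ _) (y := hS.cmpS _ _ _), hS.cmpS_val h1',
      hS.cmpS_val h2', hS.cmpS_val h3', hS.cmpS_val h4', Z.xchg hm h1' h2' h3']
    · rw [hS.cmpS_val h3', hS.cmpS_val h4']
      exact Cp.xchg_out hm h1' h2' h3'
    · rw [hS.cmpS_val h1', hS.cmpS_val h2']
      exact Cp.xchg_in hm h1' h2' h3'
  fin x := (Z.fin x.1).imp fun _ h => Subtype.ext h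

/-- The inclusion of a sub-omega-category. -/
def subι {S : Set Z.C} (hS : Z.Closed S) : sub hS ⟶ Z where
  f := Subtype.val
  map_d _ _ _ := rfl
  map_cmp h := hS.cmpS_val (congrArg Subtype.val h)

end OCat

open OCat

section Hom

variable {X Y Z : OCat}

theorem id_f (x : X.C) : OHom.f (𝟙 X) x = x := rfl

theorem comp_f (F : X ⟶ Y) (G : Y ⟶ Z) (x : X.C) : OHom.f (F ≫ G) x = G.f (F.f x) := rfl

theorem ohom_ext {F G : X ⟶ Y} (h : ∀ x, F.f x = G.f x) : F = G := OHom.ext (funext h)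

theorem OHom.cp (F : OHom X Y) {n : ℕ} {x y : X.C} (h : X.Cp n x y) : Y.Cp n (F.f x) (F.f y) := by
  rw [Cp, ← F.map_d, ← F.map_d, h]

theorem OHom.dim (F : OHom X Y) {n : ℕ} {x : X.C} (h : X.Dim n x) : Y.Dim n (F.f x) := by
  rw [Dim, ← F.map_d, h]

theorem OHom.cp_of_inj (F : OHom X Y) (hF : Function.Injective F.f) {n : ℕ} {x y : X.C}
    (h : Y.Cp n (F.f x) (F.f y)) : X.Cp n x y := hF (by rw [F.map_d, F.map_d, h])

/-- Factorization through an injective functor. -/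
def liftInj (m : X ⟶ Y) (hm : Function.Injective m.f) (F : Z ⟶ Y) (h : ∀ z, ∃ x, m.f x = F.f z) :
    Z ⟶ X where
  f z := (h z).choose
  map_d e n z := hm (by rw [m.map_d, (h _).choose_spec, (h _).choose_spec, F.map_d])
  map_cmp {n x y} hc := hm (by
    rw [m.map_cmp, (h _).choose_spec, (h _).choose_spec, (h _).choose_spec, F.map_cmp hc]
    refine m.cp_of_inj hm ?_
    rw [(h _).choose_spec, (h _).choose_spec]
    exact F.cp hc)

theorem liftInj_comp (m : X ⟶ Y) (hm : Function.Injective m.f) (F : Z ⟶ Y)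
    (h : ∀ z, ∃ x, m.f x = F.f z) : liftInj m hm F h ≫ m = F :=
  ohom_ext fun z => (h z).choose_spec

theorem cancel_inj {m : X ⟶ Y} (hm : Function.Injective m.f) {F G : Z ⟶ X}
    (h : F ≫ m = G ≫ m) : F = G :=
  ohom_ext fun z => hm (congrArg (fun H : Z ⟶ Y => H.f z) h)

/-- Factorization through a sub-omega-category. -/
def subLift {S : Set Y.C} (hS : Y.Closed S) (F : Z ⟶ Y) (h : ∀ z, F.f z ∈ S) : Z ⟶ sub hS where
  f z := ⟨F.f z, h z⟩
  map_d e n z := Subtype.ext (F.map_d e n z)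
  map_cmp {_ x y} hc := Subtype.ext ((F.map_cmp hc).trans
    (hS.cmpS_val (x := ⟨_, h x⟩) (y := ⟨_, h y⟩) (F.cp hc)).symm)

theorem subLift_ι {S : Set Y.C} (hS : Y.Closed S) (F : Z ⟶ Y) (h : ∀ z, F.f z ∈ S) :
    subLift hS F h ≫ subι hS = F := rfl

theorem subι_inj {S : Set Y.C} (hS : Y.Closed S) : Function.Injective (subι hS).f :=
  Subtype.val_injective

theorem closed_range (F : X ⟶ Y) (hF : Function.Injective F.f) : Y.Closed (Set.range F.f) where
  d e n := by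
    rintro _ ⟨x, rfl⟩
    exact ⟨_, F.map_d e n x⟩
  cmp := by
    rintro n _ _ h ⟨x, rfl⟩ ⟨y, rfl⟩
    exact ⟨_, F.map_cmp (F.cp_of_inj hF h)⟩

/-- The constant functor at an object. -/
def constO (X : OCat) (y : Y.C) (hy : Y.Dim 0 y) : X ⟶ Y where
  f _ := y
  map_d e n _ := (hy.d e n.zero_le).symm
  map_cmp {n _ _} _ := (hy.cmp_self n.zero_le).symm

theorem IsN.of_inj {n : ℕ∞} (F : X ⟶ Y) (hF : Function.Injective F.f) (h : IsN n Y) : IsN n X :=
  fun x => (h (F.f x)).imp fun _ hk => ⟨hk.1, hF (by rw [F.map_d, hk.2])⟩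

theorem IsN.sub {n : ℕ∞} {S : Set Y.C} (hS : Y.Closed S) (h : IsN n Y) : IsN n (sub hS) :=
  IsN.of_inj (subι hS) (subι_inj hS) h

theorem isN_top (X : OCat) : IsN ⊤ X := fun x => (X.fin x).imp fun _ h => ⟨le_top, h⟩

theorem isN_coe {n : ℕ} : IsN n X ↔ ∀ x, X.Dim n x :=
  ⟨fun h x => (h x).elim fun _ hk => Dim.mono hk.2 (Nat.cast_le.1 hk.1),
    fun h x => ⟨n, le_rfl, h x⟩⟩

theorem IsN.mono {n n' : ℕ∞} (h : IsN n X) (hn : n ≤ n') : IsN n' X :=
  fun x => (h x).imp fun _ hk => ⟨hk.1.trans hn, hk.2⟩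

/-- A function which is a functor on a closed set of cells. -/
structure PF (X Y : OCat) (S : Set X.C) (f : X.C → Y.C) : Prop where
  closed : X.Closed S
  map_d : ∀ (e : Bool) (n : ℕ) {x : X.C}, x ∈ S → f (X.d e n x) = Y.d e n (f x)
  map_cmp : ∀ {n : ℕ} {x y : X.C}, X.Cp n x y → x ∈ S → y ∈ S →
    f (X.cmp n x y) = Y.cmp n (f x) (f y)

theorem PF.cp {S : Set X.C} {f : X.C → Y.C} (hf : PF X Y S f) {n : ℕ} {x y : X.C}
    (h : X.Cp n x y) (hx : x ∈ S) (hy : y ∈ S) : Y.Cp n (f x) (f y) := by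
  rw [Cp, ← hf.map_d _ _ hx, ← hf.map_d _ _ hy, h]

theorem PF.up {S : Set X.C} {f : X.C → Y.C} (hf : PF X Y S f) : PF X.up Y.up S f where
  closed := ⟨fun e n => hf.closed.d e (n + 1), hf.closed.cmp⟩
  map_d e n := hf.map_d e (n + 1)
  map_cmp := hf.map_cmp

theorem OHom.pf (F : OHom X Y) : PF X Y Set.univ F.f where
  closed := ⟨fun _ _ _ _ => trivial, fun _ _ _ => trivial⟩
  map_d e n x _ := F.map_d e n x
  map_cmp h _ _ := F.map_cmp h

theorem pf_fst : PF (X.prod Y) X Set.univ Prod.fst where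
  closed := ⟨fun _ _ _ _ => trivial, fun _ _ _ => trivial⟩
  map_d _ _ _ _ := rfl
  map_cmp _ _ _ := rfl

theorem pf_snd : PF (X.prod Y) Y Set.univ Prod.snd where
  closed := ⟨fun _ _ _ _ => trivial, fun _ _ _ => trivial⟩
  map_d _ _ _ _ := rfl
  map_cmp _ _ _ := rfl

/-- Whiskering on the left by a cell of dimension at most `1`. -/
theorem pf_whL {u : Z.C} (hu : Z.Dim 1 u) : PF Z.up Z.up {x | Z.Cp 0 u x} (Z.cmp 0 u) where
  closed := ⟨fun e n _ h => Cp.d_right h e n.succ_pos,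
    fun h hx _ => hx.trans (cmp_lt false (Nat.succ_pos _) h).symm⟩
  map_d e n x h := by
    change Z.cmp 0 u (Z.d e (n + 1) x) = Z.d e (n + 1) (Z.cmp 0 u x)
    rw [Z.d_cmp e n.succ_pos h, hu.d e (by omega)]
  map_cmp h hx _ := distL (Nat.succ_pos _) (hu.mono (by omega)) h hx

/-- Whiskering on the right by a cell of dimension at most `1`. -/
theorem pf_whR {u : Z.C} (hu : Z.Dim 1 u) :
    PF Z.up Z.up {x | Z.Cp 0 x u} (fun x => Z.cmp 0 x u) where
  closed := ⟨fun e n _ h => Cp.d_left h e n.succ_pos,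
    fun h hx _ => (cmp_lt true (Nat.succ_pos _) h).trans hx⟩
  map_d e n x h := by
    change Z.cmp 0 (Z.d e (n + 1) x) u = Z.d e (n + 1) (Z.cmp 0 x u)
    rw [Z.d_cmp e n.succ_pos h, hu.d e (by omega)]
  map_cmp h hx _ := distR (Nat.succ_pos _) (hu.mono (by omega)) h hx

end Hom

/-! ### Ordered sets as omega-categories -/

section Pos

variable (T : Type) [Preorder T]

/-- Sources and targets in an ordered set. -/
def posD (e : Bool) (n : ℕ) (x : {x : T × T // x.1 ≤ x.2}) : {x : T × T // x.1 ≤ x.2} :=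
  if n = 0 then (bif e then ⟨(x.1.2, x.1.2), le_rfl⟩ else ⟨(x.1.1, x.1.1), le_rfl⟩) else x

open Classical in
/-- Composition in an ordered set. -/
def posC (n : ℕ) (x y : {x : T × T // x.1 ≤ x.2}) : {x : T × T // x.1 ≤ x.2} :=
  if h : n = 0 ∧ x.1.1 ≤ y.1.2 then ⟨(x.1.1, y.1.2), h.2⟩ else x

variable {T}

theorem posD_succ (e : Bool) (n : ℕ) (x : {x : T × T // x.1 ≤ x.2}) : posD T e (n + 1) x = x := rfl

theorem posD_false (x : {x : T × T // x.1 ≤ x.2}) : (posD T false 0 x).1 = (x.1.1, x.1.1) := rfl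

theorem posD_true (x : {x : T × T // x.1 ≤ x.2}) : (posD T true 0 x).1 = (x.1.2, x.1.2) := rfl

theorem posC_succ (n : ℕ) (x y : {x : T × T // x.1 ≤ x.2}) : posC T (n + 1) x y = x :=
  dif_neg fun h => Nat.succ_ne_zero n h.1

theorem pos_cp {x y : {x : T × T // x.1 ≤ x.2}} :
    posD T true 0 x = posD T false 0 y ↔ x.1.2 = y.1.1 :=
  ⟨fun h => congrArg (fun z => z.1.1) h, fun h => Subtype.ext (Prod.ext h h)⟩

theorem posC_zero {x y : {x : T × T // x.1 ≤ x.2}} (h : x.1.2 = y.1.1) :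
    (posC T 0 x y).1 = (x.1.1, y.1.2) := by
  rw [posC, dif_pos ⟨rfl, x.2.trans (h ▸ y.2)⟩]

variable (T)

/-- An ordered set as an omega-category. -/
abbrev posCat : OCat where
  C := {x : T × T // x.1 ≤ x.2}
  d := posD T
  cmp := posC T
  d_d_lt e e' m n x h := by
    obtain ⟨n, rfl⟩ := Nat.exists_eq_add_one_of_ne_zero (Nat.ne_zero_of_lt h)
    rfl
  d_d_ge e e' m n x h := by
    rcases m with _ | m
    · obtain rfl : n = 0 := by omega
      cases e <;> cases e' <;> rfl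
    · rfl
  s_cmp {n x y} h := by
    rcases n with _ | n
    · exact Subtype.ext (by rw [posD_false, posC_zero (pos_cp.1 h), posD_false])
    · exact posC_succ n x y
  t_cmp {n x y} h := by
    rcases n with _ | n
    · exact Subtype.ext (by rw [posD_true, posC_zero (pos_cp.1 h), posD_true])
    · exact (posC_succ n x y).trans h
  d_cmp e m n x y hm h := by
    obtain ⟨m, rfl⟩ := Nat.exists_eq_add_one_of_ne_zero (Nat.ne_zero_of_lt hm)
    rfl
  id_cmp n x := by
    rcases n with _ | n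
    · exact Subtype.ext (posC_zero (x := posD T false 0 x) rfl)
    · exact posC_succ _ _ _
  cmp_id n x := by
    rcases n with _ | n
    · exact Subtype.ext (posC_zero (y := posD T true 0 x) rfl)
    · exact posC_succ _ _ _
  assoc {n x y z} h1 h2 := by
    rcases n with _ | n
    · have h1' := pos_cp.1 h1
      have h2' := pos_cp.1 h2
      refine Subtype.ext ?_
      rw [posC_zero (x := posC T 0 x y), posC_zero (y := posC T 0 y z), posC_zero h1',
        posC_zero h2']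
      · rw [posC_zero h2', h1']
      · rw [posC_zero h1', h2']
    · simp only [posC_succ]
  xchg {m n x y z w} hm h1 h2 h3 := by
    obtain ⟨n, rfl⟩ := Nat.exists_eq_add_one_of_ne_zero (Nat.ne_zero_of_lt hm)
    simp only [posC_succ]
  fin x := ⟨1, rfl⟩

theorem isN_posCat {n : ℕ∞} (hn : 1 ≤ n) : IsN n (posCat T) := fun _ => ⟨1, hn, rfl⟩

variable {T}

/-- A functor to an ordered set given by a labelling of the objects. -/
def toPos {X : OCat} (l : X.C → T) (h : ∀ x, l (X.d false 0 x) ≤ l (X.d true 0 x)) :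
    X ⟶ posCat T where
  f x := ⟨(l (X.d false 0 x), l (X.d true 0 x)), h x⟩
  map_d e n x := by
    rcases n with _ | n
    · cases e <;> exact Subtype.ext (Prod.ext (congrArg l (d_d _ _ _ _)) (congrArg l (d_d _ _ _ _)))
    · exact Subtype.ext (Prod.ext (congrArg l (X.d_d_lt _ _ _ n.succ_pos))
        (congrArg l (X.d_d_lt _ _ _ n.succ_pos)))
  map_cmp {n x y} hc := by
    rcases n with _ | n
    · refine Subtype.ext (Eq.trans ?_ (posC_zero (congrArg l hc)).symm)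
      exact Prod.ext (congrArg l (X.s_cmp hc)) (congrArg l (X.t_cmp hc))
    · refine Eq.trans ?_ (posC_succ n _ ⟨(_, _), h y⟩).symm
      exact Subtype.ext (Prod.ext (congrArg l (cmp_lt _ n.succ_pos hc))
        (congrArg l (cmp_lt _ n.succ_pos hc)))

/-- The label of the target object of a cell. -/
def lab {X : OCat} (F : X ⟶ posCat T) (x : X.C) : T := (F.f x).1.2

theorem lab_comp {X Y : OCat} (G : Y ⟶ X) (F : X ⟶ posCat T) (y : Y.C) :
    lab (G ≫ F) y = lab F (G.f y) := rfl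

theorem lab_t {X : OCat} (F : X ⟶ posCat T) (n : ℕ) (x : X.C) :
    lab F (X.d true n x) = lab F x := by
  rw [lab, F.map_d]
  cases n <;> rfl

theorem lab_succ {X : OCat} (F : X ⟶ posCat T) (e : Bool) (n : ℕ) (x : X.C) :
    lab F (X.d e (n + 1) x) = lab F x := by
  rw [lab, F.map_d]
  rfl

theorem lab_s {X : OCat} (F : X ⟶ posCat T) (x : X.C) : lab F (X.d false 0 x) = (F.f x).1.1 := by
  rw [lab, F.map_d]
  rfl

theorem lab_d_le {X : OCat} (F : X ⟶ posCat T) (e : Bool) (n : ℕ) (x : X.C) :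
    lab F (X.d e n x) ≤ lab F x := by
  rcases n with _ | n
  · cases e
    · rw [lab_s]
      exact (F.f x).2
    · rw [lab_t]
  · rw [lab_succ]

theorem lab_cmp {X : OCat} (F : X ⟶ posCat T) {n : ℕ} {x y : X.C} (h : X.Cp n x y) :
    lab F (X.cmp n x y) = lab F y := by
  rw [← lab_t F n, X.t_cmp h, lab_t]

theorem lab_toPos {X : OCat} (l : X.C → T) (h : ∀ x, l (X.d false 0 x) ≤ l (X.d true 0 x))
    (x : X.C) : lab (toPos l h) x = l (X.d true 0 x) := rfl

theorem pos_ext {X : OCat} {F G : X ⟶ posCat T} (h : ∀ x, lab F x = lab G x) : F = G :=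
  ohom_ext fun x => Subtype.ext (Prod.ext (by rw [← lab_s, ← lab_s, h]) (h x))

/-- The functor induced by a monotone map. -/
def posMap {T' : Type} [Preorder T'] (f : T →o T') : posCat T ⟶ posCat T' :=
  toPos (fun x => f x.1.2) fun x => f.monotone x.2

theorem lab_posMap {X : OCat} {T' : Type} [Preorder T'] (F : X ⟶ posCat T) (f : T →o T')
    (x : X.C) : lab (F ≫ posMap f) x = f (lab F x) := rfl

/-- The cells whose target has its label in a lower set. -/
theorem closed_lab {X : OCat} (F : X ⟶ posCat T) {L : Set T} (hL : IsLowerSet L) :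
    X.Closed {x | lab F x ∈ L} where
  d e n x hx := hL (lab_d_le F e n x) hx
  cmp h _ hy := by
    change lab F _ ∈ L
    rw [lab_cmp F h]
    exact hy

end Pos

end Vale.Agent.P213
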