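import Vale.Agent.P213.NDefs

/-! P213: adding a terminal object. -/

open CategoryTheory

noncomputable section

namespace Vale.Agent.P213

open OCat

namespace PlusX

/-- The cells of the extended category. -/
inductive PC (W : OCat) : Type
  | inl (x : W.C)
  | cone (w : {w : W.C // W.Dim 0 w})
  | top

open PC

variable {W : OCat}

/-- Sources and targets. -/
def pd : Bool → ℕ → PC W → PC W
  | e, n, inl x => inl (W.d e n x)
  | false, 0, cone w => inl w.1
  | true, 0, cone _ => top
  | _, _ + 1, cone w => cone w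
  | _, _, top => top

/-- Composition. -/
def pc (n : ℕ) : PC W → PC W → PC W
  | inl x, inl y => inl (W.cmp n x y)
  | inl x, cone _ => cone ⟨W.d false 0 x, dim_d _ _ le_rfl⟩
  | inl x, top => inl x
  | cone w, _ => cone w
  | top, _ => top

theorem pd_inl (e : Bool) (n : ℕ) (x : W.C) : pd e n (inl x) = inl (W.d e n x) := by
  cases e <;> cases n <;> rfl

theorem pd_top (e : Bool) (n : ℕ) : pd e n (top : PC W) = top := by
  cases e <;> cases n <;> rfl

theorem pd_succ (e : Bool) (n : ℕ) (w : {w : W.C // W.Dim 0 w}) :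
    pd e (n + 1) (cone w) = cone w := by
  cases e <;> rfl

/-- The composable pairs. -/
inductive CP : ℕ → PC W → PC W → Prop
  | ii {n : ℕ} {x y : W.C} (h : W.Cp n x y) : CP n (inl x) (inl y)
  | ic {x : W.C} {w : {w : W.C // W.Dim 0 w}} (h : W.d true 0 x = w.1) : CP 0 (inl x) (cone w)
  | cc {n : ℕ} (w : {w : W.C // W.Dim 0 w}) : CP (n + 1) (cone w) (cone w)
  | ct (w : {w : W.C // W.Dim 0 w}) : CP 0 (cone w) top
  | tt {n : ℕ} : CP n top top

theorem cp_of {n : ℕ} {a b : PC W} (h : pd true n a = pd false n b) : CP n a b := by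
  rcases a with x | w | _ <;> rcases b with y | w' | _
  · rw [pd_inl, pd_inl] at h
    exact CP.ii (inl.inj h)
  · rcases n with _ | n
    · exact CP.ic (inl.inj h)
    · cases h
  · rw [pd_inl, pd_top] at h
    cases h
  · rcases n with _ | n <;> cases h
  · rcases n with _ | n
    · cases h
    · obtain rfl := cone.inj h
      exact CP.cc w
  · rcases n with _ | n
    · exact CP.ct w
    · cases h
  · rw [pd_inl, pd_top] at h
    cases h
  · rcases n with _ | n <;> cases h
  · exact CP.tt

/-- The extended category. -/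
abbrev plus (W : OCat) : OCat where
  C := PC W
  d := pd
  cmp := pc
  d_d_lt e e' m n x h := by
    obtain ⟨n, rfl⟩ := Nat.exists_eq_add_one_of_ne_zero (Nat.ne_zero_of_lt h)
    rcases x with x | w | _
    · rw [pd_inl, pd_inl, pd_inl, W.d_d_lt _ _ _ h]
    · rw [pd_succ]
    · rw [pd_top, pd_top]
  d_d_ge e e' m n x h := by
    rcases x with x | w | _
    · rw [pd_inl, pd_inl, W.d_d_ge _ _ _ h]
    · rcases n with _ | n
      · cases e'
        · exact (pd_inl _ _ _).trans (congrArg inl (w.2.d e h))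
        · exact pd_top _ _
      · obtain ⟨m, rfl⟩ := Nat.exists_eq_add_one_of_ne_zero (show m ≠ 0 by omega)
        rw [pd_succ, pd_succ]
    · rw [pd_top, pd_top]
  s_cmp h := by
    cases cp_of h with
    | ii k => rw [pc, pd_inl, pd_inl, W.s_cmp k]
    | _ => rfl
  t_cmp h := by
    cases cp_of h with
    | ii k => rw [pc, pd_inl, pd_inl, W.t_cmp k]
    | _ => rfl
  d_cmp e m n x y hm h := by
    obtain ⟨m, rfl⟩ := Nat.exists_eq_add_one_of_ne_zero (Nat.ne_zero_of_lt hm)
    cases cp_of h with
    | ii k => rw [pc, pd_inl, pd_inl, pd_inl, pc, W.d_cmp e hm k]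
    | ic h =>
      rw [pc, pd_succ, pd_succ, pd_inl, pc]
      exact congrArg cone (Subtype.ext (W.d_d_lt _ _ _ hm).symm)
    | cc w => rw [pc, pd_succ, pc]
    | ct w => rw [pc, pd_succ, pc]
    | tt => rw [pc, pd_top, pc]
  id_cmp n x := by
    rcases x with x | w | _
    · rw [pd_inl, pc, W.id_cmp]
    · rcases n with _ | n
      · exact congrArg cone (Subtype.ext w.2)
      · rfl
    · rw [pd_top, pc]
  cmp_id n x := by
    rcases x with x | w | _
    · rw [pd_inl, pc, W.cmp_id]
    · rfl
    · rfl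
  assoc h1 h2 := by
    cases cp_of h1 with
    | ii k1 =>
      cases cp_of h2 with
      | ii k2 => exact congrArg inl (W.assoc k1 k2)
      | ic k2 => exact congrArg cone (Subtype.ext (W.s_cmp k1))
    | _ => rfl
  xchg {m n x y z w} hm h1 h2 h3 := by
    obtain ⟨n, rfl⟩ := Nat.exists_eq_add_one_of_ne_zero (Nat.ne_zero_of_lt hm)
    cases cp_of h1 with
    | ii k1 =>
      cases cp_of h2 with
      | ii k2 =>
        cases cp_of h3 with
        | ii k3 => exact congrArg inl (W.xchg hm k1 k2 k3)
      | cc w => exact congrArg cone (Subtype.ext (cmp_lt _ n.succ_pos k1))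
      | tt => cases cp_of h3
    | _ => rfl
  fin x := by
    rcases x with x | w | _
    · exact (W.fin x).imp fun n h => by rw [pd_inl, h]
    · exact ⟨1, rfl⟩
    · exact ⟨0, rfl⟩

/-- The inclusion. -/
def incl (W : OCat) : W ⟶ plus W where
  f := inl
  map_d e n x := (pd_inl e n x).symm
  map_cmp _ := rfl

/-- The characteristic functor of the new object. -/
def chi (W : OCat) : plus W ⟶ posCat Prop :=
  toPos (X := plus W) (fun z => z = top) fun x h => by
    rcases x with x | w | _
    · cases h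
    · cases h
    · rfl

theorem lab_chi (z : PC W) : lab (chi W) z ↔ pd true 0 z = top := Iff.rfl

theorem eq_of_lab {z z' : PC W} (h : lab (chi W) z) (h' : lab (chi W) z')
    (e : pd false 0 z = pd false 0 z') : z = z' := by
  rcases z with x | w | _ <;> rcases z' with y | w' | _
  any_goals cases h
  any_goals cases h'
  · exact congrArg cone (Subtype.ext (inl.inj e))
  · cases e
  · cases e
  · rfl

section Ext

variable {Y : OCat} (l : Y ⟶ posCat Prop) (u : sub (closed_lab l isLowerSet_not) ⟶ W)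

open Classical in
/-- The extension on cells. -/
def ext (y : Y.C) : PC W :=
  if h : ¬ lab l y then inl (u.f ⟨y, h⟩) else if h' : ¬ lab l (Y.d false 0 y) then
    cone ⟨u.f ⟨Y.d false 0 y, h'⟩, u.dim (Subtype.ext (d_d _ _ _ _))⟩ else top

variable {l}

theorem ext_in {y : Y.C} (h : ¬ lab l y) : ext l u y = inl (u.f ⟨y, h⟩) := dif_pos h

theorem ext_cone {y : Y.C} (h : lab l y) (h' : ¬ lab l (Y.d false 0 y)) :
    ext l u y = cone ⟨u.f ⟨Y.d false 0 y, h'⟩, u.dim (Subtype.ext (d_d _ _ _ _))⟩ := by
  rw [ext, dif_neg (not_not.2 h), dif_pos h']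

theorem ext_top {y : Y.C} (h' : lab l (Y.d false 0 y)) : ext l u y = top := by
  rw [ext, dif_neg (not_not.2 (lab_d_le l _ _ _ h')), dif_neg (not_not.2 h')]

theorem ext_congr {y y' : Y.C} (h : lab l y) (h' : lab l y')
    (e : Y.d false 0 y = Y.d false 0 y') : ext l u y = ext l u y' := by
  by_cases h1 : lab l (Y.d false 0 y)
  · rw [ext_top u h1, ext_top u (e ▸ h1)]
  · rw [ext_cone u h h1, ext_cone u h' (e ▸ h1)]
    simp only [e]

theorem ext_d (e : Bool) (n : ℕ) (y : Y.C) : ext l u (Y.d e n y) = pd e n (ext l u y) := by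
  by_cases h : lab l y
  · rcases n with _ | n
    · by_cases h1 : lab l (Y.d false 0 y)
      · rw [ext_top u h1, pd_top, ext_top]
        rw [d_d]
        cases e
        · exact h1
        · rwa [lab_t]
      · rw [ext_cone u h h1]
        cases e
        · exact ext_in u h1
        · refine ext_top u ?_
          rwa [d_d, lab_t]
    · rw [ext_congr u ((lab_succ l e n y).symm ▸ h) h (Y.d_d_lt _ _ _ n.succ_pos)]
      by_cases h1 : lab l (Y.d false 0 y)
      · rw [ext_top u h1, pd_top]
      · rw [ext_cone u h h1, pd_succ]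
  · rw [ext_in u h, ext_in u fun h1 => h (lab_d_le l e n y h1), pd_inl, ← u.map_d]

theorem ext_cmp {n : ℕ} {x y : Y.C} (hc : Y.Cp n x y) :
    ext l u (Y.cmp n x y) = pc n (ext l u x) (ext l u y) := by
  have e1 : lab l (Y.cmp n x y) = lab l y := lab_cmp l hc
  have e2 : Y.d false 0 (Y.cmp n x y) = Y.d false 0 x := s_cmp_le n.zero_le hc
  have e3 : lab l x = lab l (Y.d false n y) := by rw [← hc, lab_t]
  by_cases hx : lab l x
  · have hy : lab l y := lab_d_le l false n y (e3 ▸ hx)
    rw [ext_congr u (e1 ▸ hy) hx e2]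
    by_cases h1 : lab l (Y.d false 0 x)
    · rw [ext_top u h1, pc]
    · rw [ext_cone u hx h1, pc]
  · by_cases hy : lab l y
    · rcases n with _ | n
      · have h1 : ¬ lab l (Y.d false 0 x) := fun h => hx (lab_d_le l _ _ _ h)
        rw [ext_in u hx, ext_cone u hy (e3 ▸ hx), ext_cone u (e1 ▸ hy) (e2 ▸ h1), pc]
        refine congrArg cone (Subtype.ext ?_)
        simp only [e2]
        exact u.map_d false 0 ⟨x, hx⟩
      · rw [lab_succ] at e3
        exact absurd (e3 ▸ hy) hx
    · rw [ext_in u hx, ext_in u hy, ext_in u (e1 ▸ hy), pc,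
        ← u.map_cmp (x := ⟨x, hx⟩) (y := ⟨y, hy⟩) (Subtype.ext hc)]
      exact congrArg (fun z => inl (u.f z)) (Subtype.ext
        ((closed_lab l isLowerSet_not).cmpS_val (x := ⟨x, hx⟩) (y := ⟨y, hy⟩) hc).symm)

end Ext

end PlusX

open PlusX in
/-- Cells of `W'`: `inl x` for a cell `x`, `cone w` for an object `w` (`W.Dim 0 w`; a `1`-cell from
`inl w` to `top`), and `top`. Composition: `inl x, inl y ↦ inl (cmp n x y)`,
`inl x, cone _ ↦ cone (d false 0 x)`, otherwise the first argument. `χ` is `toPos` of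
`z ↦ z = top`. The extension `φ y` is `inl (u y)` if the target of `y` is in the sieve,
`cone (u (d false 0 y))` if only the source is, and `top` otherwise. -/
theorem exists_plus (W : OCat) : ∃ (W' : OCat) (j : W ⟶ W') (χ : W' ⟶ posCat Prop),
    IsPlus W W' j χ := by
  refine ⟨plus W, incl W, chi W, fun _ _ h => PC.inl.inj h, fun z => ?_, fun n hn h z => ?_,
    fun Y l u => ⟨⟨ext l u, ext_d u, ext_cmp u⟩, pos_ext fun y => propext ?_, ohom_ext fun y => ?_⟩,
    fun Y φ φ' h h' => ohom_ext fun y => ?_⟩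
  · rcases z with x | w | _
    · exact ⟨fun _ => ⟨x, rfl⟩, fun _ h => by cases h⟩
    · exact ⟨fun h => absurd rfl h, fun ⟨_, h⟩ => by cases h⟩
    · exact ⟨fun h => absurd rfl h, fun ⟨_, h⟩ => by cases h⟩
  · rcases z with x | w | _
    · exact (h x).imp fun k hk => ⟨hk.1, (pd_inl _ _ _).trans (congrArg PC.inl hk.2)⟩
    · exact ⟨1, hn, rfl⟩
    · exact ⟨1, hn, rfl⟩
  · change pd true 0 (ext l u y) = PC.top ↔ _
    rw [← ext_d]
    by_cases h : lab l y
    · exact iff_of_true (ext_top u (by rwa [d_d, lab_t])) h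
    · refine iff_of_false ?_ h
      rw [ext_in u (by rwa [lab_t])]
      intro h
      cases h
  · exact ext_in u y.2
  · by_cases h1 : lab (φ ≫ chi W) y
    · refine eq_of_lab h1 (show lab (φ' ≫ chi W) y from h ▸ h1) ?_
      refine (φ.map_d false 0 y).symm.trans (Eq.trans ?_ (φ'.map_d false 0 y))
      by_cases h2 : lab (φ ≫ chi W) (Y.d false 0 y)
      · have key : ∀ ψ : Y ⟶ plus W, lab (ψ ≫ chi W) (Y.d false 0 y) →
            ψ.f (Y.d false 0 y) = PC.top := fun ψ h3 => by
          rw [← d_d true false 0 y, ψ.map_d]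
          exact h3
        rw [key φ h2, key φ' (h ▸ h2)]
      · exact h' _ h2
    · exact h' y h1

end Vale.Agent.P213
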