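import Vale.Agent.P213.Defs

/-! P213: auxiliary simplicial definitions. -/

open CategoryTheory Simplicial MonoidalCategory Opposite Limits CartesianMonoidalCategory

noncomputable section

namespace Vale.Agent.P213

/-- Boundary inclusions. -/
abbrev II : MorphismProperty SSet.{0} := SSet.modelCategoryQuillen.I

/-- Horn inclusions. -/
abbrev JJ : MorphismProperty SSet.{0} := SSet.modelCategoryQuillen.J

/-- Anodyne extensions. -/
abbrev Ano : MorphismProperty SSet.{0} := SSet.anodyneExtensions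

theorem ano_eq : Ano = KanFib.llp := rfl

/-- Kan fibrations between Kan complexes. -/
def KK : MorphismProperty SSet.{0} := fun X Y p => X.KanComplex ∧ Y.KanComplex ∧ KanFib p

/-- Lifting up to a homotopy relative to the boundary. -/
def HL : MorphismProperty SSet.{0} := fun X Y f =>
  ∀ (n : ℕ) (a : (∂Δ[n] : SSet.{0}) ⟶ X) (b : Δ[n] ⟶ Y), a ≫ f = ∂Δ[n].ι ≫ b →
    ∃ (l : Δ[n] ⟶ X) (G : Δ[n] ⊗ Δ[1] ⟶ Y), ∂Δ[n].ι ≫ l = a ∧ SSet.ι₀ ≫ G = b ∧
      SSet.ι₁ ≫ G = l ≫ f ∧ ∂Δ[n].ι ▷ Δ[1] ≫ G = fst _ _ ≫ a ≫ f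

/-- The comparison map from the pushout of `f` and `a` is a weak equivalence. -/
def HPO {A U X T : SSet.{0}} (a : A ⟶ U) (f : A ⟶ X) (g : U ⟶ T) (i : X ⟶ T) : Prop :=
  ∀ (Z : SSet.{0}) (z₁ : X ⟶ Z) (z₂ : U ⟶ Z) (φ : Z ⟶ T), IsPushout f a z₁ z₂ → z₁ ≫ φ = i →
    z₂ ≫ φ = g → WHE φ

/-- All pushouts of the map are in `R`. -/
def Univ {D : Type*} [Category D] (R : MorphismProperty D) : MorphismProperty D :=
  fun A B i => ∀ (X Y : D) (f : A ⟶ X) (i' : X ⟶ Y) (g : B ⟶ Y), IsPushout f i i' g → R i'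

/-- The second coordinate of a simplex of `X ⊗ Δ[1]` as a monotone map. -/
def tm {X : SSet.{0}} {m : SimplexCategoryᵒᵖ} (x : (X ⊗ Δ[1]).obj m) :
    Fin (m.unop.len + 1) →o Fin 2 := (SSet.stdSimplex.objEquiv x.2).toOrderHom

/-- A homotopy given by a formula on simplices. -/
def htpMk {X Y : SSet.{0}}
    (F : ∀ m : SimplexCategoryᵒᵖ, (Fin (m.unop.len + 1) →o Fin 2) → X.obj m → Y.obj m)
    (nat : ∀ {m m' : SimplexCategoryᵒᵖ} (α : m ⟶ m') (φ : Fin (m.unop.len + 1) →o Fin 2)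
      (x : X.obj m), F m' (φ.comp α.unop.toOrderHom) (X.map α x) = Y.map α (F m φ x)) :
    X ⊗ Δ[1] ⟶ Y where
  app m := TypeCat.ofHom fun x => F m (tm x) x.1
  naturality m m' α := by
    ext x
    exact nat α (tm x) x.1

theorem htpMk_app {X Y : SSet.{0}}
    (F : ∀ m : SimplexCategoryᵒᵖ, (Fin (m.unop.len + 1) →o Fin 2) → X.obj m → Y.obj m)
    (nat : ∀ {m m' : SimplexCategoryᵒᵖ} (α : m ⟶ m') (φ : Fin (m.unop.len + 1) →o Fin 2)
      (x : X.obj m), F m' (φ.comp α.unop.toOrderHom) (X.map α x) = Y.map α (F m φ x))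
    {m : SimplexCategoryᵒᵖ} (x : (X ⊗ Δ[1]).obj m) :
    (htpMk F nat).app m x = F m (tm x) x.1 := rfl

theorem tm_ι₀ {X : SSet.{0}} {m : SimplexCategoryᵒᵖ} (x : X.obj m) :
    tm ((SSet.ι₀ : X ⟶ _).app m x) = OrderHom.const _ 0 := rfl

theorem tm_ι₁ {X : SSet.{0}} {m : SimplexCategoryᵒᵖ} (x : X.obj m) :
    tm ((SSet.ι₁ : X ⟶ _).app m x) = OrderHom.const _ 1 := rfl

theorem Htp.of_fun {X Y : SSet.{0}} {f g : X ⟶ Y}
    (F : ∀ m : SimplexCategoryᵒᵖ, (Fin (m.unop.len + 1) →o Fin 2) → X.obj m → Y.obj m)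
    (nat : ∀ {m m' : SimplexCategoryᵒᵖ} (α : m ⟶ m') (φ : Fin (m.unop.len + 1) →o Fin 2)
      (x : X.obj m), F m' (φ.comp α.unop.toOrderHom) (X.map α x) = Y.map α (F m φ x))
    (h0 : ∀ m x, F m (OrderHom.const _ 0) x = f.app m x)
    (h1 : ∀ m x, F m (OrderHom.const _ 1) x = g.app m x) : Htp f g :=
  ⟨htpMk F nat, by ext m x; exact h0 m x, by ext m x; exact h1 m x⟩

/-- The equivalence relation generated by simplicial homotopy. -/
abbrev HtpE {X Y : SSet.{0}} (f g : X ⟶ Y) : Prop := Relation.EqvGen Htp f g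

/-! ### Nerves of ordered sets -/

/-- The nerve of a preordered set. -/
def NP (P : Type) [Preorder P] : SSet.{0} where
  obj Δ := Fin (Δ.unop.len + 1) →o P
  map f := TypeCat.ofHom fun σ => σ.comp f.unop.toOrderHom

section

variable {P P' P'' : Type} [Preorder P] [Preorder P'] [Preorder P'']

/-- A simplex of the nerve as a monotone map. -/
abbrev NP.fn {m : SimplexCategoryᵒᵖ} (σ : (NP P).obj m) : Fin (m.unop.len + 1) →o P := σ

theorem NP_map_fn {m m' : SimplexCategoryᵒᵖ} (f : m ⟶ m') (σ : (NP P).obj m) :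
    NP.fn ((NP P).map f σ) = (NP.fn σ).comp f.unop.toOrderHom := rfl

/-- The map of nerves induced by a monotone map. -/
def NPmap (f : P →o P') : NP P ⟶ NP P' where
  app _ := TypeCat.ofHom fun σ => f.comp σ

theorem NPmap_fn (f : P →o P') {m : SimplexCategoryᵒᵖ} (σ : (NP P).obj m) :
    NP.fn ((NPmap f).app m σ) = f.comp (NP.fn σ) := rfl

theorem NPmap_id : NPmap (OrderHom.id : P →o P) = 𝟙 _ := rfl

theorem NPmap_comp (f : P →o P') (g : P' →o P'') : NPmap (g.comp f) = NPmap f ≫ NPmap g := rfl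

/-- The nerve of a subset. -/
def NS (S : Set P) : (NP P).Subcomplex where
  obj _ := {σ | ∀ i, NP.fn σ i ∈ S}
  map _ _ h _ := h _

theorem mem_NS {S : Set P} {m : SimplexCategoryᵒᵖ} {σ : (NP P).obj m} :
    σ ∈ (NS S).obj m ↔ ∀ i, NP.fn σ i ∈ S := Iff.rfl

theorem NS_mono {S S' : Set P} (h : S ⊆ S') : NS S ≤ NS S' := fun _ _ hσ i => h (hσ i)

/-- The inclusion of nerves of subsets. -/
abbrev NSi {S S' : Set P} (h : S ⊆ S') : (NS S : SSet.{0}) ⟶ NS S' :=
  SSet.Subcomplex.homOfLE (NS_mono h)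

/-- The map induced by a function which is monotone on a subset. -/
def NSmap {S : Set P} {S' : Set P'} (ρ : P → P') (hm : MonotoneOn ρ S) (h : Set.MapsTo ρ S S') :
    (NS S : SSet.{0}) ⟶ NS S' where
  app _ := TypeCat.ofHom fun σ =>
    ⟨(⟨fun i => ρ (NP.fn σ.1 i), fun i j hij => hm (σ.2 i) (σ.2 j) ((NP.fn σ.1).monotone hij)⟩ :
      Fin _ →o P'), fun i => h (σ.2 i)⟩

theorem NSmap_fn {S : Set P} {S' : Set P'} (ρ : P → P') (hm : MonotoneOn ρ S)
    (h : Set.MapsTo ρ S S') {m : SimplexCategoryᵒᵖ} (σ : (NS S : SSet.{0}).obj m)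
    (i : Fin (m.unop.len + 1)) : NP.fn ((NSmap ρ hm h).app m σ).1 i = ρ (NP.fn σ.1 i) := rfl

end

/-- A monotone map as a morphism of the simplex category. -/
abbrev mkH {a b : SimplexCategory} (σ : Fin (a.len + 1) →o Fin (b.len + 1)) : a ⟶ b :=
  SimplexCategory.Hom.mk σ

/-- The map classifying a simplex. -/
def cls {X : SSet.{0}} {n : SimplexCategory} (x : X.obj (op n)) : NP (Fin (n.len + 1)) ⟶ X where
  app m := TypeCat.ofHom fun σ => X.map (mkH (a := m.unop) (b := n) σ).op x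
  naturality m m' f := by
    ext σ
    exact (X.map_comp_apply (mkH (a := m.unop) (b := n) σ).op f x)

theorem cls_app {X : SSet.{0}} {n : SimplexCategory} (x : X.obj (op n)) {m : SimplexCategoryᵒᵖ}
    (σ : (NP (Fin (n.len + 1))).obj m) :
    (cls x).app m σ = X.map (mkH (a := m.unop) (b := n) σ).op x := rfl

theorem cls_comp {X Y : SSet.{0}} {n : SimplexCategory} (x : X.obj (op n)) (f : X ⟶ Y) :
    cls x ≫ f = cls (f.app _ x) := by
  ext m σ
  exact f.naturality_apply _ x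

theorem NPmap_cls {X : SSet.{0}} {n n' : SimplexCategory} (x : X.obj (op n)) (α : n' ⟶ n) :
    NPmap α.toOrderHom ≫ cls x = cls (X.map α.op x) := by
  ext m σ
  exact X.map_comp_apply α.op (mkH (a := m.unop) (b := n') σ).op x

/-- The standard simplex is the nerve of a finite ordinal. -/
def npIso (n : SimplexCategory) : SSet.stdSimplex.obj n ≅ NP (Fin (n.len + 1)) where
  hom := { app _ := TypeCat.ofHom fun x => (SSet.stdSimplex.objEquiv x).toOrderHom }
  inv := { app m := TypeCat.ofHom fun σ =>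
    SSet.stdSimplex.objEquiv.symm (mkH (a := m.unop) (b := n) σ) }

/-! ### Chains and the extension functor -/

/-- Nonempty finite chains. -/
abbrev Ch (P : Type) [PartialOrder P] : Type := PartialOrder.NonemptyFiniteChains P

/-- The map on chains. -/
abbrev chMap {P P' : Type} [PartialOrder P] [PartialOrder P'] (f : P →o P') : Ch P →o Ch P' :=
  PartialOrder.NonemptyFiniteChains.orderHomMap f

theorem mem_chMap {P P' : Type} [PartialOrder P] [PartialOrder P'] (f : P →o P') (S : Ch P)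
    (y : P') : y ∈ (chMap f S).finset ↔ ∃ x, x ∈ S.finset ∧ f x = y :=
  PartialOrder.NonemptyFiniteChains.mem_map_iff S f y

theorem chMap_id {P : Type} [PartialOrder P] : chMap (OrderHom.id : P →o P) = OrderHom.id := by
  ext S y
  simp

theorem chMap_comp {P P' P'' : Type} [PartialOrder P] [PartialOrder P'] [PartialOrder P'']
    (f : P →o P') (g : P' →o P'') : chMap (g.comp f) = (chMap g).comp (chMap f) := by
  ext S y
  simp

/-- A nonempty finite subset of a linear order is a chain. -/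
def chMk {L : Type} [LinearOrder L] (s : Finset L) (h : s.Nonempty) : Ch L :=
  ⟨s, h, fun a b => le_total a b⟩

/-- The chain of all vertices of a simplex. -/
def chOf {P : Type} [PartialOrder P] {m : ℕ} (σ : Fin (m + 1) →o P) : Ch P :=
  chMap σ (chMk Finset.univ Finset.univ_nonempty)

theorem mem_chOf {P : Type} [PartialOrder P] {m : ℕ} (σ : Fin (m + 1) →o P) (y : P) :
    y ∈ (chOf σ).finset ↔ ∃ i, σ i = y := by
  simp [chOf, chMk]

/-- The largest element of a chain. -/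
def mx (L : Type) [LinearOrder L] : Ch L →o L :=
  ⟨fun S => S.finset.max' S.nonempty, fun _ _ h => Finset.max'_subset _ h⟩

theorem mx_mem {L : Type} [LinearOrder L] (S : Ch L) : mx L S ∈ S.finset :=
  Finset.max'_mem _ S.nonempty

theorem le_mx {L : Type} [LinearOrder L] {S : Ch L} {x : L} (h : x ∈ S.finset) : x ≤ mx L S :=
  Finset.le_max' _ _ h

theorem mx_chMap {L L' : Type} [LinearOrder L] [LinearOrder L'] (f : L →o L') (S : Ch L) :
    mx L' (chMap f S) = f (mx L S) := by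
  refine le_antisymm ?_ (le_mx ((mem_chMap f S _).2 ⟨_, mx_mem S, rfl⟩))
  obtain ⟨x, hx, e⟩ := (mem_chMap f S _).1 (mx_mem (chMap f S))
  rw [← e]
  exact f.monotone (le_mx hx)

/-- The simplicial complex given by a lower set of chains. -/
def CX {P : Type} [PartialOrder P] (K : LowerSet (Ch P)) : (NP P).Subcomplex where
  obj _ := {σ | chOf (NP.fn σ) ∈ K}
  map f σ h := K.lower (a := chOf (NP.fn σ)) (fun y hy => by
    obtain ⟨i, rfl⟩ := (mem_chOf _ _).1 hy
    exact (mem_chOf _ _).2 ⟨_, rfl⟩) h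

theorem CX_mono {P : Type} [PartialOrder P] {K K' : LowerSet (Ch P)} (h : K ≤ K') :
    CX K ≤ CX K' := fun _ _ hσ => h hσ

/-- The subdivided simplices. -/
def sdS : SimplexCategory ⥤ SSet.{0} where
  obj n := NP (Ch (Fin (n.len + 1)))
  map f := NPmap (chMap f.toOrderHom)
  map_id _ := congrArg NPmap chMap_id
  map_comp _ _ := congrArg NPmap (chMap_comp _ _)

/-- The extension functor. -/
def Ex : SSet.{0} ⥤ SSet.{0} := yoneda ⋙ (Functor.whiskeringLeft _ _ _).obj sdS.op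

/-- A simplex of `Ex X` as a map. -/
abbrev Ex.fn {X : SSet.{0}} {n : SimplexCategoryᵒᵖ} (x : (Ex.obj X).obj n) :
    NP (Ch (Fin (n.unop.len + 1))) ⟶ X := x

theorem Ex_obj_map_fn {X : SSet.{0}} {n n' : SimplexCategoryᵒᵖ} (f : n ⟶ n')
    (x : (Ex.obj X).obj n) :
    Ex.fn ((Ex.obj X).map f x) = NPmap (chMap f.unop.toOrderHom) ≫ Ex.fn x := rfl

theorem Ex_map_fn {X Y : SSet.{0}} (f : X ⟶ Y) {n : SimplexCategoryᵒᵖ} (x : (Ex.obj X).obj n) :
    Ex.fn ((Ex.map f).app n x) = Ex.fn x ≫ f := rfl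

/-- The last vertex map `X ⟶ Ex X`. -/
def jx : 𝟭 SSet.{0} ⟶ Ex where
  app X :=
    { app n := TypeCat.ofHom fun x => NPmap (mx _) ≫ cls (X := X) (n := n.unop) x
      naturality n n' f := by
        ext x
        change NPmap (mx _) ≫ cls (X := X) (X.map f.unop.op x) =
          NPmap (chMap f.unop.toOrderHom) ≫ NPmap (mx _) ≫ cls (X := X) (n := n.unop) x
        rw [← NPmap_cls, ← Category.assoc, ← Category.assoc, ← NPmap_comp, ← NPmap_comp]
        congr 2
        exact OrderHom.ext _ _ (funext fun S => (mx_chMap _ S).symm) }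
  naturality X Y f := by
    ext n x
    change NPmap (mx _) ≫ cls (X := Y) (n := n.unop) (f.app n x) =
      (NPmap (mx _) ≫ cls (X := X) (n := n.unop) x) ≫ f
    rw [Category.assoc, cls_comp]

/-- The component of `jx`. -/
def jX (X : SSet.{0}) : X ⟶ Ex.obj X := jx.app X

theorem jX_fn {X : SSet.{0}} {n : SimplexCategoryᵒᵖ} (x : X.obj n) :
    Ex.fn ((jX X).app n x) = NPmap (mx _) ≫ cls (X := X) (n := n.unop) x := rfl

theorem jX_nat {X Y : SSet.{0}} (f : X ⟶ Y) : f ≫ jX Y = jX X ≫ Ex.map f := jx.naturality f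

/-- The unit map of a simplicial complex into `Ex` of the nerve of its face poset. -/
def cxU {P : Type} [PartialOrder P] (K : LowerSet (Ch P)) :
    (CX K : SSet.{0}) ⟶ Ex.obj (NS (K : Set (Ch P))) where
  app n := TypeCat.ofHom fun σ =>
    SSet.Subcomplex.lift (NPmap (chMap (NP.fn σ.1))) (by
      rintro m _ ⟨τ, rfl⟩ i
      refine K.lower (a := chOf (NP.fn σ.1)) (fun y hy => ?_) σ.2
      obtain ⟨x, -, rfl⟩ := (mem_chMap _ _ _).1 hy
      exact (mem_chOf _ _).2 ⟨_, rfl⟩)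
  naturality n n' f := by
    ext σ
    change (_ : NP _ ⟶ (NS (K : Set (Ch P)) : SSet.{0})) = NPmap (chMap f.unop.toOrderHom) ≫ _
    refine (cancel_mono (SSet.Subcomplex.ι _)).1 ?_
    exact congrArg NPmap (chMap_comp _ _)

theorem cxU_fn {P : Type} [PartialOrder P] (K : LowerSet (Ch P)) {n : SimplexCategoryᵒᵖ}
    (σ : (CX K : SSet.{0}).obj n) :
    Ex.fn ((cxU K).app n σ) ≫ (NS (K : Set (Ch P))).ι = NPmap (chMap (NP.fn σ.1)) := rfl

/-- The faces of a horn. -/
def hornK {n : ℕ} (k : Fin (n + 1)) : LowerSet (Ch (Fin (n + 1))) :=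
  ⟨{S | ∃ j, j ≠ k ∧ j ∉ S.finset}, fun _ _ h ⟨j, hj, hj'⟩ => ⟨j, hj, fun h' => hj' (h h')⟩⟩

/-- The faces of the boundary. -/
def bdK (n : ℕ) : LowerSet (Ch (Fin (n + 1))) :=
  ⟨{S | ∃ j, j ∉ S.finset}, fun _ _ h ⟨j, hj'⟩ => ⟨j, fun h' => hj' (h h')⟩⟩

/-- The Dwyer type condition on a subset of an ordered set. -/
structure Dw {P : Type} [PartialOrder P] (A : Set P) : Prop where
  lower : IsLowerSet A
  dw : ∀ v, v ∉ A → (∀ a ∈ A, ¬ a < v) ∨ ∃ t ∈ A, t < v ∧ ∀ a ∈ A, a < v → a ≤ t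

/-! ### The mapping cylinder of the last vertex map -/

/-- Faces and vertices of a simplex. -/
inductive Pn (n : ℕ) : Type where
  | fc (S : Ch (Fin (n + 1)))
  | vx (i : Fin (n + 1))

/-- The order: faces by inclusion, vertices as usual, a face is below the vertices above it. -/
def Pn.le {n : ℕ} (a b : Pn n) : Prop :=
  match a, b with
  | .fc S, .fc T => (S ≤ T)
  | .fc S, .vx i => (mx _ S ≤ i)
  | .vx _, .fc _ => (False)
  | .vx i, .vx j => (i ≤ j)

instance (n : ℕ) : PartialOrder (Pn n) where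
  le := Pn.le
  le_refl a := by cases a <;> exact le_rfl
  le_trans a b c h h' := by
    cases a <;> cases b <;> cases c
    all_goals first
      | (exact h.elim)
      | (exact h'.elim)
      | (exact le_trans (α := Ch _) h h')
      | (exact le_trans (α := Fin _) h h')
      | (exact le_trans (α := Fin _) ((mx _).monotone h) h')
  le_antisymm a b h h' := by
    cases a <;> cases b
    all_goals first
      | (exact h.elim)
      | (exact h'.elim)
      | (exact congrArg _ (le_antisymm (α := Ch _) h h'))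
      | (exact congrArg _ (le_antisymm (α := Fin _) h h'))

theorem Pn.fc_le_fc {n : ℕ} {S T : Ch (Fin (n + 1))} : Pn.fc S ≤ Pn.fc T ↔ S ≤ T := Iff.rfl
theorem Pn.fc_le_vx {n : ℕ} {S : Ch (Fin (n + 1))} {i : Fin (n + 1)} :
    Pn.fc S ≤ Pn.vx i ↔ mx _ S ≤ i := Iff.rfl
theorem Pn.not_vx_le_fc {n : ℕ} {S : Ch (Fin (n + 1))} {i : Fin (n + 1)} :
    ¬ Pn.vx i ≤ Pn.fc S := id
theorem Pn.vx_le_vx {n : ℕ} {i j : Fin (n + 1)} : Pn.vx i ≤ Pn.vx j ↔ i ≤ j := Iff.rfl

/-- Faces as elements of the cylinder. -/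
def Pn.fcO (n : ℕ) : Ch (Fin (n + 1)) →o Pn n := ⟨Pn.fc, fun _ _ h => h⟩

/-- Vertices as elements of the cylinder. -/
def Pn.vxO (n : ℕ) : Fin (n + 1) →o Pn n := ⟨Pn.vx, fun _ _ h => h⟩

/-- The projection of the cylinder. -/
def Pn.pr (n : ℕ) : Pn n →o Fin (n + 1) where
  toFun a := match a with
    | .fc S => (mx _ S)
    | .vx i => (i)
  monotone' a b h := by
    cases a <;> cases b
    · exact (mx _).monotone h
    · exact h
    · exact h.elim
    · exact h

/-- The vertices used by an element of the cylinder. -/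
def Pn.supp {n : ℕ} (a : Pn n) : Finset (Fin (n + 1)) :=
  match a with
  | .fc S => (S.finset)
  | .vx i => ({i})

/-- The subdivided end together with the cylinder of the boundary. -/
def bdP (n : ℕ) : (NP (Pn n)).Subcomplex where
  obj _ := {σ | (∀ i, ∃ S, NP.fn σ i = Pn.fc S) ∨ ∃ v, ∀ i, v ∉ (NP.fn σ i).supp}
  map _ _ h := h.imp (fun h _ => h _) fun ⟨v, h⟩ => ⟨v, fun _ => h _⟩

end Vale.Agent.P213
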