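import Vale.Agent.P213.SZig

/-! P213: comparison of the two extension functors, first properties. -/

open CategoryTheory Simplicial MonoidalCategory Opposite Limits CartesianMonoidalCategory

noncomputable section

namespace Vale.Agent.P213

/-- Removing the universe lift from the vertices. -/
def sexDown (L : Type) [PartialOrder L] : ULift.{0} L →o L := ⟨ULift.down, fun _ _ h => h⟩

/-- Adding the universe lift to the vertices. -/
def sexUp (L : Type) [PartialOrder L] : L →o ULift.{0} L := ⟨ULift.up, fun _ _ h => h⟩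

theorem sex_down_up {L : Type} [PartialOrder L] (S : Ch L) :
    chMap (sexDown L) (chMap (sexUp L) S) = S :=
  DFunLike.congr_fun ((chMap_comp (sexUp L) (sexDown L)).symm.trans chMap_id) S

theorem sex_up_down {L : Type} [PartialOrder L] (S : Ch (ULift.{0} L)) :
    chMap (sexUp L) (chMap (sexDown L) S) = S :=
  DFunLike.congr_fun ((chMap_comp (sexDown L) (sexUp L)).symm.trans chMap_id) S

theorem sex_functor_ext {A B : Type} [Preorder A] [PartialOrder B] {F G : A ⥤ B}
    (h : ∀ a, F.obj a = G.obj a) : F = G :=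
  CategoryTheory.Functor.ext h fun _ _ _ => Subsingleton.elim _ _

/-- The two nerves of the poset of chains. -/
def sexObjIso (L : Type) [PartialOrder L] : NP (Ch L) ≅ nerve (Ch (ULift.{0} L)) where
  hom := { app _ := TypeCat.ofHom fun τ => ((chMap (sexUp L)).comp τ).monotone.functor }
  inv := { app _ := TypeCat.ofHom fun σ =>
    (chMap (sexDown L)).comp ⟨σ.obj, CategoryTheory.Functor.monotone σ⟩ }
  hom_inv_id := by
    ext m τ
    exact OrderHom.ext _ _ (funext fun i => sex_down_up _)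
  inv_hom_id := by
    refine NatTrans.ext (funext fun m => TypeCat.homEquiv.injective (funext fun σ => ?_))
    refine sex_functor_ext (A := Fin (m.unop.len + 1)) (B := Ch (ULift.{0} L)) fun i => ?_
    exact sex_up_down (σ.obj i)

/-- The two cosimplicial subdivisions. -/
def sexIso : sdS ≅ SimplexCategory.sd.{0} :=
  NatIso.ofComponents (fun n => sexObjIso (Fin (n.len + 1))) fun {n n'} f => by
    ext m τ
    refine sex_functor_ext fun i => ?_
    exact DFunLike.congr_fun ((chMap_comp f.toOrderHom (sexUp _)).symm.trans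
      (chMap_comp (P' := ULift.{0} (Fin (n.len + 1))) (P'' := ULift.{0} (Fin (n'.len + 1)))
        (sexUp _) (SimplexCategory.toPartOrd.{0}.map f).hom)) (NP.fn τ i)

/-- Compare `SimplexCategory.sd` (nerve of the poset of nonempty chains in `ULift (Fin _)`) with
`sdS`, then `Presheaf.restrictedULiftYoneda`. -/
theorem exists_exIso : Nonempty (SSet.ex.{0} ≅ Ex) := by
  exact ⟨Functor.isoWhiskerRight uliftYonedaIsoYoneda _ ≪≫
    Functor.isoWhiskerLeft yoneda ((Functor.whiskeringLeft _ _ _).mapIso (NatIso.op sexIso))⟩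

/-- The comparison isomorphism. -/
def exIso : SSet.ex.{0} ≅ Ex := exists_exIso.some

/-- The subdivision is left adjoint to `Ex`. -/
def adjSd : SSet.sd.{0} ⊣ Ex := SSet.sdExAdjunction.ofNatIsoRight exIso

/-- The last vertex map. -/
def lam (X : SSet.{0}) : SSet.sd.obj X ⟶ X := (adjSd.homEquiv X X).symm (jX X)

theorem unit_lam (X : SSet.{0}) : adjSd.unit.app X ≫ Ex.map (lam X) = jX X := by
  exact (adjSd.homEquiv_unit _ _ _).symm.trans ((adjSd.homEquiv X X).apply_symm_apply _)

theorem adjSd_unit (X : SSet.{0}) :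
    adjSd.unit.app X = SSet.sdExAdjunction.unit.app X ≫ exIso.hom.app (SSet.sd.obj X) := by
  rfl

/-- The map `mx` has the monotone section sending `i` to the initial segment up to `i`. -/
theorem mono_jX (X : SSet.{0}) : Mono (jX X) := by
  refine (NatTrans.mono_iff_mono_app _).2 fun n => (mono_iff_injective _).2 fun x y h => ?_
  let s : Fin (n.unop.len + 1) →o Ch (Fin (n.unop.len + 1)) :=
    ⟨fun i => chMk (Finset.Iic i) ⟨i, Finset.mem_Iic.2 le_rfl⟩,
      fun _ _ hij => Finset.Iic_subset_Iic.2 hij⟩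
  have hs : mkH (a := n.unop) (b := n.unop) ((mx _).comp s) = 𝟙 _ := by
    refine SimplexCategory.Hom.ext _ _ (OrderHom.ext _ _ (funext fun i => ?_))
    exact le_antisymm (Finset.mem_Iic.1 (mx_mem (s i))) (le_mx (Finset.mem_Iic.2 le_rfl))
  have key : ∀ z : X.obj n, (Ex.fn ((jX X).app n z)).app n s = z := fun z => by
    change X.map (mkH (a := n.unop) (b := n.unop) ((mx _).comp s)).op z = z
    rw [hs]
    exact X.map_id_apply n z
  rw [← key x, ← key y]
  exact congrArg (fun w => (Ex.fn w).app n s) h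

/-- Levelwise `Ex` is corepresented by the finite simplicial sets `NP (Ch (Fin _))`
(`finite_NP`, finite implies finitely presentable). -/
theorem Ex_filtered : PreservesFilteredColimitsOfSize.{0, 0} Ex := by
  refine ⟨fun J _ _ => preservesColimitsOfShape_of_evaluation _ _ fun n => ?_⟩
  have : Finite (Ch (Fin (n.unop.len + 1))) :=
    Finite.of_injective (fun S => S.finset) fun _ _ h => le_antisymm h.le h.ge
  have := finite_NP (Ch (Fin (n.unop.len + 1)))
  exact inferInstanceAs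
    (PreservesColimitsOfShape J (coyoneda.obj (op (NP (Ch (Fin (n.unop.len + 1)))))))

theorem ex_filtered : PreservesFilteredColimitsOfSize.{0, 0} SSet.ex.{0} := by
  have := Ex_filtered
  exact ⟨fun J _ _ => preservesColimitsOfShape_of_natIso exIso.symm⟩

/-- Use `Htp.of_fun` with `lift (Ex.fn x) (NPmap (φ.comp (mx _)) ≫ (npIso ⦋1⦌).inv) ≫ H`. -/
theorem Htp.ex {X Y : SSet.{0}} {f g : X ⟶ Y} (h : Htp f g) : Htp (Ex.map f) (Ex.map g) := by
  obtain ⟨H, rfl, rfl⟩ := h
  refine Htp.of_fun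
    (fun m φ x => lift (Ex.fn x) (NPmap (φ.comp (mx _)) ≫ (npIso ⦋1⦌).inv) ≫ H) ?_
    (fun _ _ => rfl) fun _ _ => rfl
  intro m m' α φ x
  have e : (φ.comp α.unop.toOrderHom).comp (mx _) =
      (φ.comp (mx _)).comp (chMap α.unop.toOrderHom) :=
    OrderHom.ext _ _ (funext fun S => congrArg φ (mx_chMap _ S).symm)
  change lift _ (NPmap ((φ.comp α.unop.toOrderHom).comp (mx _)) ≫ _) ≫ H = _
  rw [e]
  rfl

/-- The union of the chains indexed by a chain. -/
def sexU {I L : Type} [PartialOrder I] [LinearOrder L] (τ : I → Ch L) : Ch I →o Ch L where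
  toFun T := chMk (T.finset.biUnion fun i => (τ i).finset)
    (T.nonempty.biUnion fun i _ => (τ i).nonempty)
  monotone' _ _ h := Finset.biUnion_subset_biUnion_of_subset_left _ h

theorem mem_sexU {I L : Type} [PartialOrder I] [LinearOrder L] (τ : I → Ch L) (T : Ch I) (y : L) :
    y ∈ (sexU τ T).finset ↔ ∃ i ∈ T.finset, y ∈ (τ i).finset := Finset.mem_biUnion

theorem sexU_comp {I I' L : Type} [PartialOrder I] [PartialOrder I'] [LinearOrder L]
    (τ : I → Ch L) (β : I' →o I) : sexU (fun i => τ (β i)) = (sexU τ).comp (chMap β) := by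
  ext T y
  simp only [OrderHom.comp_coe, Function.comp_apply, mem_sexU, mem_chMap]
  exact ⟨fun ⟨i, h, h'⟩ => ⟨_, ⟨i, h, rfl⟩, h'⟩, fun ⟨_, ⟨i, h, e⟩, h'⟩ => ⟨i, h, e ▸ h'⟩⟩

theorem comp_sexU {I L L' : Type} [PartialOrder I] [LinearOrder L] [LinearOrder L']
    (τ : I → Ch L) (α : L →o L') : (chMap α).comp (sexU τ) = sexU fun i => chMap α (τ i) := by
  ext T y
  simp only [OrderHom.comp_coe, Function.comp_apply, mem_sexU, mem_chMap]
  exact ⟨fun ⟨x, ⟨i, h, h'⟩, e⟩ => ⟨i, h, x, h', e⟩, fun ⟨i, h, x, h', e⟩ => ⟨x, ⟨i, h, h'⟩, e⟩⟩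

/-- A chain is replaced by its largest element when `φ` vanishes there. -/
def sexPsi {L : Type} [LinearOrder L] (φ : L →o Fin 2) (S : Ch L) : Ch L :=
  if φ (mx L S) = 0 then chMk {mx L S} (Finset.singleton_nonempty _) else S

theorem chMap_sexPsi {L L' : Type} [LinearOrder L] [LinearOrder L'] (φ : L' →o Fin 2)
    (α : L →o L') (S : Ch L) : chMap α (sexPsi (φ.comp α) S) = sexPsi φ (chMap α S) := by
  simp only [sexPsi, mx_chMap]
  change chMap α (if φ (α (mx L S)) = 0 then _ else _) = _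
  split_ifs
  · ext y
    rw [mem_chMap]
    simp [chMk, eq_comm]
  · rfl

/-- The homotopy on a simplex. -/
def sexF {X : SSet.{0}} {L : Type} [LinearOrder L] (φ : L →o Fin 2) (x : NP (Ch L) ⟶ X) :
    NP (Ch L) ⟶ Ex.obj X where
  app _ := TypeCat.ofHom fun τ => NPmap (sexU fun i => sexPsi φ (NP.fn τ i)) ≫ x
  naturality k k' β := by
    ext τ
    exact congrArg (fun z => NPmap z ≫ x)
      (sexU_comp (fun i => sexPsi φ (NP.fn τ i)) β.unop.toOrderHom)

/-- Use `Htp.of_fun`: for `x`, `φ`, and a simplex `τ` of `NP (Ch (Fin (m + 1)))` of dimension `k`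
take the map of nerves induced by `T ↦ ⋃ i ∈ T, ψ (τ i)` followed by `Ex.fn x`, where
`ψ S = {max S}` if `φ (max S) = 0` and `ψ S = S` otherwise. -/
theorem htp_jX_ex (X : SSet.{0}) : Htp (jX (Ex.obj X)) (Ex.map (jX X)) := by
  refine Htp.of_fun (fun m φ x => sexF φ (Ex.fn x)) (fun {m m'} α φ x => ?_) (fun m x => ?_)
    fun m x => ?_
  · refine NatTrans.ext (funext fun k => TypeCat.homEquiv.injective (funext fun τ => ?_))
    have e := comp_sexU (fun i => sexPsi (φ.comp α.unop.toOrderHom) (NP.fn τ i))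
      α.unop.toOrderHom
    simp only [chMap_sexPsi] at e
    exact congrArg (fun z => NPmap z ≫ Ex.fn x) e
  · refine NatTrans.ext (funext fun k => TypeCat.homEquiv.injective (funext fun τ => ?_))
    have e : sexU (fun i => sexPsi (OrderHom.const _ 0) (NP.fn τ i)) =
        chMap ((mx _).comp (NP.fn τ)) := by
      ext T y
      rw [mem_sexU, mem_chMap]
      simp [sexPsi, chMk, eq_comm]
    exact congrArg (fun z => NPmap z ≫ Ex.fn x) e
  · refine NatTrans.ext (funext fun k => TypeCat.homEquiv.injective (funext fun τ => ?_))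
    have e : sexU (fun i => sexPsi (OrderHom.const _ 1) (NP.fn τ i)) = (NP.fn τ).comp (mx _) := by
      ext T y
      rw [mem_sexU]
      exact ⟨fun ⟨i, h, h'⟩ => (NP.fn τ).monotone (le_mx h) h', fun h => ⟨_, mx_mem T, h⟩⟩
    refine (congrArg (fun z => NPmap z ≫ Ex.fn x) e).trans ?_
    exact congrArg (NPmap (mx _) ≫ ·) (cls_comp (n := k.unop) τ (Ex.fn x))

theorem sex_subIso {X Y : SSet.{0}} (e : X ≅ Y) (A : X.Subcomplex) (B : Y.Subcomplex)
    (h : ∀ m (x : X.obj m), x ∈ A.obj m ↔ e.hom.app m x ∈ B.obj m) :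
    ∃ e' : (A : SSet.{0}) ≅ (B : SSet.{0}), e'.hom ≫ B.ι = A.ι ≫ e.hom := by
  refine ⟨⟨SSet.Subcomplex.lift (A.ι ≫ e.hom) ?_, SSet.Subcomplex.lift (B.ι ≫ e.inv) ?_,
    ?_, ?_⟩, rfl⟩
  · rintro m _ ⟨x, rfl⟩
    exact (h m x.1).1 x.2
  · rintro m _ ⟨y, rfl⟩
    refine (h m _).2 ?_
    have e1 : e.hom.app m (e.inv.app m y.1) = y.1 := by simp
    exact e1.symm ▸ y.2
  · refine (cancel_mono A.ι).1 ?_
    change (A.ι ≫ e.hom) ≫ e.inv = A.ι
    simp
  · refine (cancel_mono B.ι).1 ?_
    change (B.ι ≫ e.inv) ≫ e.hom = B.ι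
    simp

/-- A simplex of the standard simplex, viewed in the nerve. -/
theorem exists_hornIso {n : ℕ} (k : Fin (n + 1)) :
    ∃ e : (CX (hornK k) : SSet.{0}) ≅ (Λ[n, k] : SSet.{0}),
      e.hom ≫ Λ[n, k].ι = (CX (hornK k)).ι ≫ (npIso ⦋n⦌).inv := by
  refine sex_subIso (npIso ⦋n⦌).symm _ _ fun m σ => ?_
  change (∃ j, j ≠ k ∧ j ∉ (chOf (NP.fn σ)).finset) ↔ Set.range (NP.fn σ) ∪ {k} ≠ Set.univ
  simp only [mem_chOf, Set.ne_univ_iff_exists_notMem, Set.mem_union, Set.mem_range,
    Set.mem_singleton_iff, not_or, and_comm]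

theorem exists_bdIso (n : ℕ) : ∃ e : (CX (bdK n) : SSet.{0}) ≅ (∂Δ[n] : SSet.{0}),
    e.hom ≫ ∂Δ[n].ι = (CX (bdK n)).ι ≫ (npIso ⦋n⦌).inv := by
  refine sex_subIso (npIso ⦋n⦌).symm _ _ fun m σ => ?_
  change (∃ j, j ∉ (chOf (NP.fn σ)).finset) ↔ ¬ Function.Surjective (NP.fn σ)
  simp only [mem_chOf, Function.Surjective, not_forall]

end Vale.Agent.P213
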