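import Vale.Agent.P213.SPn
import Vale.Agent.P213.SEx

/-! P213: descent of lifts from the extension. -/

open CategoryTheory Simplicial MonoidalCategory Opposite Limits CartesianMonoidalCategory

noncomputable section

namespace Vale.Agent.P213

variable {X Y : SSet.{0}}

theorem sdesc_cls {n : ℕ} (b : Δ[n] ⟶ Y) :
    (npIso ⦋n⦌).hom ≫ cls (SSet.yonedaEquiv b) = b := by
  obtain ⟨y, rfl⟩ := SSet.yonedaEquiv.symm.surjective b
  rw [Equiv.apply_symm_apply]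
  ext m x
  rfl

theorem sdesc_cls' {n : ℕ} (b : Δ[n] ⟶ Y) :
    cls (SSet.yonedaEquiv b) = (npIso ⦋n⦌).inv ≫ b := by
  rw [Iso.eq_inv_comp, sdesc_cls]

theorem sdesc_cls_NP {P : Type} [Preorder P] {m : SimplexCategoryᵒᵖ} (σ : (NP P).obj m) :
    cls (X := NP P) (n := m.unop) σ = NPmap (NP.fn σ) := rfl

/-- The vertices of a simplex of the standard simplex. -/
abbrev sdescV {n : ℕ} {m : SimplexCategoryᵒᵖ} (x : (Δ[n] : SSet.{0}).obj m) :
    Fin (m.unop.len + 1) →o Fin (n + 1) := NP.fn ((npIso ⦋n⦌).hom.app m x)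

theorem sdesc_inj {n : ℕ} {m : SimplexCategoryᵒᵖ} {x y : (Δ[n] : SSet.{0}).obj m}
    (h : sdescV x = sdescV y) : x = y :=
  SSet.stdSimplex.objEquiv.injective (SimplexCategory.Hom.ext _ _ h)

theorem sdesc_fn {n : ℕ} (l : Δ[n] ⟶ Ex.obj X) {m : SimplexCategoryᵒᵖ}
    (x : (Δ[n] : SSet.{0}).obj m) :
    Ex.fn (l.app m x) = NPmap (chMap (sdescV x)) ≫ Ex.fn (SSet.yonedaEquiv l) := by
  obtain ⟨y, rfl⟩ := SSet.yonedaEquiv.symm.surjective l
  rw [Equiv.apply_symm_apply]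
  rfl

theorem sdesc_mem {n : ℕ} {m : SimplexCategoryᵒᵖ} (x : (Δ[n] : SSet.{0}).obj m) :
    x ∈ (∂Δ[n] : SSet.Subcomplex _).obj m ↔ ∃ v, ∀ i, sdescV x i ≠ v := by
  change ¬ Function.Surjective (sdescV x) ↔ _
  simp only [Function.Surjective, not_forall, not_exists, ne_eq]

/-- A simplex of the boundary with given vertices. -/
def sdescB {n : ℕ} {m : SimplexCategoryᵒᵖ} (t : Fin (m.unop.len + 1) →o Fin (n + 1))
    (v : Fin (n + 1)) (h : ∀ i, t i ≠ v) : (∂Δ[n] : SSet.{0}).obj m :=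
  ⟨(npIso ⦋n⦌).inv.app m t, (sdesc_mem _).2 ⟨v, h⟩⟩

theorem sdesc_push {n : ℕ} {v w : Fin (n + 1)} (h : w ≠ v) :
    ∃ s : Fin (n + 1) →o Fin (n + 1), (∀ i, s i ≠ v) ∧ ∀ i, i ≠ v → s i = i := by
  obtain ⟨u, hu⟩ : ∃ u : Fin (n + 1), u.val = v.val + 1 ∨ u.val + 1 = v.val := by
    have h' : w.val ≠ v.val := fun e => h (Fin.ext e)
    have := w.2
    have := v.2
    by_cases e : v.val = 0
    · exact ⟨⟨v.val + 1, by omega⟩, Or.inl rfl⟩
    · exact ⟨⟨v.val - 1, by omega⟩, Or.inr (by simp only; omega)⟩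
  refine ⟨⟨fun i => if i = v then u else i, fun i j hij => ?_⟩, fun i => ?_, fun i hi => if_neg hi⟩
  · simp only [Fin.le_def, Fin.ext_iff] at hij ⊢
    split_ifs <;> omega
  · change (if i = v then u else i) ≠ v
    split_ifs with e
    · intro e'
      rw [e'] at hu
      omega
    · exact e

/-- On the subdivision of the boundary, `l` is `a` after the last vertex map. -/
theorem sdesc_overlap {n : ℕ} (a : (∂Δ[n] : SSet.{0}) ⟶ X) (l : Δ[n] ⟶ Ex.obj X)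
    (h1 : ∂Δ[n].ι ≫ l = a ≫ jX X) {m : SimplexCategoryᵒᵖ} (τ : (NP (Ch (Fin (n + 1)))).obj m)
    (v : Fin (n + 1)) (x : (∂Δ[n] : SSet.{0}).obj m) (hv : ∀ i, v ∉ (NP.fn τ i).finset)
    (hx : sdescV x.1 = (mx _).comp (NP.fn τ)) :
    (Ex.fn (SSet.yonedaEquiv l)).app m τ = a.app m x := by
  obtain ⟨s, hs, hs'⟩ := sdesc_push (v := v) (w := mx _ (NP.fn τ 0))
    (fun e => hv 0 (e ▸ mx_mem _))
  let y : (∂Δ[n] : SSet.{0}).obj (op ⦋n⦌) := sdescB (m := op ⦋n⦌) s v hs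
  have e1 : l.app _ y.1 = (jX X).app _ (a.app _ y) :=
    ConcreteCategory.congr_hom (NatTrans.congr_app h1 (op ⦋n⦌)) y
  have e2 : NPmap (chMap s) ≫ Ex.fn (SSet.yonedaEquiv l) =
      NPmap (mx _) ≫ cls (X := X) (n := ⦋n⦌) (a.app _ y) :=
    (sdesc_fn l y.1).symm.trans (congrArg Ex.fn e1)
  have e3 : (NPmap (chMap s)).app m τ = τ := by
    refine OrderHom.ext _ _ (funext fun i => ?_)
    change chMap s (NP.fn τ i) = NP.fn τ i
    ext z
    rw [mem_chMap]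
    constructor
    · rintro ⟨z', hz, rfl⟩
      rwa [hs' z' fun e => hv i (e ▸ hz)]
    · exact fun hz => ⟨z, hz, hs' z fun e => hv i (e ▸ hz)⟩
  have e4 := ConcreteCategory.congr_hom (NatTrans.congr_app e2 m) τ
  have e5 : (∂Δ[n] : SSet.{0}).map
      (mkH (a := m.unop) (b := ⦋n⦌) ((mx _).comp (NP.fn τ))).op y = x := by
    refine Subtype.ext (sdesc_inj ?_)
    rw [hx]
    refine OrderHom.ext _ _ (funext fun i => ?_)
    exact hs' _ fun e => hv i (e ▸ mx_mem _)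
  calc (Ex.fn (SSet.yonedaEquiv l)).app m τ
      = (Ex.fn (SSet.yonedaEquiv l)).app m ((NPmap (chMap s)).app m τ) := by rw [e3]
    _ = X.map (mkH (a := m.unop) (b := ⦋n⦌) ((mx _).comp (NP.fn τ))).op (a.app _ y) := e4
    _ = a.app m x := by rw [← e5]; exact (a.naturality_apply _ y).symm

theorem sdesc_pr_mem {n : ℕ} (q : Pn n) : Pn.pr n q ∈ q.supp := by
  cases q with
  | fc S => exact mx_mem S
  | vx i => exact Finset.mem_singleton_self i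

theorem sdesc_faces {n : ℕ} {m : SimplexCategoryᵒᵖ} (σ : (NP (Pn n)).obj m)
    (h : ∀ i, ∃ S, NP.fn σ i = Pn.fc S) :
    ∃ τ : (NP (Ch (Fin (n + 1)))).obj m, (NPmap (Pn.fcO n)).app m τ = σ := by
  choose S hS using h
  refine ⟨(⟨S, fun i j hij => ?_⟩ : Fin _ →o _), OrderHom.ext _ _ (funext fun i => (hS i).symm)⟩
  have := (NP.fn σ).monotone hij
  rwa [hS, hS] at this

theorem sdesc_fc_inj {n : ℕ} {m : SimplexCategoryᵒᵖ} {τ τ' : (NP (Ch (Fin (n + 1)))).obj m}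
    (h : (NPmap (Pn.fcO n)).app m τ = (NPmap (Pn.fcO n)).app m τ') : τ = τ' :=
  OrderHom.ext _ _ (funext fun i => Pn.fc.inj (congrArg (fun σ => NP.fn σ i) h))

theorem sdesc_val {n : ℕ} (a : (∂Δ[n] : SSet.{0}) ⟶ X) (l : Δ[n] ⟶ Ex.obj X)
    (h1 : ∂Δ[n].ι ≫ l = a ≫ jX X) (m : SimplexCategoryᵒᵖ) (σ : (bdP n : SSet.{0}).obj m) :
    ∃ y : X.obj m, (∀ τ, (NPmap (Pn.fcO n)).app m τ = σ.1 →
        y = (Ex.fn (SSet.yonedaEquiv l)).app m τ) ∧
      ∀ (v : Fin (n + 1)) (x : (∂Δ[n] : SSet.{0}).obj m), (∀ i, v ∉ (NP.fn σ.1 i).supp) →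
        sdescV x.1 = (Pn.pr n).comp (NP.fn σ.1) → y = a.app m x := by
  by_cases h : ∀ i, ∃ S, NP.fn σ.1 i = Pn.fc S
  · obtain ⟨τ, hτ⟩ := sdesc_faces σ.1 h
    refine ⟨(Ex.fn (SSet.yonedaEquiv l)).app m τ, fun τ' h' => ?_, fun v x hv hx => ?_⟩
    · rw [sdesc_fc_inj (hτ.trans h'.symm)]
    · rw [← hτ] at hv hx
      exact sdesc_overlap a l h1 τ v x hv hx
  · obtain ⟨v, hv⟩ := σ.2.resolve_left h
    refine ⟨a.app m (sdescB ((Pn.pr n).comp (NP.fn σ.1)) v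
      fun i e => hv i (e ▸ sdesc_pr_mem _)), fun τ h' => ?_, fun v' x _ hx => ?_⟩
    · exact absurd (fun i => ⟨NP.fn τ i, by rw [← h']; rfl⟩) h
    · exact congrArg _ (Subtype.ext (sdesc_inj hx.symm))

theorem sdesc_map {n : ℕ} (a : (∂Δ[n] : SSet.{0}) ⟶ X) (l : Δ[n] ⟶ Ex.obj X)
    (h1 : ∂Δ[n].ι ≫ l = a ≫ jX X) : ∃ M : (bdP n : SSet.{0}) ⟶ X,
      ∀ (m : SimplexCategoryᵒᵖ) (σ : (bdP n : SSet.{0}).obj m),
      (∀ τ, (NPmap (Pn.fcO n)).app m τ = σ.1 →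
        M.app m σ = (Ex.fn (SSet.yonedaEquiv l)).app m τ) ∧
      ∀ (v : Fin (n + 1)) (x : (∂Δ[n] : SSet.{0}).obj m), (∀ i, v ∉ (NP.fn σ.1 i).supp) →
        sdescV x.1 = (Pn.pr n).comp (NP.fn σ.1) → M.app m σ = a.app m x := by
  choose F hF using sdesc_val a l h1
  refine ⟨{ app := fun m => TypeCat.ofHom (F m), naturality := fun m m' α => ?_ }, hF⟩
  ext σ
  change F m' ((bdP n : SSet.{0}).map α σ) = X.map α (F m σ)
  rcases σ.2 with h | ⟨v, hv⟩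
  · obtain ⟨τ, hτ⟩ := sdesc_faces σ.1 h
    rw [(hF m σ).1 τ hτ, (hF m' _).1 ((NP _).map α τ) (by
      change _ = (NP (Pn n)).map α σ.1
      rw [← hτ]; rfl)]
    exact (Ex.fn (SSet.yonedaEquiv l)).naturality_apply α τ
  · let x : (∂Δ[n] : SSet.{0}).obj m := sdescB ((Pn.pr n).comp (NP.fn σ.1)) v
      fun i e => hv i (e ▸ sdesc_pr_mem _)
    rw [(hF m σ).2 v x hv rfl, (hF m' _).2 v ((∂Δ[n] : SSet.{0}).map α x) (fun i => hv _) rfl]
    exact a.naturality_apply α x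

/-- Define a map on `bdP n`: on simplices made of faces use `l` (a simplex of `Ex.obj X`), on
simplices which miss a vertex use `a` after the projection `Pn.pr`; the two agree on the overlap
by `h1`. Then lift along `ano_bdP`. -/
theorem exists_Pn_ext {p : X ⟶ Y} (hp : KanFib p) {n : ℕ} (a : (∂Δ[n] : SSet.{0}) ⟶ X)
    (b : Δ[n] ⟶ Y) (hab : a ≫ p = ∂Δ[n].ι ≫ b) (l : Δ[n] ⟶ Ex.obj X)
    (h1 : ∂Δ[n].ι ≫ l = a ≫ jX X) (h2 : l ≫ Ex.map p = b ≫ jX Y) :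
    ∃ L : NP (Pn n) ⟶ X, NPmap (Pn.fcO n) ≫ L = Ex.fn (SSet.yonedaEquiv l) ∧
      L ≫ p = NPmap (Pn.pr n) ≫ (npIso ⦋n⦌).inv ≫ b ∧
      ∀ (m : SimplexCategoryᵒᵖ) (σ : (NP (Pn n)).obj m) (v : Fin (n + 1))
        (x : (∂Δ[n] : SSet.{0}).obj m), (∀ i, v ∉ (NP.fn σ i).supp) →
        (npIso ⦋n⦌).hom.app m x.1 = (NPmap (Pn.pr n)).app m σ → L.app m σ = a.app m x := by
  obtain ⟨M, hM⟩ := sdesc_map a l h1
  have e0 : Ex.fn (SSet.yonedaEquiv l) ≫ p = NPmap (mx _) ≫ (npIso ⦋n⦌).inv ≫ b := by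
    rw [← sdesc_cls']
    exact congrArg (fun f => Ex.fn (SSet.yonedaEquiv f)) h2
  have sq : CommSq M (bdP n).ι p (NPmap (Pn.pr n) ≫ (npIso ⦋n⦌).inv ≫ b) := by
    refine ⟨?_⟩
    ext m σ
    change p.app m (M.app m σ) = b.app m ((npIso ⦋n⦌).inv.app m ((NPmap (Pn.pr n)).app m σ.1))
    rcases σ.2 with h | ⟨v, hv⟩
    · obtain ⟨τ, hτ⟩ := sdesc_faces σ.1 h
      rw [(hM m σ).1 τ hτ, ← hτ]
      exact ConcreteCategory.congr_hom (NatTrans.congr_app e0 m) τ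
    · let x : (∂Δ[n] : SSet.{0}).obj m := sdescB ((Pn.pr n).comp (NP.fn σ.1)) v
        fun i e => hv i (e ▸ sdesc_pr_mem _)
      rw [(hM m σ).2 v x hv rfl]
      exact ConcreteCategory.congr_hom (NatTrans.congr_app hab m) x
  have hl : HasLiftingProperty (bdP n).ι p := ano_bdP n p hp
  have hL : ∀ (m : SimplexCategoryᵒᵖ) (σ : (bdP n : SSet.{0}).obj m),
      sq.lift.app m σ.1 = M.app m σ := fun m σ =>
    ConcreteCategory.congr_hom (NatTrans.congr_app sq.fac_left m) σ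
  refine ⟨sq.lift, ?_, sq.fac_right, fun m σ v x hv hx => ?_⟩
  · ext m τ
    exact (hL m ⟨(NPmap (Pn.fcO n)).app m τ, Or.inl fun i => ⟨_, rfl⟩⟩).trans
      ((hM m _).1 τ rfl)
  · exact (hL m ⟨σ, Or.inr ⟨v, hv⟩⟩).trans ((hM m _).2 v x hv hx)

theorem sdesc_vx {n : ℕ} (a : (∂Δ[n] : SSet.{0}) ⟶ X) (L : NP (Pn n) ⟶ X)
    (h : ∀ (m : SimplexCategoryᵒᵖ) (σ : (NP (Pn n)).obj m) (v : Fin (n + 1))
      (x : (∂Δ[n] : SSet.{0}).obj m), (∀ i, v ∉ (NP.fn σ i).supp) →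
      (npIso ⦋n⦌).hom.app m x.1 = (NPmap (Pn.pr n)).app m σ → L.app m σ = a.app m x) :
    ∂Δ[n].ι ≫ (npIso ⦋n⦌).hom ≫ NPmap (Pn.vxO n) ≫ L = a := by
  ext m x
  obtain ⟨v, hv⟩ := (sdesc_mem x.1).1 x.2
  exact h m ((NPmap (Pn.vxO n)).app m ((npIso ⦋n⦌).hom.app m x.1)) v x
    (fun i e => hv i (Finset.mem_singleton.1 e).symm)
    (OrderHom.ext _ _ (funext fun _ => rfl))

/-- Restrict `exists_Pn_ext` to the vertices. -/
theorem descent {p : X ⟶ Y} (hp : KanFib p) {n : ℕ} (a : (∂Δ[n] : SSet.{0}) ⟶ X)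
    (b : Δ[n] ⟶ Y) (hab : a ≫ p = ∂Δ[n].ι ≫ b) (l : Δ[n] ⟶ Ex.obj X)
    (h1 : ∂Δ[n].ι ≫ l = a ≫ jX X) (h2 : l ≫ Ex.map p = b ≫ jX Y) :
    ∃ l' : Δ[n] ⟶ X, ∂Δ[n].ι ≫ l' = a ∧ l' ≫ p = b := by
  obtain ⟨L, -, e2, e3⟩ := exists_Pn_ext hp a b hab l h1 h2
  refine ⟨(npIso ⦋n⦌).hom ≫ NPmap (Pn.vxO n) ≫ L, sdesc_vx a L e3, ?_⟩
  rw [Category.assoc, Category.assoc, e2]
  exact (npIso ⦋n⦌).hom_inv_id_assoc b

/-- The homotopy on chains. -/
def sdescH {n k : ℕ} (φ : Fin (k + 1) →o Fin 2) (t : Fin (k + 1) →o Fin (n + 1)) :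
    Ch (Fin (k + 1)) →o Pn n where
  toFun S := if φ (mx _ S) = 0 then Pn.fc (chMap t S) else Pn.vx (t (mx _ S))
  monotone' S T h := by
    have h1 := (mx _).monotone h
    have h2 := φ.monotone h1
    dsimp only
    split_ifs with e1 e2 e2
    · exact (chMap t).monotone h
    · rw [Pn.fc_le_vx, mx_chMap]
      exact t.monotone h1
    · rw [e2] at h2
      exact absurd (le_antisymm h2 (Fin.zero_le _)) e1
    · exact t.monotone h1

theorem sdescH_apply {n k : ℕ} (φ : Fin (k + 1) →o Fin 2) (t : Fin (k + 1) →o Fin (n + 1))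
    (S : Ch (Fin (k + 1))) :
    sdescH φ t S = if φ (mx _ S) = 0 then Pn.fc (chMap t S) else Pn.vx (t (mx _ S)) := rfl

theorem sdescH_comp {n k k' : ℕ} (φ : Fin (k + 1) →o Fin 2) (t : Fin (k + 1) →o Fin (n + 1))
    (α : Fin (k' + 1) →o Fin (k + 1)) :
    sdescH (φ.comp α) (t.comp α) = (sdescH φ t).comp (chMap α) := by
  refine OrderHom.ext _ _ (funext fun S => ?_)
  change sdescH (φ.comp α) (t.comp α) S = sdescH φ t (chMap α S)
  rw [sdescH_apply, sdescH_apply, mx_chMap, chMap_comp]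
  rfl

theorem sdescH_pr {n k : ℕ} (φ : Fin (k + 1) →o Fin 2) (t : Fin (k + 1) →o Fin (n + 1))
    (S : Ch (Fin (k + 1))) : Pn.pr n (sdescH φ t S) = t (mx _ S) := by
  rw [sdescH_apply]
  split_ifs
  · exact mx_chMap t S
  · rfl

theorem sdescH_supp {n k : ℕ} (φ : Fin (k + 1) →o Fin 2) (t : Fin (k + 1) →o Fin (n + 1))
    (S : Ch (Fin (k + 1))) {v : Fin (n + 1)} (hv : ∀ i, t i ≠ v) : v ∉ (sdescH φ t S).supp := by
  rw [sdescH_apply]
  split_ifs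
  · intro h
    obtain ⟨z, -, e⟩ := (mem_chMap t S v).1 h
    exact hv z e
  · exact fun h => hv _ (Finset.mem_singleton.1 h).symm

/-- Apply `exists_Pn_ext` to the map to the terminal object (`Ex` of it is terminal, being a right
adjoint). The homotopy (`htpMk`) sends `τ, φ` to the map of nerves induced by
`S ↦ if φ (max S) = 0 then fc (chMap τ S) else vx (τ (max S))`, followed by `L`. -/
theorem hl_jX (hX : X.KanComplex) : HL (jX X) := by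
  intro n a b hab
  obtain ⟨L, e1, -, e3⟩ := exists_Pn_ext ((kan_iff X).1 hX) a (terminal.from _)
    (terminal.hom_ext _ _) b hab.symm (by
      ext m x
      exact terminal.hom_ext (P := NP (Ch (Fin (m.unop.len + 1)))) _ _)
  refine ⟨(npIso ⦋n⦌).hom ≫ NPmap (Pn.vxO n) ≫ L,
    htpMk (X := Δ[n]) (Y := Ex.obj X) (fun m φ x => NPmap (sdescH φ (sdescV x)) ≫ L)
      (fun {m m'} α φ x => ?_), sdesc_vx a L e3, ?_, ?_, ?_⟩
  · exact congrArg (fun f => NPmap f ≫ L) (sdescH_comp φ (sdescV x) α.unop.toOrderHom)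
  · ext m x
    change NPmap (sdescH (OrderHom.const _ 0) (sdescV x)) ≫ L = Ex.fn (b.app m x)
    rw [sdesc_fn, ← e1]
    rfl
  · ext m x
    change NPmap (sdescH (OrderHom.const _ 1) (sdescV x)) ≫ L =
      NPmap (mx _) ≫ cls (X := X) (n := m.unop) (L.app m ((Pn.vxO n).comp (sdescV x)))
    refine Eq.trans ?_ (congrArg (fun f => NPmap (mx _) ≫ f)
      (cls_comp (X := NP (Pn n)) (n := m.unop) ((Pn.vxO n).comp (sdescV x)) L))
    rfl
  · ext m x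
    obtain ⟨v, hv⟩ := (sdesc_mem x.1.1).1 x.1.2
    change NPmap (sdescH (tm x) (sdescV x.1.1)) ≫ L =
      NPmap (mx _) ≫ cls (X := X) (n := m.unop) (a.app m x.1)
    ext k ρ
    refine (e3 k ((sdescH (tm x) (sdescV x.1.1)).comp (NP.fn ρ)) v ((∂Δ[n] : SSet.{0}).map
      (mkH (a := k.unop) (b := m.unop) ((mx _).comp (NP.fn ρ))).op x.1)
      (fun i => sdescH_supp _ _ _ hv) ?_).trans (a.naturality_apply _ x.1)
    exact OrderHom.ext _ _ (funext fun i => (sdescH_pr _ _ _).symm)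

end Vale.Agent.P213
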