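import Vale.Agent.P213.SSd

/-! P213: the extension functor and Kan fibrations. -/

open CategoryTheory Simplicial MonoidalCategory Opposite Limits CartesianMonoidalCategory

noncomputable section

namespace Vale.Agent.P213

/-- `ano_zigzag` with `ρ S = S ∪ {k}` and `c S = {k}`. -/
theorem ano_hornK {n : ℕ} (k : Fin (n + 2)) :
    Ano (NSi (Set.subset_univ (hornK k : Set (Ch (Fin (n + 2)))))) := by
  have hρ : ∀ S ∈ hornK k, chMk (insert k S.finset) (Finset.insert_nonempty _ _) ∈ hornK k :=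
    fun S ⟨j, hj, hj'⟩ => ⟨j, hj, fun h => (Finset.mem_insert.1 h).elim hj hj'⟩
  have hc : chMk {k} (Finset.singleton_nonempty _) ∈ hornK k := by
    obtain ⟨j, hj⟩ := exists_ne k
    exact ⟨j, hj, fun h => hj (Finset.mem_singleton.1 h)⟩
  refine ano_zigzag _ _ _ Set.univ
    (fun S => chMk (insert k S.finset) (Finset.insert_nonempty _ _))
    (fun _ => chMk {k} (Finset.singleton_nonempty _)) le_rfl
    (fun S _ T _ h => Finset.insert_subset_insert _ h) (fun _ _ _ _ _ => le_rfl)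
    (fun S _ => Finset.subset_insert _ _)
    (fun S _ => Finset.singleton_subset_iff.2 (Finset.mem_insert_self _ _))
    (fun m σ τ hσ h i => ?_) (fun m σ τ hσ h i => ?_) (fun _ _ _ _ _ _ => trivial)
    (fun _ _ _ _ _ _ => trivial) fun m σ τ _ h i => ?_
  · rcases h i with h | h <;> rw [h]
    exacts [hσ i, hρ _ (hσ i)]
  · rcases h i with h | h <;> rw [h]
    exacts [hc, hρ _ (hσ i)]
  · rw [h i]
    exact hc

theorem sfib_ano {n : ℕ} (k : Fin (n + 2)) : Ano (SSet.sd.map Λ[n + 1, k].ι) :=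
  (Ano.arrow_mk_iso_iff (sd_horn k).some).2 (ano_hornK k)

/-- `ano_hornK`, `sd_horn` and `adjSd.hasLiftingProperty_iff`. -/
theorem kanFib_Ex {X Y : SSet.{0}} {p : X ⟶ Y} (hp : KanFib p) : KanFib (Ex.map p) := by
  intro A B i hi
  simp only [SSet.modelCategoryQuillen.J, MorphismProperty.iSup_iff] at hi
  obtain ⟨n, ⟨k⟩⟩ := hi
  exact (adjSd.hasLiftingProperty_iff _ _).1 (sfib_ano k _ hp)

theorem kan_Ex {X : SSet.{0}} (hX : X.KanComplex) : (Ex.obj X).KanComplex := by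
  refine kan_of_ext fun n k a => ?_
  obtain ⟨l, hl⟩ := ext_of_ano (sfib_ano k) hX ((adjSd.homEquiv _ _).symm a)
  exact ⟨adjSd.homEquiv _ _ l, by
    rw [← adjSd.homEquiv_naturality_left, hl, Equiv.apply_symm_apply]⟩

theorem ano_sd {A B : SSet.{0}} {i : A ⟶ B} (hi : Ano i) : Ano (SSet.sd.map i) :=
  fun _ _ _ hp => (adjSd.hasLiftingProperty_iff _ _).2 (hi _ (kanFib_Ex hp))

/-- The image of chains under an arbitrary function. -/
def sfibIm {L L' : Type} [LinearOrder L] [LinearOrder L'] (f : L → L') : Ch L →o Ch L' :=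
  ⟨fun T => chMk (T.finset.image f) (T.nonempty.image f), fun _ _ h => Finset.image_subset_image h⟩

theorem mem_sfibIm {L L' : Type} [LinearOrder L] [LinearOrder L'] (f : L → L') (T : Ch L)
    (y : L') : y ∈ (sfibIm f T).finset ↔ ∃ x, x ∈ T.finset ∧ f x = y := Finset.mem_image

open Classical in
/-- The vertex attached to a face. -/
def sfibPsi {n : ℕ} (k : Fin (n + 2)) (S : Ch (Fin (n + 2))) : Fin (n + 2) :=
  if S ∈ hornK k then mx _ S else k

theorem sfib_mem {n m : ℕ} (k : Fin (n + 2)) (τ : Fin (m + 1) →o Ch (Fin (n + 2))) :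
    ∃ j, j ≠ k ∧ ∀ i, sfibPsi k (τ i) ≠ j := by
  classical
  rcases (Finset.univ.filter fun i => τ i ∈ hornK k).eq_empty_or_nonempty with h | h
  · obtain ⟨j, hj⟩ := exists_ne k
    refine ⟨j, hj, fun i => ?_⟩
    rw [sfibPsi, if_neg (Finset.filter_eq_empty_iff.1 h (Finset.mem_univ i))]
    exact hj.symm
  · obtain ⟨i₀, h1, h2⟩ := Finset.exists_max_image _ id h
    obtain ⟨j, hj, hj'⟩ := (Finset.mem_filter.1 h1).2
    refine ⟨j, hj, fun i => ?_⟩
    rw [sfibPsi]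
    split_ifs with h3
    · rintro rfl
      exact hj' (τ.monotone (h2 i (Finset.mem_filter.2 ⟨Finset.mem_univ _, h3⟩)) (mx_mem _))
    · exact hj.symm

/-- The universal filler. -/
def sfibG {n : ℕ} (k : Fin (n + 2)) :
    NP (Ch (Fin (n + 2))) ⟶ Ex.obj (NS (hornK k : Set (Ch (Fin (n + 2))))) where
  app m := TypeCat.ofHom fun τ =>
    SSet.Subcomplex.lift (NPmap (sfibIm fun i => sfibPsi k (NP.fn τ i))) (by
      rintro l _ ⟨σ, rfl⟩ i
      obtain ⟨j, hj, h⟩ := sfib_mem k (NP.fn τ)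
      refine ⟨j, hj, fun h' => ?_⟩
      obtain ⟨x, -, e⟩ := (mem_sfibIm _ _ _).1 h'
      exact h x e)
  naturality m m' f := by
    ext τ
    change (_ : NP _ ⟶ (NS (hornK k : Set (Ch (Fin (n + 2)))) : SSet.{0})) =
      NPmap (chMap f.unop.toOrderHom) ≫ _
    refine (cancel_mono (SSet.Subcomplex.ι _)).1 ?_
    refine congrArg NPmap (a₂ := (sfibIm fun i => sfibPsi k (NP.fn τ i)).comp
      (chMap f.unop.toOrderHom)) ?_
    ext S y
    simp only [OrderHom.comp_coe, Function.comp_apply, mem_sfibIm, mem_chMap]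
    exact ⟨fun ⟨x, h, e⟩ => ⟨_, ⟨x, h, rfl⟩, e⟩, fun ⟨_, ⟨x, h, rfl⟩, e⟩ => ⟨x, h, e⟩⟩

theorem sfibG_spec {n : ℕ} (k : Fin (n + 2)) :
    (CX (hornK k)).ι ≫ cls (X := Ex.obj (Ex.obj _)) (n := ⦋n + 1⦌) (sfibG k) =
      cxU (hornK k) ≫ jX _ := by
  ext m σ
  change NPmap (chMap (NP.fn σ.1)) ≫ sfibG k =
    NPmap (mx _) ≫ cls (X := Ex.obj _) (n := m.unop) ((cxU (hornK k)).app m σ)
  ext l τ
  change (_ : NP _ ⟶ (NS (hornK k : Set (Ch (Fin (n + 2)))) : SSet.{0})) = _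
  refine (cancel_mono (SSet.Subcomplex.ι _)).1 ?_
  refine congrArg NPmap (a₁ := sfibIm fun i => sfibPsi k (chMap (NP.fn σ.1) (NP.fn τ i)))
    (a₂ := (chMap (NP.fn σ.1)).comp (chMap ((mx _).comp (NP.fn τ)))) ?_
  have h : ∀ S, sfibPsi k (chMap (NP.fn σ.1) S) = NP.fn σ.1 (mx _ S) := fun S => by
    rw [sfibPsi, if_pos, mx_chMap]
    refine (hornK k).lower (a := chOf (NP.fn σ.1)) (fun y hy => ?_) σ.2
    obtain ⟨x, -, rfl⟩ := (mem_chMap _ _ _).1 hy
    exact (mem_chOf _ _).2 ⟨_, rfl⟩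
  ext S y
  simp only [OrderHom.comp_coe, Function.comp_apply, mem_sfibIm, mem_chMap, h]
  exact ⟨fun ⟨x, h, e⟩ => ⟨_, ⟨x, h, rfl⟩, e⟩, fun ⟨_, ⟨x, h, rfl⟩, e⟩ => ⟨x, h, e⟩⟩

/-- Write the horn as `cxU ≫ Ex.map a'` (`exists_hornIso`, `cxU_univ`). Define
`NP (Ch (Fin _)) ⟶ Ex.obj (NS (hornK k))` on a simplex `τ` by `T ↦ {ψ (τ i) | i ∈ T}` where
`ψ S = max S` if `S ∈ hornK k` and `ψ S = k` otherwise; compose with `Ex.map a'`; this is a
simplex of `Ex.obj (Ex.obj X)`. -/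
theorem ex_horn {X : SSet.{0}} {n : ℕ} (k : Fin (n + 2))
    (a : (Λ[n + 1, k] : SSet.{0}) ⟶ Ex.obj X) :
    ∃ b : Δ[n + 1] ⟶ Ex.obj (Ex.obj X), Λ[n + 1, k].ι ≫ b = a ≫ jX (Ex.obj X) := by
  obtain ⟨e, he⟩ := exists_hornIso k
  obtain ⟨a', ha, -⟩ := cxU_univ (hornK k) (e.hom ≫ a)
  refine ⟨(npIso ⦋n + 1⦌).hom ≫ cls (X := Ex.obj (Ex.obj _)) (n := ⦋n + 1⦌) (sfibG k) ≫
    Ex.map (Ex.map a'), (cancel_epi e.hom).1 ?_⟩
  rw [← Category.assoc, he, ← Category.assoc e.hom, ← ha, Category.assoc, Iso.inv_hom_id_assoc,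
    ← Category.assoc, sfibG_spec, Category.assoc, Category.assoc, jX_nat]

end Vale.Agent.P213
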