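import Vale.Agent.P213.SKan

/-! P213: lifting up to homotopy, filtered colimits. -/

open CategoryTheory Simplicial MonoidalCategory Opposite Limits CartesianMonoidalCategory

noncomputable section

namespace Vale.Agent.P213

variable {A B W X Y Z : SSet.{0}}

/-- Factor `f = i ≫ q` (anodyne, fibration), `triv_of_kk`, lift against `q`, then compose with the
retraction of `exists_retraction` (reverse direction of the homotopy: apply `lift_both` directly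
with the ends `𝟙` and `r ≫ i`). -/
theorem hl_of_whe (hX : X.KanComplex) (hY : Y.KanComplex) {f : X ⟶ Y} (hf : WHE f) : HL f := by
  obtain ⟨Z, i, q, hi, hq, rfl⟩ := exists_ano_fib f
  have hZ := kan_of_fib hq hY
  have := mono_of_ano hi
  have hq' := triv_of_kk ⟨hZ, hY, hq⟩ ((whe_of_ano hi).of_pre hf)
  obtain ⟨r, -, hr, -⟩ := exists_retraction hi hX hZ
  obtain ⟨T, t1, t2, t3, -⟩ := lift_both i (terminal.from Z) hi ((kan_iff Z).1 hZ) (fst _ _ ≫ i)
    (𝟙 Z) (r ≫ i) (terminal.from _) (by rw [SSet.ι₀_fst_assoc, Category.comp_id])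
    (by rw [SSet.ι₁_fst_assoc, reassoc_of% hr]) (terminal.hom_ext _ _) (terminal.hom_ext _ _)
    (terminal.hom_ext _ _)
  intro n a b h
  have := hq' _ (SSet.modelCategoryQuillen.boundary_ι_mem_I n)
  have sq : CommSq (a ≫ i) ∂Δ[n].ι q b := ⟨by rw [Category.assoc, h]⟩
  refine ⟨sq.lift ≫ r, sq.lift ▷ _ ≫ T ≫ q, ?_, ?_, ?_, ?_⟩
  · rw [sq.fac_left_assoc, Category.assoc, hr, Category.comp_id]
  · rw [SSet.ι₀_comp_assoc, reassoc_of% t2, sq.fac_right]
  · rw [SSet.ι₁_comp_assoc, reassoc_of% t3, Category.assoc]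
  · rw [← comp_whiskerRight_assoc, sq.fac_left, comp_whiskerRight_assoc, reassoc_of% t1,
      whiskerRight_fst_assoc]

/-- Factor `f = i ≫ q`, show `II.rlp q`. Given a square `a, b` for `q` and `r, T` from
`exists_retraction`, extend `a ▷ _ ≫ T ≫ q` to a homotopy `K` ending at `b` (`lift_htp₁` for
`Y ⟶ ⊤`), apply `HL` to `a ≫ r` and the start of `K`, lift the homotopy `G` along `q` with
`lift_htp₁` (constant on the boundary), then lift `K` with `lift_htp₀`. -/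
theorem whe_of_hl (hX : X.KanComplex) (hY : Y.KanComplex) {f : X ⟶ Y} (hf : HL f) : WHE f := by
  obtain ⟨Z, i, q, hi, hq, rfl⟩ := exists_ano_fib f
  obtain ⟨r, T, -, t0, t1, -⟩ := exists_retraction hi hX (kan_of_fib hq hY)
  refine (whe_of_ano hi).comp (whe_of_triv ?_)
  rintro A B j ⟨n⟩
  refine ⟨fun {a b} sq => ?_⟩
  obtain ⟨K, k1, k2, -⟩ := lift_htp₁ ∂Δ[n].ι (terminal.from _) ((kan_iff _).1 hY)
    (a ▷ _ ≫ T ≫ q) b (terminal.from _) (by rw [SSet.ι₁_comp_assoc, reassoc_of% t1, sq.w])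
    (terminal.hom_ext _ _) (terminal.hom_ext _ _)
  obtain ⟨l, G, g1, g2, g3, g4⟩ := hf n (a ≫ r) (SSet.ι₀ ≫ K) (by
    rw [← SSet.ι₀_comp_assoc, k1, SSet.ι₀_comp_assoc, reassoc_of% t0, Category.assoc])
  obtain ⟨L, l1, -, l3⟩ := lift_htp₁ ∂Δ[n].ι q hq (fst _ _ ≫ a ≫ r ≫ i) (l ≫ i) G
    (by rw [SSet.ι₁_fst_assoc, reassoc_of% g1]) (by simp only [g4, Category.assoc])
    (by rw [g3, Category.assoc])
  obtain ⟨L', m1, -, m3⟩ := lift_htp₀ ∂Δ[n].ι q hq (a ▷ _ ≫ T) (SSet.ι₀ ≫ L) K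
    (by rw [← SSet.ι₀_comp_assoc, l1, SSet.ι₀_comp_assoc, t0, SSet.ι₀_fst_assoc])
    (by rw [k1, Category.assoc]) (by rw [Category.assoc, l3, g2])
  exact ⟨⟨⟨SSet.ι₁ ≫ L', by
    rw [← SSet.ι₁_comp_assoc, m1, SSet.ι₁_comp_assoc, t1, Category.comp_id], by
    rw [Category.assoc, m3, k2]⟩⟩⟩

/-- Maps out of a finite simplicial set into a filtered colimit come from a stage. -/
theorem exists_stage {J : Type} [SmallCategory J] [IsFiltered J] {F : J ⥤ SSet.{0}} {c : Cocone F}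
    (hc : IsColimit c) (K : SSet.{0}) [K.Finite] (a : K ⟶ c.pt) :
    ∃ (j : J) (a' : K ⟶ F.obj j), a' ≫ c.ι.app j = a := by
  exact IsFinitelyPresentable.exists_hom_of_isColimit hc a

theorem exists_stage_eq {J : Type} [SmallCategory J] [IsFiltered J] {F : J ⥤ SSet.{0}}
    {c : Cocone F} (hc : IsColimit c) (K : SSet.{0}) [K.Finite] {j : J} (a a' : K ⟶ F.obj j)
    (h : a ≫ c.ι.app j = a' ≫ c.ι.app j) : ∃ (k : J) (t : j ⟶ k), a ≫ F.map t = a' ≫ F.map t := by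
  obtain ⟨k, u, v, e⟩ := IsFinitelyPresentable.exists_eq_of_isColimit hc a a' h
  refine ⟨_, u ≫ IsFiltered.coeqHom u v, ?_⟩
  rw [F.map_comp, reassoc_of% e, ← F.map_comp, ← F.map_comp, IsFiltered.coeq_condition]

/-- A square from a map of finite simplicial sets comes from a stage. -/
theorem exists_stage_sq {J : Type} [SmallCategory J] [IsFiltered J] {F G : J ⥤ SSet.{0}}
    (α : F ⟶ G) {c : Cocone F} {c' : Cocone G} (hc : IsColimit c) (hc' : IsColimit c')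
    (φ : c.pt ⟶ c'.pt) (hφ : ∀ j, c.ι.app j ≫ φ = α.app j ≫ c'.ι.app j) {K L : SSet.{0}}
    [K.Finite] [L.Finite] (i : K ⟶ L) (a : K ⟶ c.pt) (b : L ⟶ c'.pt) (h : a ≫ φ = i ≫ b) :
    ∃ (j : J) (a' : K ⟶ F.obj j) (b' : L ⟶ G.obj j), a' ≫ c.ι.app j = a ∧
      b' ≫ c'.ι.app j = b ∧ a' ≫ α.app j = i ≫ b' := by
  obtain ⟨j₁, a₁, rfl⟩ := exists_stage hc K a
  obtain ⟨j₂, b₂, rfl⟩ := exists_stage hc' L b
  obtain ⟨k, u, v, e⟩ := IsFinitelyPresentable.exists_eq_of_isColimit hc' (a₁ ≫ α.app j₁)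
    (i ≫ b₂) (by rw [Category.assoc, ← hφ, Category.assoc, ← h, Category.assoc])
  exact ⟨k, a₁ ≫ F.map u, b₂ ≫ G.map v, by rw [Category.assoc, c.w], by rw [Category.assoc, c'.w],
    by rw [Category.assoc, α.naturality, ← Category.assoc, e, Category.assoc]⟩

theorem hl_filtered : HL.IsStableUnderFilteredColimits.{0, 0} := by
  refine ⟨fun J _ _ => ⟨fun F G c c' hc hc' α hα φ hφ n a b h => ?_⟩⟩
  obtain ⟨j, a', b', rfl, rfl, e⟩ := exists_stage_sq α hc hc' φ hφ _ a b h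
  obtain ⟨l, H, g1, g2, g3, g4⟩ := hα j n a' b' e
  exact ⟨l ≫ c.ι.app j, H ≫ c'.ι.app j, by rw [reassoc_of% g1], by rw [reassoc_of% g2],
    by rw [reassoc_of% g3, Category.assoc, hφ], by rw [reassoc_of% g4, Category.assoc, hφ]⟩

theorem kanFib_filtered : KanFib.IsStableUnderFilteredColimits.{0, 0} := by
  refine ⟨fun J _ _ => ⟨fun F G c c' hc hc' α hα φ hφ K L i hi => ⟨fun {a b} sq => ?_⟩⟩⟩
  obtain ⟨hK, hL⟩ : K.Finite ∧ L.Finite := by
    simp only [SSet.modelCategoryQuillen.J, MorphismProperty.iSup_iff] at hi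
    obtain ⟨n, ⟨k⟩⟩ := hi
    exact ⟨inferInstance, inferInstance⟩
  obtain ⟨j, a', b', rfl, rfl, e⟩ := exists_stage_sq α hc hc' φ hφ i a b sq.w
  have := hα j i hi
  have sq' : CommSq a' i (α.app j) b' := ⟨e⟩
  exact ⟨⟨⟨sq'.lift ≫ c.ι.app j, by rw [sq'.fac_left_assoc], by
    rw [Category.assoc, hφ, sq'.fac_right_assoc]⟩⟩⟩

theorem kan_filtered {J : Type} [SmallCategory J] [IsFiltered J] {F : J ⥤ SSet.{0}} {c : Cocone F}
    (hc : IsColimit c) (h : ∀ j, (F.obj j).KanComplex) : c.pt.KanComplex := by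
  refine kan_of_ext fun n k a => ?_
  obtain ⟨j, a', rfl⟩ := exists_stage hc _ a
  obtain ⟨l, hl⟩ := ext_of_ano (MorphismProperty.le_llp_rlp _ _
    (SSet.modelCategoryQuillen.horn_ι_mem_J (n + 1) k)) (h j) a'
  exact ⟨l ≫ c.ι.app j, by rw [reassoc_of% hl]⟩

end Vale.Agent.P213
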