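import Vale.Agent.P213.SDefs

/-! P213: simplicial homotopies and lifting of homotopies. -/

open CategoryTheory Simplicial MonoidalCategory Opposite Limits CartesianMonoidalCategory

noncomputable section

namespace Vale.Agent.P213

variable {A B W X Y Z : SSet.{0}}

namespace SHtp

theorem lift {i : A ⟶ B} {p : X ⟶ Y} (h : HasLiftingProperty i p) (a : A ⟶ X) (b : B ⟶ Y)
    (e : a ≫ p = i ≫ b) : ∃ l : B ⟶ X, i ≫ l = a ∧ l ≫ p = b :=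
  have sq : CommSq a i p b := ⟨e⟩
  ⟨sq.lift, sq.fac_left, sq.fac_right⟩

theorem ano_δ (j : Fin 2) : Ano (SSet.stdSimplex.δ j : Δ[0] ⟶ Δ[1]) := by
  intro X Y p hp
  have := (SSet.modelCategoryQuillen.fibration_iff p).2 hp
  refine ⟨fun {a b} sq => ?_⟩
  obtain ⟨l, h1, h2⟩ := SSet.horn.IsCompatible.exists_lift (i := j.rev) (f := fun _ _ => a)
    trivial p b fun k hk => by
      obtain rfl := (by decide : ∀ j k : Fin 2, k ≠ j.rev → k = j) j k hk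
      exact sq.w
  exact ⟨⟨⟨l, h1 j ((by decide : ∀ j : Fin 2, j ≠ j.rev) j), h2⟩⟩⟩

instance (X : SSet.{0}) : IsIso (fst X Δ[0]) :=
  ⟨CartesianMonoidalCategory.lift (𝟙 X) (SSet.stdSimplex.isTerminalObj₀.from X),
    CartesianMonoidalCategory.hom_ext _ _ (by simp) SSet.stdSimplex.ext₀, by simp⟩

theorem wl₀ (X : SSet.{0}) : X ◁ SSet.stdSimplex.δ (1 : Fin 2) = fst X Δ[0] ≫ SSet.ι₀ := by
  rw [SSet.stdSimplex.δ_one_eq_const]
  rfl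

theorem wl₁ (X : SSet.{0}) : X ◁ SSet.stdSimplex.δ (0 : Fin 2) = fst X Δ[0] ≫ SSet.ι₁ := by
  rw [SSet.stdSimplex.δ_zero_eq_const]
  rfl

end SHtp

theorem Htp.refl (f : X ⟶ Y) : Htp f f := by
  exact ⟨fst _ _ ≫ f, SSet.ι₀_fst_assoc _ _, SSet.ι₁_fst_assoc _ _⟩

theorem Htp.pre {f g : X ⟶ Y} (h : Htp f g) (a : W ⟶ X) : Htp (a ≫ f) (a ≫ g) := by
  obtain ⟨H, rfl, rfl⟩ := h
  exact ⟨a ▷ _ ≫ H, SSet.ι₀_comp_assoc _ _, SSet.ι₁_comp_assoc _ _⟩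

theorem Htp.post {f g : X ⟶ Y} (h : Htp f g) (b : Y ⟶ Z) : Htp (f ≫ b) (g ≫ b) := by
  obtain ⟨H, rfl, rfl⟩ := h
  exact ⟨H ≫ b, (Category.assoc _ _ _).symm, (Category.assoc _ _ _).symm⟩

theorem kan_iff (X : SSet.{0}) : X.KanComplex ↔ KanFib (terminal.from X) := by
  open SSet.modelCategoryQuillen in
  exact (HomotopicalAlgebra.isFibrant_iff X).trans (fibration_iff _)

theorem kan_of_fib {p : X ⟶ Y} (hp : KanFib p) (hY : Y.KanComplex) : X.KanComplex := by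
  rw [kan_iff] at hY ⊢
  rw [← terminal.comp_from p]
  intro _ _ g hg
  have := hp g hg
  have := hY g hg
  infer_instance

/-- Extension along anodyne maps into Kan complexes. -/
theorem ext_of_ano {i : A ⟶ B} (hi : Ano i) (hX : X.KanComplex) (a : A ⟶ X) :
    ∃ l : B ⟶ X, i ≫ l = a := by
  obtain ⟨l, h, -⟩ := SHtp.lift (hi _ ((kan_iff X).1 hX)) a (terminal.from _)
    (Subsingleton.elim _ _)
  exact ⟨l, h⟩

theorem kan_of_ext (h : ∀ (n : ℕ) (k : Fin (n + 2)) (a : (Λ[n + 1, k] : SSet.{0}) ⟶ X),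
    ∃ l : Δ[n + 1] ⟶ X, Λ[n + 1, k].ι ≫ l = a) : X.KanComplex := by
  refine SSet.KanComplex.iff.2 fun n k f hf => ?_
  obtain ⟨l, hl⟩ := h n k hf.desc
  exact ⟨l, fun j hj => by rw [← SSet.horn.ι_ι k j hj, Category.assoc, hl, hf.ι_desc]⟩

theorem ano_ι₀ (X : SSet.{0}) : Ano (SSet.ι₀ : X ⟶ X ⊗ Δ[1]) := by
  exact (MorphismProperty.cancel_left_of_respectsIso Ano (fst X Δ[0]) _).1
    (SHtp.wl₀ X ▸ (SHtp.ano_δ 1).whiskerLeft X)

theorem ano_ι₁ (X : SSet.{0}) : Ano (SSet.ι₁ : X ⟶ X ⊗ Δ[1]) := by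
  exact (MorphismProperty.cancel_left_of_respectsIso Ano (fst X Δ[0]) _).1
    (SHtp.wl₁ X ▸ (SHtp.ano_δ 0).whiskerLeft X)

/-- The general lifting lemma. Hint: `SSet.anodyneExtensions_pushoutObjObjι` and its primed
version, with `Functor.PushoutObjObj.ofHasPushout`. -/
theorem lift_prod {K L : SSet.{0}} (i : A ⟶ B) (j : K ⟶ L) (p : X ⟶ Y) [Mono i] [Mono j]
    (hp : KanFib p) (h : Ano i ∨ Ano j) (u : A ⊗ L ⟶ X) (v : B ⊗ K ⟶ X) (w : B ⊗ L ⟶ Y)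
    (huv : A ◁ j ≫ u = i ▷ K ≫ v) (hu : u ≫ p = i ▷ L ≫ w) (hv : v ≫ p = B ◁ j ≫ w) :
    ∃ l : B ⊗ L ⟶ X, i ▷ L ≫ l = u ∧ B ◁ j ≫ l = v ∧ l ≫ p = w := by
  let sq := Functor.PushoutObjObj.ofHasPushout (curriedTensor SSet.{0}) i j
  have ha : Ano sq.ι := h.elim (SSet.anodyneExtensions_pushoutObjObjι' sq)
    (SSet.anodyneExtensions_pushoutObjObjι sq)
  have e1 : sq.inl ≫ sq.ι = B ◁ j := sq.inl_ι
  have e2 : sq.inr ≫ sq.ι = i ▷ L := sq.inr_ι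
  have e3 := sq.isPushout.inl_desc v u huv.symm
  have e4 := sq.isPushout.inr_desc v u huv.symm
  obtain ⟨l, h1, h2⟩ := SHtp.lift (ha _ hp) (sq.isPushout.desc v u huv.symm) w (sq.hom_ext
    (by rw [← Category.assoc, ← Category.assoc, e1, e3]; exact hv)
    (by rw [← Category.assoc, ← Category.assoc, e2, e4]; exact hu))
  exact ⟨l, by rw [← e2, ← e4, ← h1]; exact Category.assoc _ _ _,
    by rw [← e1, ← e3, ← h1]; exact Category.assoc _ _ _, h2⟩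

/-- Homotopy lifting and extension from the end `0`. -/
theorem lift_htp₀ (i : A ⟶ B) (p : X ⟶ Y) [Mono i] (hp : KanFib p) (H : A ⊗ Δ[1] ⟶ X)
    (b : B ⟶ X) (K : B ⊗ Δ[1] ⟶ Y) (h1 : SSet.ι₀ ≫ H = i ≫ b) (h2 : H ≫ p = i ▷ _ ≫ K)
    (h3 : b ≫ p = SSet.ι₀ ≫ K) :
    ∃ L : B ⊗ Δ[1] ⟶ X, i ▷ _ ≫ L = H ∧ SSet.ι₀ ≫ L = b ∧ L ≫ p = K := by
  obtain ⟨L, k1, k2, k3⟩ := lift_prod i (SSet.stdSimplex.δ (1 : Fin 2)) p hp
    (Or.inr (SHtp.ano_δ 1)) H (fst _ _ ≫ b) K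
    (by rw [SHtp.wl₀, Category.assoc, h1]; rfl) h2
    (by rw [SHtp.wl₀, Category.assoc, h3]; rfl)
  rw [SHtp.wl₀, Category.assoc, cancel_epi] at k2
  exact ⟨L, k1, k2, k3⟩

/-- Homotopy lifting and extension from the end `1`. -/
theorem lift_htp₁ (i : A ⟶ B) (p : X ⟶ Y) [Mono i] (hp : KanFib p) (H : A ⊗ Δ[1] ⟶ X)
    (b : B ⟶ X) (K : B ⊗ Δ[1] ⟶ Y) (h1 : SSet.ι₁ ≫ H = i ≫ b) (h2 : H ≫ p = i ▷ _ ≫ K)
    (h3 : b ≫ p = SSet.ι₁ ≫ K) :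
    ∃ L : B ⊗ Δ[1] ⟶ X, i ▷ _ ≫ L = H ∧ SSet.ι₁ ≫ L = b ∧ L ≫ p = K := by
  obtain ⟨L, k1, k2, k3⟩ := lift_prod i (SSet.stdSimplex.δ (0 : Fin 2)) p hp
    (Or.inr (SHtp.ano_δ 0)) H (fst _ _ ≫ b) K
    (by rw [SHtp.wl₁, Category.assoc, h1]; rfl) h2
    (by rw [SHtp.wl₁, Category.assoc, h3]; rfl)
  rw [SHtp.wl₁, Category.assoc, cancel_epi] at k2
  exact ⟨L, k1, k2, k3⟩

/-- The product with the boundary of the interval is the disjoint union of the two ends. -/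
theorem exists_ends : ∃ e₀ e₁ : ∀ B : SSet.{0}, B ⟶ B ⊗ (∂Δ[1] : SSet.{0}),
    (∀ B, e₀ B ≫ B ◁ ∂Δ[1].ι = SSet.ι₀) ∧ (∀ B, e₁ B ≫ B ◁ ∂Δ[1].ι = SSet.ι₁) ∧
    (∀ A B (i : A ⟶ B), e₀ A ≫ i ▷ _ = i ≫ e₀ B) ∧ (∀ A B (i : A ⟶ B), e₁ A ≫ i ▷ _ = i ≫ e₁ B) ∧
    (∀ B X (b₀ b₁ : B ⟶ X), ∃ v, e₀ B ≫ v = b₀ ∧ e₁ B ≫ v = b₁) ∧
    ∀ B X (v v' : B ⊗ (∂Δ[1] : SSet.{0}) ⟶ X), e₀ B ≫ v = e₀ B ≫ v' → e₁ B ≫ v = e₁ B ≫ v' →
      v = v' := by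
  have hc : ∀ {m} (y : (∂Δ[1] : SSet.{0}).obj m) i j,
      SSet.stdSimplex.asOrderHom y.1 i = SSet.stdSimplex.asOrderHom y.1 j := by
    intro m y i j
    by_contra hij
    refine y.2 fun k => ?_
    by_cases hk : SSet.stdSimplex.asOrderHom y.1 i = k
    · exact ⟨i, hk⟩
    · exact ⟨j, by omega⟩
  refine ⟨fun B => inv (fst B Δ[0]) ≫ B ◁ SSet.boundary.ι 1,
    fun B => inv (fst B Δ[0]) ≫ B ◁ SSet.boundary.ι 0, fun B => ?_, fun B => ?_,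
    fun A B i => ?_, fun A B i => ?_, fun B X b₀ b₁ => ?_, fun B X v v' h0 h1 => ?_⟩
  · rw [Category.assoc, ← MonoidalCategory.whiskerLeft_comp, SSet.boundary.ι_ι, SHtp.wl₀,
      IsIso.inv_hom_id_assoc]
  · rw [Category.assoc, ← MonoidalCategory.whiskerLeft_comp, SSet.boundary.ι_ι, SHtp.wl₁,
      IsIso.inv_hom_id_assoc]
  · rw [Category.assoc, whisker_exchange, IsIso.inv_comp_eq, ← whiskerRight_fst_assoc,
      IsIso.hom_inv_id_assoc]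
  · rw [Category.assoc, whisker_exchange, IsIso.inv_comp_eq, ← whiskerRight_fst_assoc,
      IsIso.hom_inv_id_assoc]
  · refine ⟨⟨fun m => TypeCat.ofHom fun x => if SSet.stdSimplex.asOrderHom x.2.1 0 = 0 then
      b₀.app m x.1 else b₁.app m x.1, fun m m' α => ?_⟩, ?_, ?_⟩
    · ext x
      change (if SSet.stdSimplex.asOrderHom x.2.1 (α.unop.toOrderHom 0) = 0 then
        b₀.app m' (B.map α x.1) else b₁.app m' (B.map α x.1)) =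
        X.map α (if SSet.stdSimplex.asOrderHom x.2.1 0 = 0 then b₀.app m x.1 else b₁.app m x.1)
      rw [hc x.2 _ 0]
      split_ifs
      · exact b₀.naturality_apply α _
      · exact b₁.naturality_apply α _
    · rw [Category.assoc, IsIso.inv_comp_eq]
      ext m x
      refine if_pos ?_
      exact congrArg (fun g => SSet.stdSimplex.asOrderHom (g.app m x.2) 0)
        SSet.stdSimplex.δ_one_eq_const
    · rw [Category.assoc, IsIso.inv_comp_eq]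
      ext m x
      change (if SSet.stdSimplex.asOrderHom ((SSet.stdSimplex.δ (0 : Fin 2)).app m x.2) 0 = 0 then
        b₀.app m x.1 else b₁.app m x.1) = b₁.app m x.1
      rw [SSet.stdSimplex.δ_zero_eq_const]
      exact if_neg (one_ne_zero (α := Fin 2))
  · rw [Category.assoc, Category.assoc, cancel_epi] at h0 h1
    refine MonoidalClosed.curry_injective (SSet.boundary.hom_ext fun i => ?_)
    rw [← MonoidalClosed.curry_natural_left, ← MonoidalClosed.curry_natural_left]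
    fin_cases i
    · exact congrArg _ h1
    · exact congrArg _ h0

/-- Lifting with both ends prescribed along an anodyne map. -/
theorem lift_both (i : A ⟶ B) (p : X ⟶ Y) [Mono i] (hi : Ano i) (hp : KanFib p)
    (H : A ⊗ Δ[1] ⟶ X) (b₀ b₁ : B ⟶ X) (K : B ⊗ Δ[1] ⟶ Y) (h0 : SSet.ι₀ ≫ H = i ≫ b₀)
    (h1 : SSet.ι₁ ≫ H = i ≫ b₁) (h2 : H ≫ p = i ▷ _ ≫ K) (h3 : b₀ ≫ p = SSet.ι₀ ≫ K)
    (h4 : b₁ ≫ p = SSet.ι₁ ≫ K) :
    ∃ L : B ⊗ Δ[1] ⟶ X, i ▷ _ ≫ L = H ∧ SSet.ι₀ ≫ L = b₀ ∧ SSet.ι₁ ≫ L = b₁ ∧ L ≫ p = K := by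
  obtain ⟨e₀, e₁, a0, a1, n0, n1, ex, un⟩ := exists_ends
  obtain ⟨v, v0, v1⟩ := ex B X b₀ b₁
  obtain ⟨L, k1, k2, k3⟩ := lift_prod i ∂Δ[1].ι p hp (Or.inl hi) H v K
    (un _ _ _ _ (by rw [reassoc_of% a0, reassoc_of% n0, v0, h0])
      (by rw [reassoc_of% a1, reassoc_of% n1, v1, h1])) h2
    (un _ _ _ _ (by rw [reassoc_of% a0, reassoc_of% v0, h3])
      (by rw [reassoc_of% a1, reassoc_of% v1, h4]))
  exact ⟨L, k1, by rw [← a0, Category.assoc, k2, v0], by rw [← a1, Category.assoc, k2, v1], k3⟩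

/-- Lifting with both ends prescribed against a trivial fibration. -/
theorem lift_both_triv (p : X ⟶ Y) (hp : II.rlp p) (b₀ b₁ : B ⟶ X) (K : B ⊗ Δ[1] ⟶ Y)
    (h3 : b₀ ≫ p = SSet.ι₀ ≫ K) (h4 : b₁ ≫ p = SSet.ι₁ ≫ K) :
    ∃ L : B ⊗ Δ[1] ⟶ X, SSet.ι₀ ≫ L = b₀ ∧ SSet.ι₁ ≫ L = b₁ ∧ L ≫ p = K := by
  obtain ⟨e₀, e₁, a0, a1, -, -, ex, un⟩ := exists_ends
  obtain ⟨v, v0, v1⟩ := ex B X b₀ b₁
  rw [← SSet.rlp_monomorphisms] at hp
  obtain ⟨L, k2, k3⟩ := SHtp.lift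
    (hp (B ◁ ∂Δ[1].ι) ⟨fun g g' e => CartesianMonoidalCategory.hom_ext _ _
      (by simpa using e =≫ fst _ _)
      ((cancel_mono ∂Δ[1].ι).1 (by simpa using e =≫ snd _ _))⟩) v K
    (un _ _ _ _ (by rw [reassoc_of% a0, reassoc_of% v0, h3])
      (by rw [reassoc_of% a1, reassoc_of% v1, h4]))
  exact ⟨L, by rw [← a0, Category.assoc, k2, v0], by rw [← a1, Category.assoc, k2, v1], k3⟩

/-- Filling the horn `Λ[2, 0]` fibrewise: two homotopies with the same start which lie over the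
same homotopy have ends related by a vertical homotopy. Hint: glue `H` (edge `01`) and `H'`
(edge `02`) to a map on `B ⊗ Λ[2, 0]` (as a map from the horn to `(ihom B).obj X`, using
`SSet.horn.IsCompatible.exists_lift`, or by `htpMk`-like formulas), lift
`B ◁ (degeneracy 0 1 1) ≫ H ≫ p`, restrict to the edge `12`. -/
theorem fill_vert (p : X ⟶ Y) (hp : KanFib p) (H H' : B ⊗ Δ[1] ⟶ X)
    (h0 : SSet.ι₀ ≫ H = SSet.ι₀ ≫ H') (h : H ≫ p = H' ≫ p) :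
    ∃ L : B ⊗ Δ[1] ⟶ X, SSet.ι₀ ≫ L = SSet.ι₁ ≫ H ∧ SSet.ι₁ ≫ L = SSet.ι₁ ≫ H' ∧
      L ≫ p = fst _ _ ≫ SSet.ι₁ ≫ H ≫ p := by
  have po : IsPushout (B ◁ SSet.stdSimplex.δ (1 : Fin 2)) (B ◁ SSet.stdSimplex.δ (1 : Fin 2))
      (B ◁ SSet.horn₂₀.ι₀₁) (B ◁ SSet.horn₂₀.ι₀₂) := SSet.horn₂₀.isPushout.map (tensorLeft B)
  have e : B ◁ SSet.stdSimplex.δ (1 : Fin 2) ≫ H = B ◁ SSet.stdSimplex.δ (1 : Fin 2) ≫ H' := by
    rw [SHtp.wl₀, Category.assoc, Category.assoc, h0]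
  have s1 : SSet.horn₂₀.ι₀₁.{0} ≫ Λ[2, 0].ι ≫ SSet.stdSimplex.σ (1 : Fin 2) = 𝟙 _ := by decide
  have s2 : SSet.horn₂₀.ι₀₂.{0} ≫ Λ[2, 0].ι ≫ SSet.stdSimplex.σ (1 : Fin 2) = 𝟙 _ := by decide
  obtain ⟨l, k1, k2⟩ := SHtp.lift
    ((SSet.anodyneExtensions.horn_ι (n := 2) 0).whiskerLeft B _ hp) (po.desc H H' e)
    (B ◁ SSet.stdSimplex.σ (1 : Fin 2) ≫ H ≫ p) (po.hom_ext
      (by simp only [po.inl_desc_assoc, ← MonoidalCategory.whiskerLeft_comp_assoc, s1,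
        whiskerLeft_id, Category.id_comp])
      (by simp only [po.inr_desc_assoc, ← MonoidalCategory.whiskerLeft_comp_assoc, s2,
        whiskerLeft_id, Category.id_comp, h]))
  have s3 : SSet.stdSimplex.{0}.δ (1 : Fin 2) ≫ SSet.stdSimplex.δ (0 : Fin 3) =
      SSet.stdSimplex.δ (0 : Fin 2) ≫ SSet.horn₂₀.ι₀₁ ≫ Λ[2, 0].ι := by decide
  have s4 : SSet.stdSimplex.{0}.δ (0 : Fin 2) ≫ SSet.stdSimplex.δ (0 : Fin 3) =
      SSet.stdSimplex.δ (0 : Fin 2) ≫ SSet.horn₂₀.ι₀₂ ≫ Λ[2, 0].ι := by decide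
  have s5 : SSet.stdSimplex.{0}.δ (0 : Fin 3) ≫ SSet.stdSimplex.σ (1 : Fin 2) =
      SSet.const (SSet.stdSimplex.obj₀Equiv.symm 1) := by decide
  refine ⟨B ◁ SSet.stdSimplex.δ (0 : Fin 3) ≫ l, ?_, ?_, ?_⟩
  · rw [← cancel_epi (fst B Δ[0]), ← reassoc_of% SHtp.wl₀, ← reassoc_of% SHtp.wl₁,
      ← MonoidalCategory.whiskerLeft_comp_assoc, s3]
    simp only [MonoidalCategory.whiskerLeft_comp, Category.assoc, k1, po.inl_desc]
  · rw [← cancel_epi (fst B Δ[0]), ← reassoc_of% SHtp.wl₁, ← reassoc_of% SHtp.wl₁,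
      ← MonoidalCategory.whiskerLeft_comp_assoc, s4]
    simp only [MonoidalCategory.whiskerLeft_comp, Category.assoc, k1, po.inr_desc]
  · rw [Category.assoc, k2, ← MonoidalCategory.whiskerLeft_comp_assoc, s5]
    rfl

/-- From `fill_vert` for the map to the terminal object, with `H'` constant. -/
theorem Htp.symm (hY : Y.KanComplex) {f g : X ⟶ Y} (h : Htp f g) : Htp g f := by
  obtain ⟨H, rfl, rfl⟩ := h
  obtain ⟨L, h1, h2, -⟩ := fill_vert _ ((kan_iff Y).1 hY) H (fst _ _ ≫ SSet.ι₀ ≫ H)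
    (SSet.ι₀_fst_assoc _ _).symm (Subsingleton.elim _ _)
  exact ⟨L, h1, h2.trans (SSet.ι₁_fst_assoc _ _)⟩

/-- From `fill_vert` and `Htp.symm`. -/
theorem Htp.trans (hY : Y.KanComplex) {f g k : X ⟶ Y} (h : Htp f g) (h' : Htp g k) :
    Htp f k := by
  obtain ⟨H, h0, rfl⟩ := h.symm hY
  obtain ⟨H', h1, rfl⟩ := h'
  obtain ⟨L, h1, h2, -⟩ := fill_vert _ ((kan_iff Y).1 hY) H H' (h0.trans h1.symm)
    (Subsingleton.elim _ _)
  exact ⟨L, h1, h2⟩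

theorem HtpE.pre {f g : X ⟶ Y} (h : HtpE f g) (a : W ⟶ X) : HtpE (a ≫ f) (a ≫ g) := by
  induction h with
  | rel _ _ h => exact .rel _ _ (h.pre a)
  | refl => exact .refl _
  | symm _ _ _ h => exact .symm _ _ h
  | trans _ _ _ _ _ h h' => exact .trans _ _ _ h h'

theorem HtpE.post {f g : X ⟶ Y} (h : HtpE f g) (b : Y ⟶ Z) : HtpE (f ≫ b) (g ≫ b) := by
  induction h with
  | rel _ _ h => exact .rel _ _ (h.post b)
  | refl => exact .refl _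
  | symm _ _ _ h => exact .symm _ _ h
  | trans _ _ _ _ _ h h' => exact .trans _ _ _ h h'

theorem HtpE.htp (hY : Y.KanComplex) {f g : X ⟶ Y} (h : HtpE f g) : Htp f g := by
  induction h with
  | rel _ _ h => exact h
  | refl => exact .refl _
  | symm _ _ _ h => exact h.symm hY
  | trans _ _ _ _ _ h h' => exact h.trans hY h'

end Vale.Agent.P213
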