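import Vale.Agent.P213.SLam

/-! P213: the infinite extension. -/

open CategoryTheory Simplicial MonoidalCategory Opposite Limits CartesianMonoidalCategory

noncomputable section

namespace Vale.Agent.P213

/-- The iterated extension functors. -/
def sinfP : ℕ → (SSet.{0} ⥤ SSet.{0}) := fun k => Nat.rec (𝟭 _) (fun _ F => F ⋙ Ex) k

/-- The transition maps. -/
def sinfJ (X : SSet.{0}) (k : ℕ) : (sinfP k).obj X ⟶ (sinfP (k + 1)).obj X :=
  jX ((sinfP k).obj X)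

/-- The transition maps as natural transformations. -/
def sinfT (k : ℕ) : sinfP k ⟶ sinfP (k + 1) where
  app X := sinfJ X k
  naturality _ _ f := jX_nat ((sinfP k).map f)

/-- The sequence of stages. -/
def sinfD : SSet.{0} ⥤ ℕ ⥤ SSet.{0} := (Functor.ofSequence sinfT).flip

/-- The maps between stages. -/
def sinfM (X : SSet.{0}) {j k : ℕ} (h : j ≤ k) : (sinfP j).obj X ⟶ (sinfP k).obj X :=
  (sinfD.obj X).map (homOfLE h)

theorem sinfM_succ (X : SSet.{0}) (k : ℕ) : sinfM X (Nat.le_add_right k 1) = sinfJ X k :=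
  congrArg (fun t => NatTrans.app t X) (Functor.ofSequence_map_homOfLE_succ sinfT k)

theorem sinfM_comp (X : SSet.{0}) {i j k : ℕ} (h : i ≤ j) (h' : j ≤ k) :
    sinfM X h ≫ sinfM X h' = sinfM X (h.trans h') :=
  ((sinfD.obj X).map_comp _ _).symm

theorem sinfM_nat {X Y : SSet.{0}} (p : X ⟶ Y) {j k : ℕ} (h : j ≤ k) :
    sinfM X h ≫ (sinfP k).map p = (sinfP j).map p ≫ sinfM Y h :=
  (sinfD.map p).naturality (homOfLE h)

/-- The infinite extension. -/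
def sinfE : SSet.{0} ⥤ SSet.{0} := sinfD ⋙ colim

/-- The inclusion of a stage. -/
def sinfI (X : SSet.{0}) (k : ℕ) : (sinfP k).obj X ⟶ sinfE.obj X := colimit.ι (sinfD.obj X) k

theorem sinfI_nat {X Y : SSet.{0}} (p : X ⟶ Y) (k : ℕ) :
    sinfI X k ≫ sinfE.map p = (sinfP k).map p ≫ sinfI Y k := colimit.ι_map (sinfD.map p) k

theorem sinfM_I (X : SSet.{0}) {j k : ℕ} (h : j ≤ k) : sinfM X h ≫ sinfI X k = sinfI X j :=
  colimit.w (sinfD.obj X) _

theorem sinfJ_I (X : SSet.{0}) (k : ℕ) : sinfJ X k ≫ sinfI X (k + 1) = sinfI X k := by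
  rw [← sinfM_succ, sinfM_I]

theorem sinf_stage {X : SSet.{0}} (K : SSet.{0}) [K.Finite] (a : K ⟶ sinfE.obj X) :
    ∃ (j : ℕ) (a' : K ⟶ (sinfP j).obj X), a' ≫ sinfI X j = a :=
  exists_stage (colimit.isColimit (sinfD.obj X)) K a

theorem sinf_stage_eq {X : SSet.{0}} (K : SSet.{0}) [K.Finite] {j : ℕ}
    (a a' : K ⟶ (sinfP j).obj X) (h : a ≫ sinfI X j = a' ≫ sinfI X j) :
    ∃ (k : ℕ) (t : j ≤ k), a ≫ sinfM X t = a' ≫ sinfM X t := by
  obtain ⟨k, t, e⟩ := exists_stage_eq (colimit.isColimit (sinfD.obj X)) K (j := j) a a' h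
  exact ⟨k, leOfHom t, e⟩

theorem sinf_whe (X : SSet.{0}) : WHE (sinfI X 0) := by
  refine whe_of_llp_kk (KK.llp.transfiniteCompositionsOfShape_le ℕ _ ⟨?_⟩)
  refine
    { F := sinfD.obj X
      isoBot := Iso.refl _
      incl := (colimit.cocone (sinfD.obj X)).ι
      isColimit := colimit.isColimit (sinfD.obj X)
      fac := Category.id_comp _
      map_mem := fun j _ => ?_ }
  have : Mono (sinfJ X j) := mono_jX ((sinfP j).obj X)
  have h : KK.llp (sinfJ X j) := llp_kk (whe_jX ((sinfP j).obj X))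
  rw [← sinfM_succ] at h
  exact h

theorem sinf_horn {X : SSet.{0}} {n : ℕ} (k : Fin (n + 2)) (j : ℕ)
    (a : (Λ[n + 1, k] : SSet.{0}) ⟶ (sinfP (j + 1)).obj X) :
    ∃ b : Δ[n + 1] ⟶ (sinfP (j + 1 + 1)).obj X, Λ[n + 1, k].ι ≫ b = a ≫ sinfJ X (j + 1) :=
  ex_horn (X := (sinfP j).obj X) k a

theorem sinf_kan (X : SSet.{0}) : (sinfE.obj X).KanComplex := by
  refine kan_of_ext fun n k a => ?_
  obtain ⟨j, a', ha⟩ := sinf_stage _ a
  obtain ⟨b, hb⟩ := sinf_horn k j (a' ≫ sinfJ X j)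
  refine ⟨b ≫ sinfI X (j + 1 + 1), ?_⟩
  rw [← Category.assoc, hb, Category.assoc, sinfJ_I, Category.assoc, sinfJ_I, ha]

theorem sinf_fib_stage {X Y : SSet.{0}} {p : X ⟶ Y} (hp : KanFib p) (k : ℕ) :
    KanFib ((sinfP k).map p) := by
  induction k with
  | zero => exact hp
  | succ k ih => exact kanFib_Ex ih

theorem sinf_fib {X Y : SSet.{0}} {p : X ⟶ Y} (hp : KanFib p) : KanFib (sinfE.map p) :=
  (kanFib_filtered.isStableUnderColimitsOfShape ℕ).condition _ _ _ _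
    (colimit.isColimit (sinfD.obj X)) (colimit.isColimit (sinfD.obj Y)) (sinfD.map p)
    (fun k => sinf_fib_stage hp k) _ (fun k => sinfI_nat p k)

theorem sinf_filtered_stage (k : ℕ) : PreservesFilteredColimitsOfSize.{0, 0} (sinfP k) := by
  induction k with
  | zero => exact inferInstanceAs (PreservesFilteredColimitsOfSize.{0, 0} (𝟭 SSet.{0}))
  | succ k ih =>
    have := Ex_filtered
    exact inferInstanceAs (PreservesFilteredColimitsOfSize.{0, 0} (sinfP k ⋙ Ex))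

theorem sinf_filtered : PreservesFilteredColimitsOfSize.{0, 0} sinfE := by
  refine ⟨fun J _ _ => ?_⟩
  have h1 : PreservesColimitsOfShape J sinfD :=
    preservesColimitsOfShape_of_evaluation _ _ fun k =>
      (sinf_filtered_stage k).preserves_filtered_colimits J
  exact inferInstanceAs (PreservesColimitsOfShape J (sinfD ⋙ colim))

theorem sinf_desc_one {X Y : SSet.{0}} {p : X ⟶ Y} (hp : KanFib p) {n : ℕ} (k : ℕ)
    (a : (∂Δ[n] : SSet.{0}) ⟶ (sinfP k).obj X) (b : Δ[n] ⟶ (sinfP k).obj Y)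
    (hab : a ≫ (sinfP k).map p = ∂Δ[n].ι ≫ b) (l : Δ[n] ⟶ (sinfP (k + 1)).obj X)
    (h1 : ∂Δ[n].ι ≫ l = a ≫ sinfJ X k) (h2 : l ≫ (sinfP (k + 1)).map p = b ≫ sinfJ Y k) :
    ∃ l' : Δ[n] ⟶ (sinfP k).obj X, ∂Δ[n].ι ≫ l' = a ∧ l' ≫ (sinfP k).map p = b :=
  descent (sinf_fib_stage hp k) a b hab l h1 h2

theorem sinf_desc_stage {X Y : SSet.{0}} {p : X ⟶ Y} (hp : KanFib p) {n : ℕ}
    (a : (∂Δ[n] : SSet.{0}) ⟶ (sinfP 0).obj X) (b : Δ[n] ⟶ (sinfP 0).obj Y)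
    (hab : a ≫ (sinfP 0).map p = ∂Δ[n].ι ≫ b) (k : ℕ)
    (l : Δ[n] ⟶ (sinfP k).obj X) (h1 : ∂Δ[n].ι ≫ l = a ≫ sinfM X (Nat.zero_le k))
    (h2 : l ≫ (sinfP k).map p = b ≫ sinfM Y (Nat.zero_le k)) :
    ∃ l' : Δ[n] ⟶ (sinfP 0).obj X, ∂Δ[n].ι ≫ l' = a ∧ l' ≫ (sinfP 0).map p = b := by
  induction k with
  | zero =>
    have e1 : sinfM X (Nat.zero_le 0) = 𝟙 _ := (sinfD.obj X).map_id 0
    have e2 : sinfM Y (Nat.zero_le 0) = 𝟙 _ := (sinfD.obj Y).map_id 0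
    rw [e1, Category.comp_id] at h1
    rw [e2, Category.comp_id] at h2
    exact ⟨l, h1, h2⟩
  | succ k ih =>
    obtain ⟨l', h3, h4⟩ := sinf_desc_one hp k (a ≫ sinfM X (Nat.zero_le k))
      (b ≫ sinfM Y (Nat.zero_le k))
      (by rw [Category.assoc, sinfM_nat, ← Category.assoc, hab, Category.assoc]) l
      (by rw [Category.assoc, ← sinfM_succ, sinfM_comp, h1])
      (by rw [Category.assoc, ← sinfM_succ, sinfM_comp, h2])
    exact ih l' h3 h4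

theorem sinf_desc_lift {X Y : SSet.{0}} {p : X ⟶ Y} (hp : KanFib p) (h : II.rlp (sinfE.map p))
    {n : ℕ} (a : (∂Δ[n] : SSet.{0}) ⟶ (sinfP 0).obj X) (b : Δ[n] ⟶ (sinfP 0).obj Y)
    (hab : a ≫ (sinfP 0).map p = ∂Δ[n].ι ≫ b) :
    ∃ l' : Δ[n] ⟶ (sinfP 0).obj X, ∂Δ[n].ι ≫ l' = a ∧ l' ≫ (sinfP 0).map p = b := by
  have := h _ (SSet.modelCategoryQuillen.boundary_ι_mem_I n)
  have sq : CommSq (a ≫ sinfI X 0) ∂Δ[n].ι (sinfE.map p) (b ≫ sinfI Y 0) :=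
    ⟨by rw [Category.assoc, sinfI_nat, ← Category.assoc, hab, Category.assoc]⟩
  obtain ⟨j, l, hl⟩ := sinf_stage _ sq.lift
  obtain ⟨k₁, t₁, e₁⟩ := sinf_stage_eq _ (∂Δ[n].ι ≫ l) (a ≫ sinfM X (Nat.zero_le j))
    (by rw [Category.assoc, Category.assoc, hl, sinfM_I, sq.fac_left])
  obtain ⟨k₂, t₂, e₂⟩ := sinf_stage_eq _ ((l ≫ sinfM X t₁) ≫ (sinfP k₁).map p)
    (b ≫ sinfM Y (Nat.zero_le k₁))
    (by rw [Category.assoc, Category.assoc, Category.assoc, sinfM_I, ← sinfI_nat,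
      ← sq.fac_right, ← hl, ← sinfM_I X t₁, Category.assoc, Category.assoc])
  refine sinf_desc_stage hp a b hab k₂ ((l ≫ sinfM X t₁) ≫ sinfM X t₂) ?_ ?_
  · rw [← Category.assoc, ← Category.assoc, e₁, Category.assoc, Category.assoc, sinfM_comp,
      sinfM_comp]
  · rw [Category.assoc, sinfM_nat, ← Category.assoc, e₂, Category.assoc, sinfM_comp]

theorem sinf_desc_hlp {X Y : SSet.{0}} {p : X ⟶ Y} (hp : KanFib p) (h : II.rlp (sinfE.map p))
    (n : ℕ) : HasLiftingProperty (∂Δ[n].ι : (∂Δ[n] : SSet.{0}) ⟶ _) p := by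
  refine ⟨fun {a b} sq => ?_⟩
  obtain ⟨l, h1, h2⟩ := sinf_desc_lift hp h a b sq.w
  exact CommSq.HasLift.mk' ⟨l, h1, h2⟩

theorem sinf_desc {X Y : SSet.{0}} {p : X ⟶ Y} (hp : KanFib p) (h : II.rlp (sinfE.map p)) :
    II.rlp p := by
  rintro _ _ _ ⟨n⟩
  exact sinf_desc_hlp hp h n

/-- Take the colimit `E` of the sequence of functors `Ex^k`, `Ex^(k+1) = Ex^k ⋙ Ex`, along
`whiskerLeft _ jx`. The map `ι` is a transfinite composition of maps in `KK.llp` (`mono_jX`,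
`whe_jX`, `llp_kk`, `whe_of_llp_kk`). Kan: `kan_of_ext`, `exists_stage`, `ex_horn`. Fibrations:
`kanFib_Ex`, `kanFib_filtered`. Descent: a lift comes from a stage (`exists_stage`,
`exists_stage_eq`), then apply `descent` repeatedly. -/
theorem exists_exInf : ∃ (E : SSet.{0} ⥤ SSet.{0}) (ι : 𝟭 _ ⟶ E), (∀ X, WHE (ι.app X)) ∧
    (∀ X, (E.obj X).KanComplex) ∧ (∀ (X Y : SSet.{0}) (p : X ⟶ Y), KanFib p → KanFib (E.map p)) ∧
    PreservesFilteredColimitsOfSize.{0, 0} E ∧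
    ∀ (X Y : SSet.{0}) (p : X ⟶ Y), KanFib p → II.rlp (E.map p) → II.rlp p := by
  exact ⟨sinfE, { app X := sinfI X 0, naturality _ _ f := (sinfI_nat f 0).symm }, sinf_whe, sinf_kan,
    fun _ _ _ hp => sinf_fib hp, sinf_filtered, fun _ _ _ hp h => sinf_desc hp h⟩

end Vale.Agent.P213
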