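import Vale.Agent.P213.SInf

/-! P213: the Kan-Quillen model structure. -/

open CategoryTheory Simplicial MonoidalCategory Opposite Limits CartesianMonoidalCategory

noncomputable section

namespace Vale.Agent.P213

theorem skq_whe_iff {E : SSet.{0} ⥤ SSet.{0}} (ι : 𝟭 _ ⟶ E) (h : ∀ X, WHE (ι.app X))
    {X Y : SSet.{0}} (f : X ⟶ Y) : WHE (E.map f) ↔ WHE f := by
  have e : f ≫ ι.app Y = ι.app X ≫ E.map f := ι.naturality f
  exact ⟨fun hf => WHE.of_post (h Y) (e ▸ (h X).comp hf),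
    fun hf => WHE.of_pre (h X) (e ▸ hf.comp (h Y))⟩

theorem triv_iff {X Y : SSet.{0}} (p : X ⟶ Y) : II.rlp p ↔ KanFib p ∧ WHE p := by
  refine ⟨fun h => ⟨kanFib_of_triv h, whe_of_triv h⟩, fun ⟨hp, hw⟩ => ?_⟩
  obtain ⟨E, ι, h1, h2, h3, -, h5⟩ := exists_exInf
  exact h5 X Y p hp (triv_of_kk ⟨h2 X, h2 Y, h3 X Y p hp⟩ ((skq_whe_iff ι h1 p).2 hw))

/-- Retract argument. -/
theorem ano_iff {A B : SSet.{0}} (i : A ⟶ B) : Ano i ↔ Mono i ∧ WHE i := by
  refine ⟨fun h => ⟨mono_of_ano h, whe_of_ano h⟩, fun ⟨hm, hw⟩ => ?_⟩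
  obtain ⟨Z, j, p, hj, hp, e⟩ := exists_ano_fib i
  have := triv_lift (i := i) ((triv_iff p).2 ⟨hp, WHE.of_pre (whe_of_ano hj) (e ▸ hw)⟩)
  rw [ano_eq] at hj ⊢
  exact MorphismProperty.of_retract (RetractArrow.ofLeftLiftingProperty e) hj

open HomotopicalAlgebra in
/-- Use `HomotopicalAlgebra.ModelCategory.mk'`. -/
theorem kq_model : IsModel (MorphismProperty.monomorphisms SSet.{0}) WHE KanFib := by
  let _ : CategoryWithCofibrations SSet.{0} := ⟨MorphismProperty.monomorphisms _⟩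
  let _ : CategoryWithFibrations SSet.{0} := ⟨KanFib⟩
  let _ : CategoryWithWeakEquivalences SSet.{0} := ⟨WHE⟩
  have e1 : trivialFibrations SSet.{0} = II.rlp := by
    ext X Y p
    exact (triv_iff p).symm
  have e2 : trivialCofibrations SSet.{0} = Ano := by
    ext X Y p
    exact (ano_iff p).symm
  have : (weakEquivalences SSet.{0}).HasTwoOutOfThreeProperty :=
    inferInstanceAs WHE.HasTwoOutOfThreeProperty
  have : MorphismProperty.IsWeakFactorizationSystem (cofibrations SSet.{0})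
      (trivialFibrations SSet.{0}) := by
    rw [e1]
    refine ⟨?_, triv_llp, ⟨fun f => ?_⟩⟩
    · change (MorphismProperty.monomorphisms _).rlp = _
      rw [← triv_llp, MorphismProperty.rlp_llp_rlp]
    · obtain ⟨Z, i, p, hi, hp, e⟩ := exists_mono_triv f
      exact ⟨⟨Z, i, p, e, hi, hp⟩⟩
  have : MorphismProperty.IsWeakFactorizationSystem (trivialCofibrations SSet.{0})
      (fibrations SSet.{0}) := by
    rw [e2]
    refine ⟨MorphismProperty.rlp_llp_rlp JJ, rfl, ⟨fun f => ?_⟩⟩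
    obtain ⟨Z, i, p, hi, hp, e⟩ := exists_ano_fib f
    exact ⟨⟨Z, i, p, e, hi, hp⟩⟩
  exact ⟨ModelCategory.mk' _, rfl, rfl, rfl⟩

/-- Apply `E` from `exists_exInf`, then `hl_of_whe`, `hl_filtered`, `whe_of_hl`. -/
theorem whe_filtered : WHE.IsStableUnderFilteredColimits.{0, 0} := by
  obtain ⟨E, ι, h1, h2, -, h4, -⟩ := exists_exInf
  refine ⟨fun J _ _ => ⟨fun X₁ X₂ c₁ c₂ hc₁ hc₂ f hf φ hφ => ?_⟩⟩
  refine (skq_whe_iff ι h1 φ).1 (whe_of_hl (h2 _) (h2 _) ?_)
  refine (hl_filtered.isStableUnderColimitsOfShape J).condition _ _ (E.mapCocone c₁)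
    (E.mapCocone c₂) (isColimitOfPreserves E hc₁) (isColimitOfPreserves E hc₂)
    (Functor.whiskerRight f E)
    (fun j => hl_of_whe (h2 _) (h2 _) ((skq_whe_iff ι h1 _).2 (hf j))) _ fun j => ?_
  exact (E.map_comp _ _).symm.trans ((congrArg E.map (hφ j)).trans (E.map_comp _ _))

end Vale.Agent.P213
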