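import Vale.Agent.P213.SWhe

/-! P213: Kan fibrations between Kan complexes. -/

open CategoryTheory Simplicial MonoidalCategory Opposite Limits CartesianMonoidalCategory

noncomputable section

namespace Vale.Agent.P213

variable {A B W X Y Z : SSet.{0}}

theorem skan_lift {i : A ⟶ B} {p : X ⟶ Y} (h : HasLiftingProperty i p) (a : A ⟶ X) (b : B ⟶ Y)
    (w : a ≫ p = i ≫ b) : ∃ l : B ⟶ X, i ≫ l = a ∧ l ≫ p = b :=
  ⟨(CommSq.mk w).lift, (CommSq.mk w).fac_left, (CommSq.mk w).fac_right⟩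

theorem skan_mk {i : A ⟶ B} {p : X ⟶ Y} (h : ∀ (a : A ⟶ X) (b : B ⟶ Y), a ≫ p = i ≫ b →
    ∃ l : B ⟶ X, i ≫ l = a ∧ l ≫ p = b) : HasLiftingProperty i p :=
  ⟨fun sq => by
    obtain ⟨l, h1, h2⟩ := h _ _ sq.w
    exact ⟨⟨⟨l, h1, h2⟩⟩⟩⟩

theorem skan_term (hZ : Z.KanComplex) : KK (terminal.from Z) :=
  ⟨hZ, kan_of_ext fun _ _ _ => ⟨terminal.from _, terminal.hom_ext _ _⟩, (kan_iff Z).1 hZ⟩

/-- The transpose of a map into an internal hom. -/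
def skanU {K : SSet.{0}} (w : B ⟶ (ihom K).obj Z) : B ⊗ K ⟶ Z :=
  (β_ B K).hom ≫ MonoidalClosed.uncurry w

theorem skanU_comp {K : SSet.{0}} (a : A ⟶ B) (w : B ⟶ (ihom K).obj Z) :
    skanU (a ≫ w) = a ▷ K ≫ skanU w := by
  rw [skanU, skanU, MonoidalClosed.uncurry_natural_left, BraidedCategory.braiding_naturality_left_assoc]

theorem skanU_pre {K L : SSet.{0}} (j : K ⟶ L) (w : B ⟶ (ihom L).obj Z) :
    skanU (w ≫ (MonoidalClosed.pre j).app Z) = B ◁ j ≫ skanU w := by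
  rw [skanU, skanU, MonoidalClosed.uncurry_pre_app, BraidedCategory.braiding_naturality_right_assoc]

theorem skanU_inj {K : SSet.{0}} {w w' : B ⟶ (ihom K).obj Z} (h : skanU w = skanU w') : w = w' :=
  MonoidalClosed.uncurry_injective ((cancel_epi _).1 h)

theorem skanU_surj {K : SSet.{0}} (c : B ⊗ K ⟶ Z) : ∃ w : B ⟶ (ihom K).obj Z, skanU w = c :=
  ⟨MonoidalClosed.curry ((β_ B K).inv ≫ c), by simp [skanU]⟩

theorem exists_htpInv (hX : X.KanComplex) (hY : Y.KanComplex) {f : X ⟶ Y} (hf : WHE f) :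
    ∃ g : Y ⟶ X, Htp (f ≫ g) (𝟙 X) ∧ Htp (g ≫ f) (𝟙 Y) := by
  obtain ⟨g, hg⟩ := (hf X hX).1 (𝟙 X)
  refine ⟨g, hg, (hf Y hY).2 _ _ ?_⟩
  simpa using hg.post f

/-- Take `g` from `exists_htpInv`, lift the homotopy `g ≫ p ~ 𝟙` (`lift_htp₀` with the initial
object) to get a strict section `s`. Take `H` from `p ≫ s` to `𝟙`. Apply `fill_vert` to
`H ≫ p ≫ s` and `H` to get a vertical homotopy `T` from `p ≫ s` to `𝟙`. For a square `a, b`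
on a monomorphism `i` use `lift_htp₀` with `a ▷ _ ≫ T`, `b ≫ s` and `fst ≫ b`. -/
theorem triv_of_kk {p : X ⟶ Y} (hp : KK p) (hw : WHE p) : II.rlp p := by
  obtain ⟨hX, hY, hp⟩ := hp
  obtain ⟨g, h1, K, hK0, hK1⟩ := exists_htpInv hX hY hw
  obtain ⟨L, hL0, hL⟩ := skan_lift (ano_ι₀ Y p hp) g K hK0.symm
  obtain ⟨s, hs, h2⟩ : ∃ s : Y ⟶ X, s ≫ p = 𝟙 Y ∧ Htp g s :=
    ⟨SSet.ι₁ ≫ L, by rw [Category.assoc, hL, hK1], L, hL0, rfl⟩
  obtain ⟨H, hH0, hH1⟩ := ((h2.pre p).symm hX).trans hX h1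
  obtain ⟨T, hT0, hT1, hT⟩ := fill_vert p hp (H ≫ p ≫ s) H
    (by rw [reassoc_of% hH0, reassoc_of% hs, hH0]) (by simp [hs])
  rw [reassoc_of% hH1] at hT0
  rw [hH1] at hT1
  simp only [Category.assoc, hs, Category.comp_id, reassoc_of% hH1] at hT
  intro A B i hi
  have : Mono i := SSet.modelCategoryQuillen.I_le_monomorphisms i hi
  refine skan_mk fun a b h => ?_
  obtain ⟨M, hM, -, hM'⟩ := lift_htp₀ i p hp (a ▷ _ ≫ T) (b ≫ s) (fst _ _ ≫ b)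
    (by rw [SSet.ι₀_comp_assoc, hT0, reassoc_of% h]) (by simp [hT, h]) (by simp [hs])
  refine ⟨SSet.ι₁ ≫ M, ?_, by simp [hM']⟩
  rw [← SSet.ι₁_comp_assoc, hM, SSet.ι₁_comp_assoc, hT1, Category.comp_id]

/-- Take `j : B ⟶ B'` anodyne with `B'` Kan, factor `i ≫ j = k ≫ q` (anodyne, fibration); `q` is a
trivial fibration by `triv_of_kk`, so `i ≫ j` is a retract of `k`, hence anodyne. Extend the
bottom map of the square along `j`. -/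
theorem llp_kk {i : A ⟶ B} [Mono i] (hw : WHE i) : KK.llp i := by
  obtain ⟨B', j, hj, hB'⟩ := exists_kan B
  obtain ⟨M, k, q, hk, hq, e⟩ := exists_ano_fib (i ≫ j)
  have hq' : II.rlp q := triv_of_kk ⟨kan_of_fib hq hB', hB', hq⟩
    ((whe_of_ano hk).of_pre (e ▸ hw.comp (whe_of_ano hj)))
  have := mono_of_ano hj
  obtain ⟨r, hr, hr'⟩ := skan_lift (triv_lift (i := i ≫ j) hq') k (𝟙 _) (by simp [e])
  intro E V p hp
  refine skan_mk fun a b h => ?_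
  obtain ⟨b', hb'⟩ := ext_of_ano hj hp.2.1 b
  obtain ⟨l, hl, hl'⟩ := skan_lift (hk p hp.2.2) a (q ≫ b') (by rw [reassoc_of% e, hb', h])
  refine ⟨j ≫ r ≫ l, ?_, ?_⟩
  · rw [← hl, ← hr]
    simp
  · simp only [Category.assoc, hl', reassoc_of% hr', hb']

/-- The path fibration. Hint: `(MonoidalClosed.pre ∂Δ[1].ι).app Z`, with
`exists_ends`, currying and the braiding. -/
theorem exists_path (hZ : Z.KanComplex) : ∃ (E V : SSet.{0}) (p : E ⟶ V) (e₀ e₁ : V ⟶ Z), KK p ∧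
    (∀ (B : SSet.{0}) (u v : B ⟶ Z), ∃ w : B ⟶ V, w ≫ e₀ = u ∧ w ≫ e₁ = v) ∧
    (∀ (B : SSet.{0}) (w w' : B ⟶ V), w ≫ e₀ = w' ≫ e₀ → w ≫ e₁ = w' ≫ e₁ → w = w') ∧
    (∀ (B : SSet.{0}) (w : B ⟶ V), Htp (w ≫ e₀) (w ≫ e₁) ↔ ∃ l : B ⟶ E, l ≫ p = w) := by
  obtain ⟨e₀, e₁, h0, h1, n0, n1, hex, hun⟩ := exists_ends
  have k0 : ∀ (B : SSet.{0}) (w : B ⟶ (ihom (∂Δ[1] : SSet.{0})).obj Z),
      w ≫ e₀ _ ≫ skanU (𝟙 _) = e₀ B ≫ skanU w := fun B w => by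
    rw [← reassoc_of% n0, ← skanU_comp, Category.comp_id]
  have k1 : ∀ (B : SSet.{0}) (w : B ⟶ (ihom (∂Δ[1] : SSet.{0})).obj Z),
      w ≫ e₁ _ ≫ skanU (𝟙 _) = e₁ B ≫ skanU w := fun B w => by
    rw [← reassoc_of% n1, ← skanU_comp, Category.comp_id]
  refine ⟨(ihom (Δ[1] : SSet.{0})).obj Z, (ihom (∂Δ[1] : SSet.{0})).obj Z,
    (MonoidalClosed.pre ∂Δ[1].ι).app Z, e₀ _ ≫ skanU (𝟙 _), e₁ _ ≫ skanU (𝟙 _),
    ⟨inferInstance, inferInstance, (SSet.modelCategoryQuillen.fibration_iff _).1 inferInstance⟩,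
    fun B u v => ?_, fun B w w' hw hw' => ?_, fun B w => ?_⟩
  · obtain ⟨c, hc, hc'⟩ := hex B Z u v
    obtain ⟨w, rfl⟩ := skanU_surj c
    exact ⟨w, (k0 B w).trans hc, (k1 B w).trans hc'⟩
  · rw [k0, k0] at hw
    rw [k1, k1] at hw'
    exact skanU_inj (hun _ _ _ _ hw hw')
  · rw [k0, k1]
    constructor
    · rintro ⟨H, hH, hH'⟩
      obtain ⟨l, rfl⟩ := skanU_surj H
      refine ⟨l, skanU_inj (hun _ _ _ _ ?_ ?_)⟩
      · rw [skanU_pre, reassoc_of% h0, hH]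
      · rw [skanU_pre, reassoc_of% h1, hH']
    · rintro ⟨l, rfl⟩
      exact ⟨skanU l, by rw [skanU_pre, reassoc_of% h0], by rw [skanU_pre, reassoc_of% h1]⟩

theorem whe_of_llp_kk {i : A ⟶ B} (hi : KK.llp i) : WHE i := by
  intro Z hZ
  refine ⟨fun g => ?_, fun h h' hh => ?_⟩
  · obtain ⟨l, hl, -⟩ := skan_lift (hi _ (skan_term hZ)) g (terminal.from _) (by simp)
    exact ⟨l, hl ▸ Htp.refl _⟩
  · obtain ⟨E, V, p, e₀, e₁, hp, h1, -, h3⟩ := exists_path hZ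
    obtain ⟨w, rfl, rfl⟩ := h1 B h h'
    obtain ⟨l, hl⟩ := (h3 A (i ≫ w)).1 (by simpa using hh)
    obtain ⟨l', -, hl'⟩ := skan_lift (hi _ hp) l w hl
    exact (h3 B w).2 ⟨l', hl'⟩

theorem whe_pushout {f : A ⟶ X} {i : A ⟶ B} {i' : X ⟶ Y} {g : B ⟶ Y} (sq : IsPushout f i i' g)
    [Mono i] (hi : WHE i) : WHE i' := by
  exact whe_of_llp_kk (MorphismProperty.of_isPushout sq (llp_kk hi))

/-- Factor `f = k ≫ q` with `exists_mono_triv`; lift along `k` by `llp_kk`; use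
`exists_section` for `q`. -/
theorem rel_surj {E V : SSet.{0}} {p : E ⟶ V} (hp : KK p) {f : A ⟶ X} (hf : WHE f) (a : A ⟶ E)
    (w : X ⟶ V) (h : a ≫ p = f ≫ w) : ∃ (l : X ⟶ E) (T : A ⊗ Δ[1] ⟶ E), l ≫ p = w ∧
      SSet.ι₀ ≫ T = f ≫ l ∧ SSet.ι₁ ≫ T = a ∧ T ≫ p = fst _ _ ≫ f ≫ w := by
  obtain ⟨M, k, q, hk, hq, rfl⟩ := exists_mono_triv f
  obtain ⟨l, hl, hl'⟩ := skan_lift (llp_kk ((whe_of_triv hq).of_post hf) p hp) a (q ≫ w)
    (by simpa using h)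
  obtain ⟨s, T, hs, h0, h1, hT⟩ := exists_section hq
  refine ⟨s ≫ l, k ▷ _ ≫ T ≫ l, ?_, ?_, ?_, ?_⟩
  · rw [Category.assoc, hl', reassoc_of% hs]
  · simp [reassoc_of% h0]
  · simp [reassoc_of% h1, hl]
  · simp [hl', reassoc_of% hT]

/-- Left properness. For `p : E ⟶ V` in `KK`, `w : Y ⟶ V` and `b : B ⟶ E` over `g ≫ w`, use
`rel_surj` on `i ≫ b`, extend the vertical homotopy along `i` (`lift_htp₁`) and glue: this gives
`y : Y ⟶ E` over `w` with `g ≫ y` homotopic to `b`. Apply it to `Z ⟶ ⊤` and to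
`exists_path`. -/
theorem whe_pushout_left {f : A ⟶ X} {i : A ⟶ B} {i' : X ⟶ Y} {g : B ⟶ Y}
    (sq : IsPushout f i i' g) [Mono i] (hf : WHE f) : WHE g := by
  have key : ∀ {E V : SSet.{0}} {p : E ⟶ V}, KK p → ∀ (w : Y ⟶ V) (b : B ⟶ E), b ≫ p = g ≫ w →
      ∃ y : Y ⟶ E, y ≫ p = w ∧ Htp (g ≫ y) b := by
    intro E V p hp w b h
    obtain ⟨l, T, hl, h0, h1, hT⟩ := rel_surj hp hf (i ≫ b) (i' ≫ w)
      (by rw [Category.assoc, h, sq.w_assoc])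
    obtain ⟨L, hL, hL1, hL'⟩ := lift_htp₁ i p hp.2.2 T b (fst _ _ ≫ g ≫ w) h1
      (by simp [hT, sq.w_assoc]) (by simp [h])
    have e : f ≫ l = i ≫ SSet.ι₀ ≫ L := by rw [← SSet.ι₀_comp_assoc, hL, h0]
    refine ⟨sq.desc l (SSet.ι₀ ≫ L) e, sq.hom_ext ?_ ?_, L, by simp, hL1⟩
    · simp [hl]
    · simp [hL']
  intro Z hZ
  refine ⟨fun b => ?_, fun h h' hh => ?_⟩
  · obtain ⟨y, -, hy⟩ := key (skan_term hZ) (terminal.from _) b (by simp)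
    exact ⟨y, hy⟩
  · obtain ⟨E, V, p, e₀, e₁, hp, h1, -, h3⟩ := exists_path hZ
    obtain ⟨w, rfl, rfl⟩ := h1 Y h h'
    obtain ⟨l, hl⟩ := (h3 B (g ≫ w)).1 (by simpa using hh)
    obtain ⟨y, hy, -⟩ := key hp w l hl
    exact (h3 Y w).2 ⟨y, hy⟩

end Vale.Agent.P213
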