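import Vale.Agent.P213.SDesc
import Vale.Agent.P213.SFib
import Vale.Agent.P213.SHL

/-! P213: the last vertex maps are weak equivalences. -/

open CategoryTheory Simplicial MonoidalCategory Opposite Limits CartesianMonoidalCategory

noncomputable section

namespace Vale.Agent.P213

variable {X Y Z : SSet.{0}}

theorem whe_jX_kan (hZ : Z.KanComplex) : WHE (jX Z) := whe_of_hl hZ (kan_Ex hZ) (hl_jX hZ)

theorem slam_cancel (hZ : Z.KanComplex) {h h' : X ⟶ Z} (H : Htp (h ≫ jX Z) (h' ≫ jX Z)) :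
    Htp h h' := by
  obtain ⟨r, h1, -⟩ := exists_htpInv hZ (kan_Ex hZ) (whe_jX_kan hZ)
  have h2 := h1.pre h
  have h3 := h1.pre h'
  have h4 := H.post r
  rw [Category.comp_id] at h2 h3
  rw [Category.assoc, Category.assoc] at h4
  exact ((h2.symm hZ).trans hZ h4).trans hZ h3

/-- Let `r` be a homotopy inverse of `jX Z`. Surjective: `g` extends up to homotopy to
`Ex.map g ≫ r`. Injective: `Htp.ex`, `htp_jX_ex`, `jX_nat`. -/
theorem whe_jX (X : SSet.{0}) : WHE (jX X) := by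
  intro Z hZ
  refine ⟨fun g => ?_, fun h h' H => slam_cancel hZ ?_⟩
  · obtain ⟨r, h1, -⟩ := exists_htpInv hZ (kan_Ex hZ) (whe_jX_kan hZ)
    refine ⟨Ex.map g ≫ r, ?_⟩
    have h2 := h1.pre g
    rwa [Category.comp_id, ← Category.assoc, jX_nat, Category.assoc] at h2
  · have h1 := H.ex
    rw [Ex.map_comp, Ex.map_comp] at h1
    rw [jX_nat, jX_nat]
    exact (((htp_jX_ex X).post _).trans (kan_Ex hZ) h1).trans (kan_Ex hZ)
      (((htp_jX_ex X).post _).symm (kan_Ex hZ))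

theorem whe_Ex_iff (f : X ⟶ Y) : WHE (Ex.map f) ↔ WHE f :=
  ⟨fun h => (whe_jX Y).of_post (jX_nat f ▸ (whe_jX X).comp h),
    fun h => (whe_jX X).of_pre (jX_nat f ▸ h.comp (whe_jX Y))⟩

theorem whe_ex_iff (f : X ⟶ Y) : WHE (SSet.ex.map f) ↔ WHE f := by
  have e := exIso.hom.naturality f
  rw [← whe_Ex_iff f]
  exact ⟨fun h => (whe_of_isIso (exIso.hom.app X)).of_pre (e ▸ h.comp (whe_of_isIso _)),
    fun h => (whe_of_isIso (exIso.hom.app Y)).of_post (e ▸ (whe_of_isIso _).comp h)⟩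

/-- From left to right `Htp.ex`. From right to left: `sd.map ι₀` is anodyne (`ano_sd`), and
`sd.map ι₀`, `sd.map ι₁` have the common retraction `sd.map (fst _ _)`. -/
theorem adj_htp (hZ : Z.KanComplex) (f g : SSet.sd.obj X ⟶ Z) :
    Htp f g ↔ Htp (adjSd.homEquiv _ _ f) (adjSd.homEquiv _ _ g) := by
  refine ⟨fun h => ?_, fun ⟨H, h0, h1⟩ => ?_⟩
  · rw [Adjunction.homEquiv_unit, Adjunction.homEquiv_unit]
    exact h.ex.pre _
  · have e0 : SSet.sd.map SSet.ι₀ ≫ (adjSd.homEquiv _ _).symm H = f := by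
      rw [← Adjunction.homEquiv_naturality_left_symm, h0, Equiv.symm_apply_apply]
    have e1 : SSet.sd.map SSet.ι₁ ≫ (adjSd.homEquiv _ _).symm H = g := by
      rw [← Adjunction.homEquiv_naturality_left_symm, h1, Equiv.symm_apply_apply]
    have h2 := ((whe_of_ano (ano_sd (ano_ι₀ X)) Z hZ).2 (SSet.sd.map (fst _ _) ≫ f)
      ((adjSd.homEquiv _ _).symm H) (by
        rw [e0, ← Functor.map_comp_assoc, SSet.ι₀_fst, CategoryTheory.Functor.map_id,
          Category.id_comp]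
        exact Htp.refl f)).pre (SSet.sd.map SSet.ι₁)
    rwa [e1, ← Functor.map_comp_assoc, SSet.ι₁_fst, CategoryTheory.Functor.map_id,
      Category.id_comp] at h2

theorem slam_adj (h : X ⟶ Z) : adjSd.homEquiv _ _ (lam X ≫ h) = h ≫ jX Z := by
  rw [Adjunction.homEquiv_naturality_right, lam, Equiv.apply_symm_apply, jX_nat]

theorem whe_lam (X : SSet.{0}) : WHE (lam X) := by
  intro Z hZ
  refine ⟨fun g => ?_, fun h h' H => slam_cancel hZ ?_⟩
  · obtain ⟨r, -, h1⟩ := exists_htpInv hZ (kan_Ex hZ) (whe_jX_kan hZ)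
    refine ⟨adjSd.homEquiv _ _ g ≫ r, (adj_htp hZ _ _).2 ?_⟩
    have h2 := h1.pre (adjSd.homEquiv _ _ g)
    rwa [Category.comp_id, ← Category.assoc, ← slam_adj] at h2
  · rw [← slam_adj, ← slam_adj]
    exact (adj_htp hZ _ _).1 H

theorem whe_unit (X : SSet.{0}) : WHE (SSet.sdExAdjunction.unit.app X) := by
  have h : WHE (adjSd.unit.app X) :=
    ((whe_Ex_iff _).2 (whe_lam X)).of_post (by rw [unit_lam]; exact whe_jX X)
  rw [adjSd_unit] at h
  exact (whe_of_isIso _).of_post h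

end Vale.Agent.P213
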