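import Vale.Agent.P213.SZig

/-! P213: the cylinder of the last vertex map. -/

open CategoryTheory Simplicial MonoidalCategory Opposite Limits CartesianMonoidalCategory

noncomputable section

namespace Vale.Agent.P213

namespace SPn

variable {n : ℕ}

/-- All faces and the vertices from `j` on. -/
def E (n j : ℕ) : Set (Pn n) := {a | ∀ i, a = Pn.vx i → j ≤ i.val}

/-- The filtration. -/
def B (n j : ℕ) : (NP (Pn n)).Subcomplex := bdP n ⊔ NS (E n j)

/-- The elements comparable with the vertex `j` which are not smaller vertices. -/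
def D (j : Fin (n + 1)) : Set (Pn n) := {a | (∀ i, a = Pn.vx i → j ≤ i) ∧
  ∀ S, a = Pn.fc S → mx _ S ≤ j}

/-- Adding the vertex `j` to a face. -/
def ins (j : Fin (n + 1)) (S : Ch (Fin (n + 1))) : Ch (Fin (n + 1)) :=
  chMk (insert j S.finset) (Finset.insert_nonempty _ _)

/-- The upper map of the zigzag. -/
def rho (j : Fin (n + 1)) (a : Pn n) : Pn n :=
  match a with
  | .fc S => (.fc (ins j S))
  | .vx i => (.vx i)

/-- The cone point. -/
def pt (j : Fin (n + 1)) : Pn n := .fc (chMk {j} (Finset.singleton_nonempty j))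

theorem mem_B {j : ℕ} {m : SimplexCategoryᵒᵖ} {σ : (NP (Pn n)).obj m} :
    σ ∈ (B n j).obj m ↔ σ ∈ (bdP n).obj m ∨ ∀ i, NP.fn σ i ∈ E n j := Iff.rfl

theorem mx_ins {j i : Fin (n + 1)} {S : Ch (Fin (n + 1))} (h : mx _ S ≤ i) (hj : j ≤ i) :
    mx _ (ins j S) ≤ i := by
  rcases Finset.mem_insert.1 (mx_mem (ins j S)) with e | e
  · exact e.trans_le hj
  · exact (le_mx e).trans h

theorem mx_single (j : Fin (n + 1)) : mx _ (chMk {j} (Finset.singleton_nonempty j)) = j :=
  Finset.mem_singleton.1 (mx_mem (chMk {j} (Finset.singleton_nonempty j)))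

theorem fc_mem_D {j : Fin (n + 1)} {S : Ch (Fin (n + 1))} (h : mx _ S ≤ j) : Pn.fc S ∈ D j :=
  ⟨fun _ e => (by cases e), fun _ e => (by cases e; exact h)⟩

/-- The relation between an element and its replacements. -/
def Rel (j : Fin (n + 1)) (x y : Pn n) : Prop :=
  y ∈ D j ∧ (∀ k, y = Pn.vx k → x = Pn.vx k) ∧ y.supp ⊆ insert j x.supp

theorem rel_id {j : Fin (n + 1)} {x : Pn n} (h : x ∈ D j) : Rel j x x :=
  ⟨h, fun _ e => e, Finset.subset_insert _ _⟩

theorem rel_rho {j : Fin (n + 1)} {x : Pn n} (h : x ∈ D j) : Rel j x (rho j x) := by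
  cases x with
  | fc S => exact ⟨fc_mem_D (mx_ins (h.2 S rfl) le_rfl), fun _ e => (by cases e), subset_rfl⟩
  | vx i => exact rel_id h

theorem rel_pt (j : Fin (n + 1)) (x : Pn n) : Rel j x (pt j) :=
  ⟨fc_mem_D (mx_single j).le, fun _ e => (by cases e),
    Finset.singleton_subset_iff.2 (Finset.mem_insert_self _ _)⟩

theorem mix_D {j : Fin (n + 1)} {f g : Pn n → Pn n} (hf : ∀ x ∈ D j, Rel j x (f x))
    (hg : ∀ x ∈ D j, Rel j x (g x)) : Mix (NS (D j)) f g := fun _ _ _ hσ h i => by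
  rcases h i with e | e <;> rw [e]
  · exact (hf _ (hσ i)).1
  · exact (hg _ (hσ i)).1

theorem mix_A {j : Fin (n + 1)} {f g : Pn n → Pn n} (hf : ∀ x ∈ D j, Rel j x (f x))
    (hg : ∀ x ∈ D j, Rel j x (g x)) : Mix (B n (j + 1) ⊓ NS (D j)) f g := by
  intro m σ τ hσ h
  have hr : ∀ i, Rel j (NP.fn σ i) (NP.fn τ i) := fun i => by
    rcases h i with e | e <;> rw [e]
    · exact hf _ (hσ.2 i)
    · exact hg _ (hσ.2 i)
  have key : (∀ i, NP.fn σ i ∈ E n (j + 1)) → τ ∈ (B n (j + 1)).obj m := fun h' =>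
    mem_B.2 (Or.inr fun i k e => h' i k ((hr i).2.1 k e))
  refine ⟨?_, fun i => (hr i).1⟩
  rcases mem_B.1 hσ.1 with (h' | ⟨v, hv⟩) | h'
  · refine key fun i k e => ?_
    obtain ⟨S, hS⟩ := h' i
    cases hS.symm.trans e
  · by_cases hj : v = j
    · refine key fun i k e => ?_
      have h1 : j ≤ k := (hσ.2 i).1 k e
      have h2 := hv i
      rw [e, hj] at h2
      exact (lt_of_le_of_ne h1 fun e' => h2 (Finset.mem_singleton.2 e') : j < k)
    · exact mem_B.2 (Or.inl (Or.inr ⟨v, fun i hi =>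
        (Finset.mem_insert.1 ((hr i).2.2 hi)).elim hj (hv i)⟩))
  · exact key h'

theorem ano_piece (j : Fin (n + 1)) :
    Ano (SSet.Subcomplex.homOfLE (inf_le_right : B n (j + 1) ⊓ NS (D j) ≤ NS (D j))) := by
  refine ano_zigzag _ _ _ (D j) (rho j) (fun _ => pt j) le_rfl ?_ monotoneOn_const ?_ ?_
    (mix_A (fun _ => rel_id) fun _ => rel_rho) (mix_A (fun x _ => rel_pt j x) fun _ => rel_rho)
    (mix_D (fun _ => rel_id) fun _ => rel_rho) (mix_D (fun x _ => rel_pt j x) fun _ => rel_rho) ?_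
  · intro a _ b hb h
    cases a <;> cases b
    · exact Finset.insert_subset_insert j h
    · exact mx_ins h (hb.1 _ rfl)
    · exact h.elim
    · exact h
  · intro a _
    cases a
    · exact Finset.subset_insert j _
    · exact le_rfl
  · intro a ha
    cases a
    · exact Finset.singleton_subset_iff.2 (Finset.mem_insert_self j _)
    · exact (mx_single j).trans_le (ha.1 _ rfl)
  · intro m σ τ _ h
    exact ⟨mem_B.2 (Or.inl (Or.inl fun i => ⟨_, h i⟩)), fun i => h i ▸ (rel_pt j (pt j)).1⟩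

theorem sup_eq (j : Fin (n + 1)) : B n (j + 1) ⊔ NS (D j) = B n j := by
  refine le_antisymm (sup_le (sup_le_sup_left (NS_mono fun a ha i e => ?_) _)
    ((NS_mono fun a ha i e => ha.1 i e).trans le_sup_right)) fun m σ hσ => ?_
  · exact (Nat.le_succ _).trans (ha i e)
  · rcases mem_B.1 hσ with h | h
    · exact Or.inl (mem_B.2 (Or.inl h))
    · by_cases hj : ∃ k, NP.fn σ k = Pn.vx j
      · obtain ⟨k, hk⟩ := hj
        refine Or.inr fun i => ⟨fun v e => h i v e, fun S e => ?_⟩
        rcases le_total i k with hik | hik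
        · have := (NP.fn σ).monotone hik
          rwa [e, hk] at this
        · have := (NP.fn σ).monotone hik
          rw [e, hk] at this
          exact this.elim
      · refine Or.inl (mem_B.2 (Or.inr fun i v e => lt_of_le_of_ne (h i v e) fun e' => ?_))
        exact hj ⟨i, e.trans (congrArg _ (Fin.ext e').symm)⟩

theorem ano_B (j : ℕ) (hj : j ≤ n + 1) : Ano (B n j).ι := by
  induction j with
  | zero =>
    have e : B n 0 = ⊤ := top_le_iff.1 fun m σ _ => mem_B.2 (Or.inr fun i v _ => Nat.zero_le _)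
    rw [e]
    exact MorphismProperty.of_isIso _ (SSet.Subcomplex.topIso _).hom
  | succ j ih =>
    have sq : SSet.Subcomplex.BicartSq (B n (j + 1) ⊓ NS (D ⟨j, hj⟩)) (B n (j + 1))
      (NS (D ⟨j, hj⟩)) (B n j) := ⟨sup_eq ⟨j, hj⟩, rfl⟩
    have h := MorphismProperty.of_isPushout sq.isPushout (ano_piece ⟨j, hj⟩)
    exact Ano.comp_mem _ _ h (ih (Nat.le_of_succ_le hj))

end SPn

/-- Filter by `B j = bdP ⊔ NS {all faces, vertices ≥ j}` (as the set of simplices which are in
`bdP` or have all their vertices `vx i` with `j ≤ i`), from `j = n + 1` (`bdP`) down to `j = 0`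
(everything). With `D j = {fc S | max S ≤ j} ∪ {vx i | j ≤ i}` one has
`B j = B (j + 1) ⊔ NS (D j)`, so the step is a pushout (`SSet.Subcomplex.BicartSq.isPushout`) of
`B (j + 1) ⊓ NS (D j) ≤ NS (D j)`, which is anodyne by `ano_zigzag` with
`ρ (fc S) = fc (S ∪ {j})`, `ρ (vx i) = vx i`, `c = fc {j}`. -/
theorem ano_bdP (n : ℕ) : Ano (bdP n).ι := by
  have e : SPn.B n (n + 1) = bdP n := by
    refine sup_eq_left.2 fun m σ hσ => Or.inl fun i => ?_
    cases h : NP.fn σ i with
    | fc S => exact ⟨S, rfl⟩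
    | vx v => exact absurd (hσ i v h) (not_le.2 v.2)
  exact e ▸ SPn.ano_B (n + 1) le_rfl

end Vale.Agent.P213
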