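import Vale.Agent.P213.SHtp

/-! P213: closure properties of weak homotopy equivalences, factorizations. -/

open CategoryTheory Simplicial MonoidalCategory Opposite Limits CartesianMonoidalCategory

noncomputable section

namespace Vale.Agent.P213

variable {A B W X Y Z : SSet.{0}}

theorem whe_id (X : SSet.{0}) : WHE (𝟙 X) := by
  intro K _
  refine ⟨fun g => ⟨g, ?_⟩, fun h h' H => ?_⟩
  · rw [Category.id_comp]
    exact Htp.refl g
  · rwa [Category.id_comp, Category.id_comp] at H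

theorem WHE.comp {f : X ⟶ Y} {g : Y ⟶ Z} (hf : WHE f) (hg : WHE g) : WHE (f ≫ g) := by
  intro K hK
  refine ⟨fun a => ?_, fun h h' H => ?_⟩
  · obtain ⟨b, hb⟩ := (hf K hK).1 a
    obtain ⟨c, hc⟩ := (hg K hK).1 b
    refine ⟨c, ?_⟩
    rw [Category.assoc]
    exact (hc.pre f).trans hK hb
  · rw [Category.assoc, Category.assoc] at H
    exact (hg K hK).2 _ _ ((hf K hK).2 _ _ H)

theorem WHE.of_post {f : X ⟶ Y} {g : Y ⟶ Z} (hg : WHE g) (h : WHE (f ≫ g)) : WHE f := by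
  intro K hK
  refine ⟨fun a => ?_, fun b b' H => ?_⟩
  · obtain ⟨c, hc⟩ := (h K hK).1 a
    exact ⟨g ≫ c, by rwa [Category.assoc] at hc⟩
  · obtain ⟨c, hc⟩ := (hg K hK).1 b
    obtain ⟨c', hc'⟩ := (hg K hK).1 b'
    have e : Htp c c' := (h K hK).2 _ _ (by
      rw [Category.assoc, Category.assoc]
      exact ((hc.pre f).trans hK H).trans hK ((hc'.pre f).symm hK))
    exact ((hc.symm hK).trans hK (e.pre g)).trans hK hc'

theorem WHE.of_pre {f : X ⟶ Y} {g : Y ⟶ Z} (hf : WHE f) (h : WHE (f ≫ g)) : WHE g := by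
  intro K hK
  refine ⟨fun a => ?_, fun b b' H => ?_⟩
  · obtain ⟨c, hc⟩ := (h K hK).1 (f ≫ a)
    rw [Category.assoc] at hc
    exact ⟨c, (hf K hK).2 _ _ hc⟩
  · refine (h K hK).2 _ _ ?_
    rw [Category.assoc, Category.assoc]
    exact H.pre f

theorem whe_of_isIso (f : X ⟶ Y) [IsIso f] : WHE f := by
  intro K _
  refine ⟨fun g => ⟨inv f ≫ g, ?_⟩, fun h h' H => ?_⟩
  · rw [IsIso.hom_inv_id_assoc]
    exact Htp.refl g
  · have := H.pre (inv f)
    rwa [IsIso.inv_hom_id_assoc, IsIso.inv_hom_id_assoc] at this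

instance : WHE.IsMultiplicative where
  id_mem := whe_id
  comp_mem _ _ := WHE.comp

instance : WHE.HasTwoOutOfThreeProperty where
  of_postcomp _ _ := WHE.of_post
  of_precomp _ _ := WHE.of_pre

instance : WHE.RespectsIso :=
  MorphismProperty.RespectsIso.mk _ (fun e _ h => (whe_of_isIso e.hom).comp h)
    fun e _ h => h.comp (whe_of_isIso e.hom)

theorem swhe_retract {f : X ⟶ Y} {g : Z ⟶ W} {i : X ⟶ Z} {i' : Y ⟶ W} {r : Z ⟶ X} {r' : W ⟶ Y}
    (hi : i ≫ g = f ≫ i') (hr : r ≫ f = g ≫ r') (h : i ≫ r = 𝟙 X) (h' : i' ≫ r' = 𝟙 Y)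
    (hg : WHE g) : WHE f := by
  intro K hK
  refine ⟨fun a => ?_, fun b b' H => ?_⟩
  · obtain ⟨c, hc⟩ := (hg K hK).1 (r ≫ a)
    refine ⟨i' ≫ c, ?_⟩
    have := hc.pre i
    rwa [reassoc_of% hi, reassoc_of% h] at this
  · have e := H.pre r
    rw [reassoc_of% hr, reassoc_of% hr] at e
    have := ((hg K hK).2 _ _ e).pre i'
    rwa [reassoc_of% h', reassoc_of% h'] at this

instance whe_retracts : WHE.IsStableUnderRetracts := by
  refine ⟨fun {X Y Z W f g} r hg => swhe_retract r.i_w r.r_w r.retract_left r.retract_right hg⟩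

theorem WHE.of_htpE {f g : X ⟶ Y} (h : HtpE f g) (hf : WHE f) : WHE g := by
  intro K hK
  have e : ∀ b : Y ⟶ K, Htp (f ≫ b) (g ≫ b) := fun b => (h.post b).htp hK
  refine ⟨fun a => ?_, fun b b' H => ?_⟩
  · obtain ⟨c, hc⟩ := (hf K hK).1 a
    exact ⟨c, ((e c).symm hK).trans hK hc⟩
  · exact (hf K hK).2 _ _ (((e b).trans hK H).trans hK ((e b').symm hK))

theorem whe_of_htpEquiv (f : X ⟶ Y) (g : Y ⟶ X) (h1 : HtpE (f ≫ g) (𝟙 X))
    (h2 : HtpE (g ≫ f) (𝟙 Y)) : WHE f := by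
  intro K hK
  refine ⟨fun a => ⟨g ≫ a, ?_⟩, fun b b' H => ?_⟩
  · have := (h1.post a).htp hK
    rwa [Category.assoc, Category.id_comp] at this
  · have e : ∀ c : Y ⟶ K, Htp (g ≫ f ≫ c) c := fun c => by
      have := (h2.post c).htp hK
      rwa [Category.assoc, Category.id_comp] at this
    exact (((e b).symm hK).trans hK (H.pre g)).trans hK (e b')

section

open MorphismProperty

attribute [local instance] Cardinal.fact_isRegular_aleph0 Cardinal.orderBotAleph0OrdToType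

instance swhe_small : MorphismProperty.IsSmall.{0} II := isSmall_ofHoms ..

instance swhe_card : IsCardinalForSmallObjectArgument II Cardinal.aleph0.{0} where
  preservesColimit {A B X Y} i hi f hf := by
    have : IsFinitelyPresentable.{0} A := by
      obtain ⟨n⟩ := hi
      infer_instance
    infer_instance

instance swhe_soa : HasSmallObjectArgument.{0} II :=
  ⟨.aleph0, inferInstance, inferInstance, inferInstance⟩

theorem swhe_llp : II.rlp.llp = monomorphisms SSet.{0} := by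
  refine le_antisymm ?_ ?_
  · rw [llp_rlp_of_hasSmallObjectArgument, retracts_le_iff, transfiniteCompositions_le_iff,
      pushouts_le_iff, coproducts_le_iff]
    exact SSet.modelCategoryQuillen.I_le_monomorphisms
  · rw [← SSet.rlp_monomorphisms]
    exact le_llp_rlp _

theorem swhe_rlp : II.rlp ≤ KanFib := by
  rw [← SSet.rlp_monomorphisms]
  exact antitone_rlp SSet.modelCategoryQuillen.J_le_monomorphisms

theorem swhe_mono {i : A ⟶ B} (hi : Ano i) : Mono i := by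
  have : II.rlp.llp i := antitone_llp swhe_rlp _ hi
  rwa [swhe_llp] at this

end

/-- Uses `ext_of_ano` and `lift_both`. -/
theorem whe_of_ano {i : A ⟶ B} (hi : Ano i) : WHE i := by
  intro K hK
  have := swhe_mono hi
  refine ⟨fun a => ?_, fun b b' ⟨H, h0, h1⟩ => ?_⟩
  · obtain ⟨l, hl⟩ := ext_of_ano hi hK a
    exact ⟨l, hl ▸ Htp.refl _⟩
  · obtain ⟨L, -, e0, e1, -⟩ := lift_both i (terminal.from K) hi ((kan_iff K).1 hK) H b b'
      (terminal.from _) h0 h1 (terminal.hom_ext _ _) (terminal.hom_ext _ _) (terminal.hom_ext _ _)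
    exact ⟨L, e0, e1⟩

theorem triv_lift {i : A ⟶ B} {p : X ⟶ Y} [Mono i] (hp : II.rlp p) : HasLiftingProperty i p := by
  rw [← SSet.rlp_monomorphisms] at hp
  exact hp i (MorphismProperty.monomorphisms.infer_property i)

theorem kanFib_of_triv {p : X ⟶ Y} (hp : II.rlp p) : KanFib p := by
  exact swhe_rlp _ hp

/-- A trivial fibration has a section and a vertical homotopy (`lift_both_triv`). -/
theorem exists_section {p : X ⟶ Y} (hp : II.rlp p) : ∃ (s : Y ⟶ X) (T : X ⊗ Δ[1] ⟶ X),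
    s ≫ p = 𝟙 Y ∧ SSet.ι₀ ≫ T = p ≫ s ∧ SSet.ι₁ ≫ T = 𝟙 X ∧ T ≫ p = fst _ _ ≫ p := by
  have := triv_lift (i := initial.to Y) hp
  have sq : CommSq (initial.to X) (initial.to Y) p (𝟙 Y) := ⟨initial.hom_ext _ _⟩
  obtain ⟨T, h0, h1, h2⟩ := lift_both_triv p hp (p ≫ sq.lift) (𝟙 X) (fst _ _ ≫ p)
    (by simp) (by simp)
  exact ⟨sq.lift, T, sq.fac_right, h0, h1, h2⟩

theorem whe_of_triv {p : X ⟶ Y} (hp : II.rlp p) : WHE p := by
  obtain ⟨s, T, hs, h0, h1, -⟩ := exists_section hp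
  exact whe_of_htpEquiv p s (.rel _ _ ⟨T, h0, h1⟩) (hs ▸ .refl _)

/-- Small object argument for the horn inclusions (instances exist in Mathlib). -/
theorem exists_ano_fib (f : X ⟶ Y) :
    ∃ (Z : SSet.{0}) (i : X ⟶ Z) (p : Z ⟶ Y), Ano i ∧ KanFib p ∧ i ≫ p = f := by
  have d := MorphismProperty.factorizationData JJ.rlp.llp JJ.rlp f
  exact ⟨d.Z, d.i, d.p, d.hi, d.hp, d.fac⟩

/-- Small object argument for the boundary inclusions; copy the instances for `J` in
`AnodyneExtensions/Basic.lean`. -/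
theorem exists_mono_triv (f : X ⟶ Y) :
    ∃ (Z : SSet.{0}) (i : X ⟶ Z) (p : Z ⟶ Y), Mono i ∧ II.rlp p ∧ i ≫ p = f := by
  have d := MorphismProperty.factorizationData II.rlp.llp II.rlp f
  exact ⟨d.Z, d.i, d.p, swhe_llp.le _ d.hi, d.hp, d.fac⟩

theorem exists_kan (X : SSet.{0}) : ∃ (Z : SSet.{0}) (i : X ⟶ Z), Ano i ∧ Z.KanComplex := by
  obtain ⟨Z, i, p, hi, hp, -⟩ := exists_ano_fib (terminal.from X)
  refine ⟨Z, i, hi, (kan_iff Z).2 ?_⟩
  rwa [terminal.hom_ext (terminal.from Z) p]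

/-- Retract argument with `exists_mono_triv`. -/
theorem triv_llp : II.rlp.llp = MorphismProperty.monomorphisms SSet.{0} := by
  exact swhe_llp

theorem mono_of_ano {i : A ⟶ B} (hi : Ano i) : Mono i := by
  exact swhe_mono hi

/-- An anodyne map out of a Kan complex into a Kan complex is a strong deformation retract. -/
theorem exists_retraction {i : A ⟶ B} (hi : Ano i) (hA : A.KanComplex) (hB : B.KanComplex) :
    ∃ (r : B ⟶ A) (T : B ⊗ Δ[1] ⟶ B), i ≫ r = 𝟙 A ∧ SSet.ι₀ ≫ T = r ≫ i ∧ SSet.ι₁ ≫ T = 𝟙 B ∧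
      i ▷ _ ≫ T = fst _ _ ≫ i := by
  have := swhe_mono hi
  obtain ⟨r, hr⟩ := ext_of_ano hi hA (𝟙 A)
  obtain ⟨T, h, h0, h1, -⟩ := lift_both i (terminal.from B) hi ((kan_iff B).1 hB) (fst _ _ ≫ i)
    (r ≫ i) (𝟙 B) (terminal.from _) (by simp [reassoc_of% hr]) (by simp) (terminal.hom_ext _ _)
    (terminal.hom_ext _ _) (terminal.hom_ext _ _)
  exact ⟨r, T, hr, h0, h1, h⟩

end Vale.Agent.P213
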